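import Crest.Agent.S0069Lib.ChainsL1

/-!
# Smith chains in an orthonormal frame

For a family `u : ℕ → Fin n → ℝ` orthonormal on indices `< N`, the map
`ph u N x = unitize (Σ_{m<N} x m • u m)` sends the `ℓ¹` model to unit vectors; it is odd.  The image chains
`fc u N K k` satisfy the Smith identity (`fc_St`).  Tuples on level `k < N` have length `k + 1`, consist of
unit vectors (`fc_unit`), orthogonal to whatever is orthogonal to `u 0, …, u k` (`fc_orth`),
and `Σ (x i - y i)² ≤ N (2k/K)²` for `x, y` in one tuple (`fc_close`).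
-/

set_option autoImplicit false

namespace Crest.Agent.S0069Lib.Chains

open Finset

noncomputable section

variable {n : ℕ}

/-- The linear image of a model point. -/
def lin (u : ℕ → Fin n → ℝ) (N : ℕ) (x : Pt) : Fin n → ℝ := fun i => ∑ m ∈ range N, x m * u m i

/-- Normalisation. -/
def unitize (a : Fin n → ℝ) : Fin n → ℝ := fun i => a i / Real.sqrt (∑ k, a k ^ 2)

/-- The normalised linear image. -/
def ph (u : ℕ → Fin n → ℝ) (N : ℕ) (x : Pt) : Fin n → ℝ := unitize (lin u N x)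

/-- Orthonormality on the indices below `N`. -/
def IsFrame (u : ℕ → Fin n → ℝ) (N : ℕ) : Prop :=
  ∀ i j, i < N → j < N → ∑ k, u i k * u j k = if i = j then 1 else 0

theorem lin_neg (u : ℕ → Fin n → ℝ) (N : ℕ) (x : Pt) : lin u N (-x) = - lin u N x := by
  funext i
  simp [lin, Finset.sum_neg_distrib]

theorem unitize_neg (a : Fin n → ℝ) : unitize (-a) = - unitize a := by
  funext i
  simp [unitize, neg_div]

/-- `ph` is odd. -/
theorem ph_neg (u : ℕ → Fin n → ℝ) (N : ℕ) (x : Pt) : ph u N (-x) = - ph u N x := by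
  simp [ph, lin_neg, unitize_neg]

theorem inner_lin {u : ℕ → Fin n → ℝ} {N : ℕ} (hu : IsFrame u N) (x y : Pt) :
    ∑ k, lin u N x k * lin u N y k = ∑ m ∈ range N, x m * y m := by
  unfold lin
  have : ∀ k : Fin n, (∑ m ∈ range N, x m * u m k) * (∑ l ∈ range N, y l * u l k)
      = ∑ m ∈ range N, ∑ l ∈ range N, (x m * y l) * (u m k * u l k) := by
    intro k
    rw [Finset.sum_mul_sum]
    refine Finset.sum_congr rfl fun m _ => Finset.sum_congr rfl fun l _ => by ring
  simp only [this]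
  rw [Finset.sum_comm]
  refine Finset.sum_congr rfl fun m hm => ?_
  rw [Finset.sum_comm]
  simp only [← Finset.mul_sum]
  rw [Finset.sum_eq_single m]
  · rw [hu m m (mem_range.1 hm) (mem_range.1 hm)]; simp
  · intro l hl hne
    rw [hu m l (mem_range.1 hm) (mem_range.1 hl)]; simp [hne.symm]
  · intro h; exact absurd hm h

theorem sum_sq_lin {u : ℕ → Fin n → ℝ} {N : ℕ} (hu : IsFrame u N) (x : Pt) :
    ∑ k, lin u N x k ^ 2 = ∑ m ∈ range N, x m ^ 2 := by
  have := inner_lin hu x x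
  simpa [sq] using this

/-- Lower bound of the `ℓ²` norm through the `ℓ¹` norm. -/
theorem one_le_card_mul_sum_sq {N : ℕ} {x : Pt} (h : l1 N x = 1) :
    1 ≤ (N : ℝ) * ∑ m ∈ range N, x m ^ 2 := by
  have := sq_sum_le_card_mul_sum_sq (s := range N) (f := fun m => |x m|)
  simp only [sq_abs, card_range] at this
  have h2 : (∑ m ∈ range N, |x m|) = 1 := h
  rw [h2] at this
  simpa using this

/-- Upper bound of the `ℓ²` norm through the `ℓ¹` norm. -/
theorem sum_sq_le_l1_sq (N : ℕ) (x : Pt) : ∑ m ∈ range N, x m ^ 2 ≤ l1 N x ^ 2 := by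
  induction N with
  | zero => simp [l1]
  | succ N ih =>
    have h1 : l1 (N + 1) x = l1 N x + |x N| := by simp [l1, Finset.sum_range_succ]
    rw [Finset.sum_range_succ, h1]
    have h2 := l1_nonneg N x
    have h3 := abs_nonneg (x N)
    have h4 : |x N| ^ 2 = x N ^ 2 := sq_abs _
    nlinarith

/-- Unit vectors after normalisation. -/
theorem sum_sq_unitize {a : Fin n → ℝ} (h : 0 < ∑ k, a k ^ 2) : ∑ k, unitize a k ^ 2 = 1 := by
  unfold unitize
  simp only [div_pow, Real.sq_sqrt h.le]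
  rw [← Finset.sum_div]
  exact div_self h.ne'

/-- The exact chord estimate for normalised vectors. -/
theorem sum_sq_unitize_sub {a b : Fin n → ℝ} (ha : 0 < ∑ k, a k ^ 2) (hb : 0 < ∑ k, b k ^ 2) :
    ∑ k, (unitize a k - unitize b k) ^ 2 * (Real.sqrt (∑ k, a k ^ 2) * Real.sqrt (∑ k, b k ^ 2))
      ≤ ∑ k, (a k - b k) ^ 2 := by
  set A := Real.sqrt (∑ k, a k ^ 2) with hA
  set B := Real.sqrt (∑ k, b k ^ 2) with hB
  have hA0 : 0 < A := Real.sqrt_pos.2 ha
  have hB0 : 0 < B := Real.sqrt_pos.2 hb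
  have hA2 : ∑ k, a k ^ 2 = A ^ 2 := (Real.sq_sqrt ha.le).symm
  have hB2 : ∑ k, b k ^ 2 = B ^ 2 := (Real.sq_sqrt hb.le).symm
  set I := ∑ k, a k * b k with hI
  have e1 : ∑ k, (a k - b k) ^ 2 = A ^ 2 + B ^ 2 - 2 * I := by
    have : ∀ k, (a k - b k) ^ 2 = a k ^ 2 + b k ^ 2 - 2 * (a k * b k) := fun k => by ring
    simp only [this, Finset.sum_sub_distrib, Finset.sum_add_distrib, ← Finset.mul_sum, hA2, hB2, hI]
  have e2 : ∑ k, (unitize a k - unitize b k) ^ 2 * (A * B) = 2 * A * B - 2 * I := by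
    have : ∀ k, (unitize a k - unitize b k) ^ 2 * (A * B)
        = (B / A) * a k ^ 2 + (A / B) * b k ^ 2 - 2 * (a k * b k) := by
      intro k
      simp only [unitize, ← hA, ← hB]
      field_simp
      ring
    simp only [this, Finset.sum_sub_distrib, Finset.sum_add_distrib, ← Finset.mul_sum, hA2, hB2, hI]
    field_simp
    ring
  rw [e1, e2]
  nlinarith [sq_nonneg (A - B)]

section Point

variable {u : ℕ → Fin n → ℝ} {N : ℕ}

theorem sum_sq_lin_pos (hu : IsFrame u N) {x : Pt} (h : l1 N x = 1) : 0 < ∑ k, lin u N x k ^ 2 := by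
  rw [sum_sq_lin hu]
  have := one_le_card_mul_sum_sq h
  by_contra hn
  have h0 : ∑ m ∈ range N, x m ^ 2 = 0 :=
    le_antisymm (not_lt.1 hn) (Finset.sum_nonneg fun _ _ => sq_nonneg _)
  rw [h0] at this
  simp at this
  linarith

/-- `ph` of a point of the model is a unit vector. -/
theorem ph_unit (hu : IsFrame u N) {x : Pt} (h : l1 N x = 1) : ∑ k, ph u N x k ^ 2 = 1 :=
  sum_sq_unitize (sum_sq_lin_pos hu h)

/-- The closeness estimate. -/
theorem ph_close (hu : IsFrame u N) {x y : Pt} (hx : l1 N x = 1) (hy : l1 N y = 1) :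
    ∑ k, (ph u N x k - ph u N y k) ^ 2 ≤ (N : ℝ) * l1 N (x - y) ^ 2 := by
  have hxp := sum_sq_lin_pos hu hx
  have hyp := sum_sq_lin_pos hu hy
  have key := sum_sq_unitize_sub hxp hyp
  have hdiff : ∑ k, (lin u N x k - lin u N y k) ^ 2 = ∑ m ∈ range N, (x - y) m ^ 2 := by
    have : ∀ k, lin u N x k - lin u N y k = lin u N (x - y) k := by
      intro k
      simp only [lin, Pi.sub_apply, sub_mul, Finset.sum_sub_distrib]
    simp only [this]
    exact sum_sq_lin hu _
  rw [hdiff] at key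
  rw [← Finset.sum_mul] at key
  have hN1 := one_le_card_mul_sum_sq hx
  have hN2 := one_le_card_mul_sum_sq hy
  rw [← sum_sq_lin hu x] at hN1
  rw [← sum_sq_lin hu y] at hN2
  set A := Real.sqrt (∑ k, lin u N x k ^ 2) with hA
  set B := Real.sqrt (∑ k, lin u N y k ^ 2) with hB
  have hA0 : 0 < A := Real.sqrt_pos.2 hxp
  have hB0 : 0 < B := Real.sqrt_pos.2 hyp
  have hA2 : ∑ k, lin u N x k ^ 2 = A ^ 2 := (Real.sq_sqrt hxp.le).symm
  have hB2 : ∑ k, lin u N y k ^ 2 = B ^ 2 := (Real.sq_sqrt hyp.le).symm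
  rw [hA2] at hN1
  rw [hB2] at hN2
  have hNpos : (0 : ℝ) < N := by
    by_contra hn
    have : (N : ℝ) = 0 := le_antisymm (not_lt.1 hn) (Nat.cast_nonneg _)
    rw [this] at hN1
    norm_num at hN1
  have hprod : 1 ≤ (N : ℝ) * (A * B) := by
    have h1 : 1 ≤ ((N : ℝ) * A ^ 2) * ((N : ℝ) * B ^ 2) := by nlinarith
    have h2 : ((N : ℝ) * (A * B)) ^ 2 = ((N : ℝ) * A ^ 2) * ((N : ℝ) * B ^ 2) := by ring
    have h3 : 0 ≤ (N : ℝ) * (A * B) := by positivity
    nlinarith
  set S := ∑ k, (unitize (lin u N x) k - unitize (lin u N y) k) ^ 2 with hS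
  have hS0 : 0 ≤ S := Finset.sum_nonneg fun _ _ => sq_nonneg _
  have hl2 := sum_sq_le_l1_sq N (x - y)
  have hchain : S ≤ (N : ℝ) * (S * (A * B)) := by nlinarith
  have : (N : ℝ) * (S * (A * B)) ≤ (N : ℝ) * l1 N (x - y) ^ 2 := by
    apply mul_le_mul_of_nonneg_left _ hNpos.le
    exact key.trans hl2
  exact hchain.trans this

/-- Orthogonality: `ph u N x` is orthogonal to whatever is orthogonal to the frame vectors carrying `x`. -/
theorem ph_orth {x : Pt} {w : Fin n → ℝ}
    (hw : ∀ m < N, x m ≠ 0 → ∑ k, w k * u m k = 0) : ∑ k, w k * ph u N x k = 0 := by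
  have h1 : ∑ k, w k * lin u N x k = 0 := by
    unfold lin
    simp only [Finset.mul_sum]
    rw [Finset.sum_comm]
    apply Finset.sum_eq_zero
    intro m hm
    by_cases hx : x m = 0
    · simp [hx]
    · have := hw m (mem_range.1 hm) hx
      have e : ∀ k, w k * (x m * u m k) = x m * (w k * u m k) := fun k => by ring
      simp only [e, ← Finset.mul_sum, this, mul_zero]
  unfold ph unitize
  have e : ∀ k, w k * (lin u N x k / Real.sqrt (∑ k, lin u N x k ^ 2))
      = (w k * lin u N x k) / Real.sqrt (∑ k, lin u N x k ^ 2) := fun k => by ring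
  simp only [e, ← Finset.sum_div, h1, zero_div]

theorem lin_eb (_hN : 0 < N) (m : ℕ) (hm : m < N) (k : Fin n) : lin u N (eb m) k = u m k := by
  unfold lin eb
  rw [Finset.sum_eq_single m]
  · simp
  · intro l _ hne; simp [hne]
  · intro h; exact absurd (mem_range.2 hm) h

/-- `ph` of a basis vector is the frame vector. -/
theorem ph_eb (hu : IsFrame u N) (m : ℕ) (hm : m < N) : ph u N (eb m) = u m := by
  have hN : 0 < N := by omega
  funext k
  have h1 : ∑ k, lin u N (eb m) k ^ 2 = 1 := by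
    rw [sum_sq_lin hu, Finset.sum_eq_single m]
    · simp [eb]
    · intro l _ hne; simp [eb, hne]
    · intro h; exact absurd (mem_range.2 hm) h
  show lin u N (eb m) k / Real.sqrt (∑ k, lin u N (eb m) k ^ 2) = u m k
  rw [h1, Real.sqrt_one, div_one, lin_eb hN m hm]

/-- `ph` depends only on the frame vectors that carry `x`. -/
theorem lin_congr {u' : ℕ → Fin n → ℝ} {N' : ℕ} {x : Pt} (M : ℕ) (hM : M ≤ N) (hM' : M ≤ N')
    (hx : ∀ i, M ≤ i → x i = 0) (hu : ∀ m < M, u m = u' m) : lin u N x = lin u' N' x := by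
  have key : ∀ (v : ℕ → Fin n → ℝ) (P : ℕ), M ≤ P → ∀ i,
      lin v P x i = ∑ m ∈ range M, x m * v m i := by
    intro v P hP i
    unfold lin
    symm
    apply Finset.sum_subset
    · intro a ha; exact mem_range.2 (lt_of_lt_of_le (mem_range.1 ha) hP)
    · intro a _ ha
      have : M ≤ a := by
        by_contra hn
        exact ha (mem_range.2 (not_le.1 hn))
      simp [hx a this]
  funext i
  rw [key u N hM, key u' N' hM']
  exact Finset.sum_congr rfl fun m hm => by rw [hu m (mem_range.1 hm)]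

end Point

/-! ### Image chains -/

/-- The Smith chains in the frame `u`. -/
def fc (u : ℕ → Fin n → ℝ) (N K k : ℕ) : List (List (Fin n → ℝ)) :=
  (cL1 K k).map (List.map (ph u N))

variable {u : ℕ → Fin n → ℝ} {N K : ℕ}

theorem ev_map_het {Q R : Type*} (f : List R → ZMod 2) (φ : List Q → List R) (c : List (List Q)) :
    ev f (c.map φ) = ev (f ∘ φ) c := by
  simp [ev]

theorem delta_map_het {Q R : Type*} (f : List R → ZMod 2) (h : Q → R) (τ : List Q) :
    delta f (τ.map h) = delta (fun l => f (l.map h)) τ := by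
  simp [delta, Fan.dels_map, Function.comp_def]

theorem map_ph_neg (u : ℕ → Fin n → ℝ) (N : ℕ) (σ : List Pt) :
    (σ.map Neg.neg).map (ph u N) = (σ.map (ph u N)).map Neg.neg := by
  simp only [List.map_map]
  apply List.map_congr_left
  intro p _
  exact ph_neg u N p

/-- The Smith identity in the frame, for every cochain. -/
theorem fc_St (hK : K ≠ 0) (k : ℕ) (f : List (Fin n → ℝ) → ZMod 2) :
    ev (delta f) (fc u N K (k + 1)) = ev (fun σ => f σ + f (σ.map Neg.neg)) (fc u N K k) := by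
  unfold fc
  rw [ev_map_het, ev_map_het]
  have h1 : ev (delta f ∘ List.map (ph u N)) (cL1 K (k + 1))
      = ev (delta (fun l => f (l.map (ph u N)))) (cL1 K (k + 1)) := by
    apply ev_congr
    intro τ _
    simp only [Function.comp_apply, delta_map_het]
  rw [h1, cL1_St hK]
  apply ev_congr
  intro σ _
  simp only [Function.comp_apply, map_ph_neg]

theorem fc_zero (hu : IsFrame u N) (hN : 0 < N) : fc u N K 0 = [[u 0]] := by
  simp [fc, cL1, smith, ph_eb hu 0 hN]

theorem fc_mem {k : ℕ} {τ : List (Fin n → ℝ)} (h : τ ∈ fc u N K k) :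
    ∃ σ ∈ cL1 K k, τ = σ.map (ph u N) := by
  obtain ⟨σ, hσ, rfl⟩ := List.mem_map.1 h
  exact ⟨σ, hσ, rfl⟩

/-- Length of the tuples. -/
theorem fc_length (hK : 0 < K) {k : ℕ} (hk : k < N) {τ : List (Fin n → ℝ)} (h : τ ∈ fc u N K k) :
    τ.length = k + 1 := by
  obtain ⟨σ, hσ, rfl⟩ := fc_mem h
  simpa using (cL1_inv hK k hk σ hσ).len

/-- Points of the tuples are unit vectors. -/
theorem fc_unit (hu : IsFrame u N) (hK : 0 < K) {k : ℕ} (hk : k < N) {τ : List (Fin n → ℝ)}
    (h : τ ∈ fc u N K k) {p : Fin n → ℝ} (hp : p ∈ τ) : ∑ i, p i ^ 2 = 1 := by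
  obtain ⟨σ, hσ, rfl⟩ := fc_mem h
  obtain ⟨q, hq, rfl⟩ := List.mem_map.1 hp
  exact ph_unit hu ((cL1_inv hK k hk σ hσ).norm q hq)

/-- Points of the tuples are orthogonal to whatever is orthogonal to `u 0, …, u k`. -/
theorem fc_orth (hK : 0 < K) {k : ℕ} (hk : k < N) {τ : List (Fin n → ℝ)}
    (h : τ ∈ fc u N K k) {p : Fin n → ℝ} (hp : p ∈ τ) {w : Fin n → ℝ}
    (hw : ∀ m ≤ k, ∑ i, w i * u m i = 0) : ∑ i, w i * p i = 0 := by
  obtain ⟨σ, hσ, rfl⟩ := fc_mem h
  obtain ⟨q, hq, rfl⟩ := List.mem_map.1 hp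
  apply ph_orth
  intro m _ hne
  apply hw
  by_contra hmk
  exact hne ((cL1_inv hK k hk σ hσ).supp q hq m (not_le.1 hmk))

/-- Closeness of the points of a tuple. -/
theorem fc_close (hu : IsFrame u N) (hK : 0 < K) {k : ℕ} (hk : k < N) {τ : List (Fin n → ℝ)}
    (h : τ ∈ fc u N K k) {p q : Fin n → ℝ} (hp : p ∈ τ) (hq : q ∈ τ) :
    ∑ i, (p i - q i) ^ 2 ≤ (N : ℝ) * (2 * (k : ℝ) / K) ^ 2 := by
  obtain ⟨σ, hσ, rfl⟩ := fc_mem h
  obtain ⟨p', hp', rfl⟩ := List.mem_map.1 hp
  obtain ⟨q', hq', rfl⟩ := List.mem_map.1 hq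
  have hinv := cL1_inv hK k hk σ hσ
  refine (ph_close hu (hinv.norm p' hp') (hinv.norm q' hq')).trans ?_
  apply mul_le_mul_of_nonneg_left _ (Nat.cast_nonneg _)
  exact pow_le_pow_left₀ (l1_nonneg _ _) (hinv.mesh p' hp' q' hq') 2

end

end Crest.Agent.S0069Lib.Chains
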