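import Crest.Agent.S0069Lib.LineGeom

/-!
# S0069: even-ization of the colouring, faces of the colour nerve, and the union rules

Throughout, `col : (Fin 4 → ℝ) → α` is an even colouring with margin `d`.  A *face* is the colour set of a
small cluster of unit vectors around a centre `x`.

* `face_avoid`: a unit vector orthogonal to the centre of a face does not carry a colour of that face.
* `no_union_ge_eight` (P1): two faces never contain eight colours of `Fin 10` (in particular no two disjoint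
  4-faces): the polar line of the two centres would carry at most two colours.
* `no_three_cover` (P2): three faces never cover all colours: the common polar point would have no colour.
-/

set_option autoImplicit false

namespace Crest.Agent.S0069Lib

open Finset

section Even

/-- A canonical representative of `{x, -x}`. -/
noncomputable def canon (x : Fin 4 → ℝ) : Fin 4 → ℝ :=
  open Classical in
  if (0 < x 0 ∨ (x 0 = 0 ∧ 0 < x 1) ∨ (x 0 = 0 ∧ x 1 = 0 ∧ 0 < x 2) ∨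
      (x 0 = 0 ∧ x 1 = 0 ∧ x 2 = 0 ∧ 0 ≤ x 3)) then x else -x

theorem canon_eq (x : Fin 4 → ℝ) : canon x = x ∨ canon x = -x := by
  unfold canon; split_ifs <;> simp

theorem canon_neg (x : Fin 4 → ℝ) : canon (-x) = canon x := by
  by_cases h0 : x = 0
  · simp [h0]
  have key : ∀ i, x i = 0 → True := fun _ _ => trivial
  unfold canon
  simp only [Pi.neg_apply, neg_pos, neg_eq_zero, neg_nonneg, neg_neg]
  have hne : ¬ (x 0 = 0 ∧ x 1 = 0 ∧ x 2 = 0 ∧ x 3 = 0) := by
    rintro ⟨a, b, c, d⟩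
    apply h0
    funext i
    fin_cases i <;> simpa
  by_cases a0 : 0 < x 0
  · have : ¬ x 0 = 0 := a0.ne'
    have h1 : ¬ x 0 < 0 := not_lt.mpr a0.le
    simp [a0, this, h1]
  · by_cases a1 : x 0 = 0
    · by_cases b0 : 0 < x 1
      · have : ¬ x 1 = 0 := b0.ne'
        have h1 : ¬ x 1 < 0 := not_lt.mpr b0.le
        simp [a1, b0, this, h1]
      · by_cases b1 : x 1 = 0
        · by_cases c0 : 0 < x 2
          · have : ¬ x 2 = 0 := c0.ne'
            have h1 : ¬ x 2 < 0 := not_lt.mpr c0.le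
            simp [a1, b1, c0, this, h1]
          · by_cases c1 : x 2 = 0
            · have d1 : x 3 ≠ 0 := fun h => hne ⟨a1, b1, c1, h⟩
              rcases lt_or_gt_of_ne d1 with d2 | d2
              · have h2 : ¬ 0 ≤ x 3 := not_le.mpr d2
                have h3 : x 3 ≤ 0 := d2.le
                simp [a1, b1, c1, h2, h3]
              · have h2 : 0 ≤ x 3 := d2.le
                have h3 : ¬ x 3 ≤ 0 := not_le.mpr d2
                simp [a1, b1, c1, h2, h3]
            · have c2 : x 2 < 0 := lt_of_le_of_ne (not_lt.mp c0) c1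
              simp [a1, b1, c0, c1, c2]
        · have b2 : x 1 < 0 := lt_of_le_of_ne (not_lt.mp b0) b1
          simp [a1, b0, b1, b2]
    · have a2 : x 0 < 0 := lt_of_le_of_ne (not_lt.mp a0) a1
      simp [a0, a1, a2]

/-- Even-ization of a colouring. -/
noncomputable def evenize {α : Type*} (C : (Fin 4 → ℝ) → α) (x : Fin 4 → ℝ) : α := C (canon x)

theorem evenize_neg {α : Type*} (C : (Fin 4 → ℝ) → α) (x : Fin 4 → ℝ) :
    evenize C (-x) = evenize C x := by
  simp [evenize, canon_neg]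

theorem sum_sq_canon (x : Fin 4 → ℝ) : ∑ i, canon x i ^ 2 = ∑ i, x i ^ 2 := by
  rcases canon_eq x with h | h <;> simp [h]

theorem abs_inner_canon (x y : Fin 4 → ℝ) :
    |∑ i, canon x i * canon y i| = |∑ i, x i * y i| := by
  rcases canon_eq x with h | h <;> rcases canon_eq y with h' | h' <;>
    simp [h, h', Finset.sum_neg_distrib]

/-- The even-ized colouring keeps the margin. -/
theorem evenize_margin {α : Type*} (C : (Fin 4 → ℝ) → α) {d : ℝ}
    (hC : ∀ x y : Fin 4 → ℝ, ∑ i, x i ^ 2 = 1 → ∑ i, y i ^ 2 = 1 → C x = C y → d ≤ |∑ i, x i * y i|)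
    (x y : Fin 4 → ℝ) (hx : ∑ i, x i ^ 2 = 1) (hy : ∑ i, y i ^ 2 = 1)
    (hc : evenize C x = evenize C y) : d ≤ |∑ i, x i * y i| := by
  have := hC (canon x) (canon y) (by rw [sum_sq_canon, hx]) (by rw [sum_sq_canon, hy]) hc
  rwa [abs_inner_canon] at this

end Even

section Cauchy

variable {n : ℕ}

/-- `|z ⬝ y| ≤ η` when `z` is a unit vector orthogonal to `x` and `|x - y|² ≤ η²`. -/
theorem abs_inner_le_of_near (x y z : Fin n → ℝ) {η : ℝ} (hη : 0 ≤ η)
    (hz : ∑ i, z i ^ 2 = 1) (hzx : ∑ i, z i * x i = 0)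
    (hxy : ∑ i, (x i - y i) ^ 2 ≤ η ^ 2) : |∑ i, z i * y i| ≤ η := by
  have e : ∑ i, z i * y i = - ∑ i, z i * (x i - y i) := by
    have : ∑ i, z i * (x i - y i) = ∑ i, z i * x i - ∑ i, z i * y i := by
      rw [← Finset.sum_sub_distrib]; exact Finset.sum_congr rfl fun i _ => by ring
    rw [this, hzx]; ring
  rw [e, abs_neg]
  have cs := Finset.sum_mul_sq_le_sq_mul_sq Finset.univ z (fun i => x i - y i)
  rw [hz, one_mul] at cs
  have : (∑ i, z i * (x i - y i)) ^ 2 ≤ η ^ 2 := cs.trans hxy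
  exact abs_le_of_sq_le_sq this hη

end Cauchy

section Ortho

/-- Any two vectors of `ℝ⁴` have an orthonormal pair in their orthogonal complement. -/
theorem exists_ortho_pair (x₁ x₂ : Fin 4 → ℝ) :
    ∃ u v : Fin 4 → ℝ, ∑ i, u i ^ 2 = 1 ∧ ∑ i, v i ^ 2 = 1 ∧ ∑ i, u i * v i = 0 ∧
      ∑ i, u i * x₁ i = 0 ∧ ∑ i, u i * x₂ i = 0 ∧
      ∑ i, v i * x₁ i = 0 ∧ ∑ i, v i * x₂ i = 0 := by
  classical
  let e₁ : EuclideanSpace ℝ (Fin 4) := WithLp.toLp 2 x₁
  let e₂ : EuclideanSpace ℝ (Fin 4) := WithLp.toLp 2 x₂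
  let F : Finset (EuclideanSpace ℝ (Fin 4)) := {e₁, e₂}
  let W : Submodule ℝ (EuclideanSpace ℝ (Fin 4)) := Submodule.span ℝ (F : Set _)
  have hW : Module.finrank ℝ W ≤ 2 :=
    (finrank_span_finset_le_card F).trans Finset.card_le_two
  have hperp : 2 ≤ Module.finrank ℝ Wᗮ := by
    have := Submodule.finrank_add_finrank_orthogonal W
    have hE : Module.finrank ℝ (EuclideanSpace ℝ (Fin 4)) = 4 := by simp
    omega
  let b := stdOrthonormalBasis ℝ Wᗮ
  let i₀ : Fin (Module.finrank ℝ Wᗮ) := ⟨0, by omega⟩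
  let i₁ : Fin (Module.finrank ℝ Wᗮ) := ⟨1, by omega⟩
  have hne : i₀ ≠ i₁ := by simp [i₀, i₁, Fin.ext_iff]
  have hmem : ∀ i, ((b i : Wᗮ) : EuclideanSpace ℝ (Fin 4)) ∈ Wᗮ := fun i => (b i).2
  have hin1 : ∀ i, inner ℝ e₁ ((b i : Wᗮ) : EuclideanSpace ℝ (Fin 4)) = 0 := fun i =>
    (Submodule.mem_orthogonal _ _).mp (hmem i) e₁ (Submodule.subset_span (by simp [F]))
  have hin2 : ∀ i, inner ℝ e₂ ((b i : Wᗮ) : EuclideanSpace ℝ (Fin 4)) = 0 := fun i =>
    (Submodule.mem_orthogonal _ _).mp (hmem i) e₂ (Submodule.subset_span (by simp [F]))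
  have hunit : ∀ i, inner ℝ ((b i : Wᗮ) : EuclideanSpace ℝ (Fin 4))
      ((b i : Wᗮ) : EuclideanSpace ℝ (Fin 4)) = 1 := fun i => by
    have h2 : ‖((b i : Wᗮ) : EuclideanSpace ℝ (Fin 4))‖ = 1 := b.orthonormal.1 i
    rw [real_inner_self_eq_norm_sq, h2]; norm_num
  have horth : inner ℝ ((b i₀ : Wᗮ) : EuclideanSpace ℝ (Fin 4))
      ((b i₁ : Wᗮ) : EuclideanSpace ℝ (Fin 4)) = 0 := b.orthonormal.2 hne
  have inner_eq : ∀ a c : EuclideanSpace ℝ (Fin 4), inner ℝ a c = ∑ i, a i * c i := by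
    intro a c
    simp [PiLp.inner_apply, RCLike.inner_apply, mul_comm]
  refine ⟨fun i => ((b i₀ : Wᗮ) : EuclideanSpace ℝ (Fin 4)) i,
    fun i => ((b i₁ : Wᗮ) : EuclideanSpace ℝ (Fin 4)) i, ?_, ?_, ?_, ?_, ?_, ?_, ?_⟩
  · have := hunit i₀; rw [inner_eq] at this; simpa [sq] using this
  · have := hunit i₁; rw [inner_eq] at this; simpa [sq] using this
  · have := horth; rw [inner_eq] at this; exact this
  · have := hin1 i₀; rw [inner_eq] at this; simpa [e₁, mul_comm] using this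
  · have := hin2 i₀; rw [inner_eq] at this; simpa [e₂, mul_comm] using this
  · have := hin1 i₁; rw [inner_eq] at this; simpa [e₁, mul_comm] using this
  · have := hin2 i₁; rw [inner_eq] at this; simpa [e₂, mul_comm] using this

/-- Any three vectors of `ℝ⁴` have a unit vector orthogonal to all of them. -/
theorem exists_ortho_unit (x₁ x₂ x₃ : Fin 4 → ℝ) :
    ∃ z : Fin 4 → ℝ, ∑ i, z i ^ 2 = 1 ∧
      ∑ i, z i * x₁ i = 0 ∧ ∑ i, z i * x₂ i = 0 ∧ ∑ i, z i * x₃ i = 0 := by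
  obtain ⟨u, v, hu, hv, huv, hu1, hu2, hv1, hv2⟩ := exists_ortho_pair x₁ x₂
  -- a unit combination of `u, v` orthogonal to `x₃`
  set a := ∑ i, u i * x₃ i with ha
  set b := ∑ i, v i * x₃ i with hb
  by_cases h : a = 0 ∧ b = 0
  · exact ⟨u, hu, hu1, hu2, by rw [← ha]; exact h.1⟩
  · have hpos : 0 < a ^ 2 + b ^ 2 := by
      by_contra hneg
      have ha0 : a = 0 := by nlinarith [sq_nonneg a, sq_nonneg b]
      have hb0 : b = 0 := by nlinarith [sq_nonneg a, sq_nonneg b]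
      exact h ⟨ha0, hb0⟩
    set r := Real.sqrt (a ^ 2 + b ^ 2) with hr
    have hr0 : 0 < r := Real.sqrt_pos.mpr hpos
    have hr2 : r ^ 2 = a ^ 2 + b ^ 2 := Real.sq_sqrt hpos.le
    refine ⟨fun i => (b / r) * u i - (a / r) * v i, ?_, ?_, ?_, ?_⟩
    · have : ∀ i, ((b / r) * u i - (a / r) * v i) ^ 2
          = (b / r) ^ 2 * u i ^ 2 + (a / r) ^ 2 * v i ^ 2 - 2 * (b / r) * (a / r) * (u i * v i) := by
        intro i; ring
      simp only [this, Finset.sum_sub_distrib, Finset.sum_add_distrib, ← Finset.mul_sum, hu, hv, huv]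
      field_simp
      nlinarith
    · have : ∀ i, ((b / r) * u i - (a / r) * v i) * x₁ i
          = (b / r) * (u i * x₁ i) - (a / r) * (v i * x₁ i) := by intro i; ring
      simp only [this, Finset.sum_sub_distrib, ← Finset.mul_sum, hu1, hv1]; ring
    · have : ∀ i, ((b / r) * u i - (a / r) * v i) * x₂ i
          = (b / r) * (u i * x₂ i) - (a / r) * (v i * x₂ i) := by intro i; ring
      simp only [this, Finset.sum_sub_distrib, ← Finset.mul_sum, hu2, hv2]; ring
    · have : ∀ i, ((b / r) * u i - (a / r) * v i) * x₃ i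
          = (b / r) * (u i * x₃ i) - (a / r) * (v i * x₃ i) := by intro i; ring
      simp only [this, Finset.sum_sub_distrib, ← Finset.mul_sum, ← ha, ← hb]; ring

end Ortho

section Faces

variable {α : Type*}

/-- A colour set `σ` is a *face at scale `η`* if its colours all occur on unit vectors within `η` of a
common unit vector. -/
def IsFace (col : (Fin 4 → ℝ) → α) (η : ℝ) (σ : Finset α) : Prop :=
  ∃ x : Fin 4 → ℝ, ∑ i, x i ^ 2 = 1 ∧ ∀ a ∈ σ, ∃ y : Fin 4 → ℝ, ∑ i, y i ^ 2 = 1 ∧ col y = a ∧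
    ∑ i, (x i - y i) ^ 2 ≤ η ^ 2

theorem IsFace.mono {col : (Fin 4 → ℝ) → α} {η : ℝ} {σ τ : Finset α} (h : IsFace col η σ)
    (hτ : τ ⊆ σ) : IsFace col η τ := by
  obtain ⟨x, hx, hy⟩ := h
  exact ⟨x, hx, fun a ha => hy a (hτ ha)⟩

/-- A unit vector orthogonal to the centre of a face avoids the colours of the face. -/
theorem face_avoid {col : (Fin 4 → ℝ) → α} {d η : ℝ}
    (hmargin : ∀ x y : Fin 4 → ℝ, ∑ i, x i ^ 2 = 1 → ∑ i, y i ^ 2 = 1 → col x = col y →
      d ≤ |∑ i, x i * y i|)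
    (hη0 : 0 ≤ η) (hη : η < d)
    {σ : Finset α} {x : Fin 4 → ℝ}
    (hσ : ∀ a ∈ σ, ∃ y : Fin 4 → ℝ, ∑ i, y i ^ 2 = 1 ∧ col y = a ∧ ∑ i, (x i - y i) ^ 2 ≤ η ^ 2)
    (z : Fin 4 → ℝ) (hz : ∑ i, z i ^ 2 = 1) (hzx : ∑ i, z i * x i = 0) : col z ∉ σ := by
  intro hmem
  obtain ⟨y, hy, hcy, hxy⟩ := hσ _ hmem
  have h1 := abs_inner_le_of_near x y z hη0 hz hzx hxy
  have h2 := hmargin z y hz hy hcy.symm
  linarith

/-- (P2) Three faces never cover all colours. -/
theorem no_three_cover [Fintype α] [DecidableEq α] {col : (Fin 4 → ℝ) → α} {d η : ℝ}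
    (hmargin : ∀ x y : Fin 4 → ℝ, ∑ i, x i ^ 2 = 1 → ∑ i, y i ^ 2 = 1 → col x = col y →
      d ≤ |∑ i, x i * y i|)
    (hη0 : 0 ≤ η) (hη : η < d)
    {σ τ ρ : Finset α} (hσ : IsFace col η σ) (hτ : IsFace col η τ) (hρ : IsFace col η ρ)
    (hcover : σ ∪ τ ∪ ρ = Finset.univ) : False := by
  obtain ⟨x₁, -, h₁⟩ := hσ
  obtain ⟨x₂, -, h₂⟩ := hτ
  obtain ⟨x₃, -, h₃⟩ := hρ
  obtain ⟨z, hz, hz1, hz2, hz3⟩ := exists_ortho_unit x₁ x₂ x₃
  have hm : col z ∈ σ ∪ τ ∪ ρ := by rw [hcover]; exact Finset.mem_univ _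
  simp only [Finset.mem_union] at hm
  rcases hm with (hm | hm) | hm
  · exact face_avoid hmargin hη0 hη h₁ z hz hz1 hm
  · exact face_avoid hmargin hη0 hη h₂ z hz hz2 hm
  · exact face_avoid hmargin hη0 hη h₃ z hz hz3 hm

/-- (P1) The union of two faces misses at least three colours: otherwise the polar line of the two centres
would carry at most two colours. -/
theorem no_two_colours_off_two_faces [DecidableEq α] {col : (Fin 4 → ℝ) → α} {d η : ℝ}
    (heven : ∀ x, col (-x) = col x)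
    (hmargin : ∀ x y : Fin 4 → ℝ, ∑ i, x i ^ 2 = 1 → ∑ i, y i ^ 2 = 1 → col x = col y →
      d ≤ |∑ i, x i * y i|)
    (hd : 0 < d) (hη0 : 0 ≤ η) (hη : η < d)
    {σ τ : Finset α} (hσ : IsFace col η σ) (hτ : IsFace col η τ)
    (a b : α) (hcover : ∀ c, c ∈ σ ∪ τ ∨ c = a ∨ c = b) : False := by
  obtain ⟨x₁, -, h₁⟩ := hσ
  obtain ⟨x₂, -, h₂⟩ := hτ
  obtain ⟨u, v, hu, hv, huv, hu1, hu2, hv1, hv2⟩ := exists_ortho_pair x₁ x₂
  -- pick a fine polygon
  obtain ⟨N, hN⟩ := exists_nat_gt (Real.pi / (2 * d))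
  have hNpos : 0 < N + 1 := Nat.succ_pos N
  have hNd : Real.pi / (2 * ((N + 1 : ℕ) : ℝ)) < d := by
    have hN1 : (0 : ℝ) < ((N + 1 : ℕ) : ℝ) := by exact_mod_cast hNpos
    have : Real.pi / (2 * d) < ((N + 1 : ℕ) : ℝ) := by push_cast; linarith
    rw [div_lt_iff₀ (by positivity)] at this ⊢
    nlinarith
  refine line_three_colours col heven hmargin hd u v hu hv huv hNpos hNd a b fun j => ?_
  -- the polygon point is orthogonal to both centres
  set p := polyPt u v (N + 1) j with hp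
  have hpu : ∑ i, p i ^ 2 = 1 := circlePt_unit u v hu hv huv _
  have orth : ∀ w : Fin 4 → ℝ, ∑ i, u i * w i = 0 → ∑ i, v i * w i = 0 → ∑ i, p i * w i = 0 := by
    intro w h1 h2
    set θ := ((j : ℝ) * (Real.pi / (2 * ((N + 1 : ℕ) : ℝ))))
    have : ∀ i, p i * w i = Real.cos θ * (u i * w i) + Real.sin θ * (v i * w i) := by
      intro i; simp only [hp, polyPt, circlePt, θ]; ring
    simp only [this, Finset.sum_add_distrib, ← Finset.mul_sum, h1, h2]; ring
  rcases hcover (col p) with hm | hm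
  · exfalso
    rw [Finset.mem_union] at hm
    rcases hm with hm | hm
    · exact face_avoid hmargin hη0 hη h₁ p hpu (orth x₁ hu1 hv1) hm
    · exact face_avoid hmargin hη0 hη h₂ p hpu (orth x₂ hu2 hv2) hm
  · exact hm

/-- (P1), cardinality form: two faces never have a union of at least eight colours among ten. -/
theorem no_union_ge_eight {col : (Fin 4 → ℝ) → Fin 10} {d η : ℝ}
    (heven : ∀ x, col (-x) = col x)
    (hmargin : ∀ x y : Fin 4 → ℝ, ∑ i, x i ^ 2 = 1 → ∑ i, y i ^ 2 = 1 → col x = col y →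
      d ≤ |∑ i, x i * y i|)
    (hd : 0 < d) (hη0 : 0 ≤ η) (hη : η < d)
    {σ τ : Finset (Fin 10)} (hσ : IsFace col η σ) (hτ : IsFace col η τ)
    (hcard : 8 ≤ (σ ∪ τ).card) : False := by
  classical
  have hc : ((σ ∪ τ)ᶜ).card ≤ 2 := by
    rw [Finset.card_compl, Fintype.card_fin]; omega
  obtain ⟨a, b, hab⟩ : ∃ a b : Fin 10, (σ ∪ τ)ᶜ ⊆ {a, b} := by
    rcases Finset.eq_empty_or_nonempty (σ ∪ τ)ᶜ with h | ⟨a, ha⟩
    · exact ⟨0, 0, by simp [h]⟩
    · have h1 : ((σ ∪ τ)ᶜ.erase a).card ≤ 1 := by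
        rw [Finset.card_erase_of_mem ha]; omega
      rcases Finset.card_le_one_iff_subset_singleton.mp h1 with ⟨b, hb⟩
      refine ⟨a, b, fun c hc' => ?_⟩
      by_cases hca : c = a
      · simp [hca]
      · have : c ∈ (σ ∪ τ)ᶜ.erase a := Finset.mem_erase.mpr ⟨hca, hc'⟩
        have := hb this
        simp only [Finset.mem_singleton] at this
        simp [this]
  refine no_two_colours_off_two_faces heven hmargin hd hη0 hη hσ hτ a b fun c => ?_
  by_cases hmem : c ∈ σ ∪ τ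
  · exact Or.inl hmem
  · have := hab (Finset.mem_compl.mpr hmem)
    simp only [Finset.mem_insert, Finset.mem_singleton] at this
    exact Or.inr this

end Faces

end Crest.Agent.S0069Lib
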