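import Crest.Agent.S0069Lib.CoreBridge

/-!
# S0069: the finite combinatorial core

No families `F4` (tetrahedra) and `F3` (triples) on ten points with the following properties.
(SAT-checked; the refutation is replayed in the kernel, see `CoreRup.lean`, `CoreBridge.lean`.
Closure of the faces is not needed.)
-/

set_option autoImplicit false

namespace Crest.Agent.S0069Lib

open Finset

open CoreBridge Rup in
/-- **Combinatorial core.** -/
theorem core_finite (F4 F3 : Finset (Fin 10) → Prop)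
    (hne : ∃ Q, Q.card = 4 ∧ F4 Q)
    (hP1 : ∀ Q Q', Q.card = 4 → Q'.card = 4 → F4 Q → F4 Q' → ¬ Disjoint Q Q')
    (hP2 : ∀ Q T T', Q.card = 4 → T.card = 3 → T'.card = 3 → F4 Q → F3 T → F3 T' →
      Q ∪ T ∪ T' = univ → False)
    (hZ : ∀ Q, Q.card = 4 → F4 Q → ∃ Z : Finset (Finset (Fin 10)),
      (∀ T ∈ Z, T.card = 3 ∧ Disjoint T Q ∧ F3 T ∧ ∃ m ∈ Q, F4 (insert m T)) ∧
      (∀ T, T.card = 3 → Disjoint T Q → (T ∈ Z ↔ (Qᶜ \ T) ∉ Z)) ∧
      (∀ e : Finset (Fin 10), e.card = 2 → Disjoint e Q → Even (Z.filter (fun T => e ⊆ T)).card)) :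
    False := by
  classical
  obtain ⟨Q₀, hQ₀, hF₀⟩ := hne
  have h15 : (setOf 15).card = 4 := quad_card quad15
  -- a relabelling taking `0123` to `Q₀`
  obtain ⟨σ₀, hσ₀⟩ : ∃ σ : Equiv.Perm (Fin 10), (setOf 15).map σ.toEmbedding = Q₀ := by
    have hcard : (setOf 15).card = Q₀.card := by rw [h15, hQ₀]
    let e0 := Finset.equivOfCardEq hcard
    let e1 : {x // x ∈ setOf 15} ≃ {x // x ∈ Q₀} := e0
    refine ⟨e1.extendSubtype, ?_⟩
    apply Finset.eq_of_subset_of_card_le
    · intro y hy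
      obtain ⟨x, hx, rfl⟩ := Finset.mem_map.mp hy
      have := Equiv.extendSubtype_mem e1 x hx
      exact this
    · rw [card_map, h15, hQ₀]
  set w : ℕ → Bool := vv F4 F3 σ₀ with hw
  have hw15 : w 15 = true := (vv_quad h15).mpr (by rw [hσ₀]; exact hF₀)
  -- the complementary rule
  have hx : ∀ T ∈ T10, w (Rup.cmp 15 T) = !(w T) := by
    intro T hT
    obtain ⟨h1, h2⟩ := T10_spec T hT
    have h3 := v_tri_iff (σ := σ₀) hP2 hZ 15 T quad15 h1 h2 hw15
    have h4 := v_nand (σ := σ₀) hP2 15 T quad15 h1 h2 hw15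
    cases ha : w T <;> cases hb : w (Rup.cmp 15 T)
    · rw [hw] at ha hb
      rw [ha, hb] at h3
      simp at h3
    · rfl
    · rfl
    · exact (h4 ha hb).elim
  have hW := W_eq w hx
  -- the even rule
  have hev : evenOK (T10.map w) = true := by
    unfold evenOK
    rw [List.all_eq_true]
    intro p hp
    obtain ⟨h1, h2, h3, h4, h5, h6, h7⟩ := pairsB_spec p hp
    have := v_even (σ := σ₀) hP2 hZ 15 p.1 p.2.1 p.2.2.1 p.2.2.2.1 p.2.2.2.2 quad15 h1 h2 h3 hw15
    rw [← hW _ h4, ← hW _ h5, ← hW _ h6, ← hW _ h7]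
    rw [hw, this]
    rfl
  have hcl := classify (w 112) (w 176) (w 304) (w 560) (w 208) (w 336) (w 592) (w 400) (w 656) (w 784) hev
  obtain ⟨L, hL, hcase⟩ := hcl
  -- the new relabelling
  have hbij := fn_bij L hL
  let π : Equiv.Perm (Fin 10) := Equiv.ofBijective (fn L) hbij
  let σ : Equiv.Perm (Fin 10) := π.trans σ₀
  have hmap : ∀ m ∈ 15 :: triB, (setOf m).map σ.toEmbedding = (setOf (pmL L m)).map σ₀.toEmbedding := by
    intro m hm
    rw [← pmL_spec L hL m hm]
    ext y
    simp only [Finset.mem_map, Finset.mem_image]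
    constructor
    · rintro ⟨x, hx, rfl⟩
      exact ⟨fn L x, ⟨x, hx, rfl⟩, rfl⟩
    · rintro ⟨z, ⟨x, hx, rfl⟩, rfl⟩
      exact ⟨x, hx, rfl⟩
  have hcardm : ∀ m ∈ 15 :: triB, (setOf (pmL L m)).card = (setOf m).card := by
    intro m hm
    rw [← pmL_spec L hL m hm, Finset.card_image_of_injective _ hbij.1]
  have htrans : ∀ m ∈ 15 :: triB, vv F4 F3 σ m = w (pmL L m) := by
    intro m hm
    rw [hw]
    unfold vv
    rw [hmap m hm, hcardm m hm]
  have hv15 : vv F4 F3 σ 15 = true := by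
    rw [htrans 15 (by simp), pmL_15 L hL]
    exact hw15
  have hvtri : ∀ m ∈ triB, vv F4 F3 σ m = W (T10.map w) (pmL L m) := by
    intro m hm
    rw [htrans m (List.mem_cons_of_mem _ hm), hW _ (pmL_tri L hL m hm)]
  rcases hcase with hc | hc
  · refine DataRp.no_valid (vv F4 F3 σ) (valid_vv hP1 hP2 hZ ?_ ?_)
    · intro i hi
      rcases tpR_spec i (lt_of_tb tpR_small hi) hi with rfl | hm
      · exact hv15
      · rw [hvtri i hm]
        have := hc i hm
        rw [hi] at this
        exact this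
    · intro i hi
      obtain ⟨hm, h0⟩ := tnR_spec i (lt_of_tb tnR_small hi) hi
      rw [hvtri i hm]
      have := hc i hm
      rw [h0] at this
      exact this
  · refine DataOther.no_valid (vv F4 F3 σ) (valid_vv hP1 hP2 hZ ?_ ?_)
    · intro i hi
      rcases tpO_spec i (lt_of_tb tpO_small hi) hi with rfl | hm
      · exact hv15
      · rw [hvtri i hm]
        have := hc i hm
        rw [hi] at this
        exact this
    · intro i hi
      obtain ⟨hm, h0⟩ := tnO_spec i (lt_of_tb tnO_small hi) hi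
      rw [hvtri i hm]
      have := hc i hm
      rw [h0] at this
      exact this

end Crest.Agent.S0069Lib
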