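import Mathlib

/-!
# Ky Fan parity for tuple chains (abstract)

Tuples are lists; a `k`-cochain is any function on lists with values in `ZMod 2`;
`dels` lists the one-point deletions. No topology: only the chain identity
`St : Σ_{τ ∈ c (k+1)} δ f τ = Σ_{σ ∈ c k} (f σ + f (-σ))`, valid for *all* `f`.

Main results: `fan_parity` (the alternating count on `c k` is `1`) and `exists_rainbow`.
-/

namespace Crest.Agent.S0069Lib.Fan

/-- All one-point deletions of a list. -/
def dels {α : Type*} : List α → List (List α)
  | [] => []
  | x :: xs => xs :: (dels xs).map (x :: ·)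

theorem dels_map {α β : Type*} (f : α → β) (l : List α) :
    dels (l.map f) = (dels l).map (List.map f) := by
  induction l with
  | nil => rfl
  | cons x xs ih =>
    simp only [List.map_cons, dels, ih, List.map_map]
    congr 1

theorem sublist_of_mem_dels {α : Type*} {l d : List α} (h : d ∈ dels l) : d.Sublist l := by
  induction l generalizing d with
  | nil => simp [dels] at h
  | cons x xs ih =>
    simp only [dels, List.mem_cons, List.mem_map] at h
    rcases h with rfl | ⟨e, he, rfl⟩
    · exact List.sublist_cons_self _ _
    · exact (ih he).cons_cons x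

/-- `dels` in terms of `eraseIdx`. -/
theorem dels_eq_eraseIdx {α : Type*} (l : List α) :
    dels l = (List.range l.length).map l.eraseIdx := by
  induction l with
  | nil => rfl
  | cons x xs ih =>
    simp only [dels, List.length_cons, List.range_succ_eq_map, List.map_cons, ih, List.map_map]
    simp only [List.eraseIdx_cons_zero, List.cons.injEq, true_and]
    apply List.map_congr_left
    intro i _
    simp

/-- Sum over deletions is invariant under permutations for a permutation-invariant cochain. -/
theorem sum_dels_perm {α : Type*} {u v : List α} (h : u.Perm v) :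
    ∀ {F : List α → ZMod 2}, (∀ a b : List α, a.Perm b → F a = F b) →
      ((dels u).map F).sum = ((dels v).map F).sum := by
  induction h with
  | nil => intro F _; rfl
  | @cons x l₁ l₂ _ ih =>
    intro F hF
    simp only [dels, List.map_cons, List.map_map, List.sum_cons]
    have h1 : F l₁ = F l₂ := hF _ _ ‹l₁.Perm l₂›
    have h2 := @ih (fun a => F (x :: a)) (fun a b hab => hF _ _ (hab.cons x))
    simp only [Function.comp_def] at *
    rw [h1, h2]
  | @swap x y l =>
    intro F hF
    simp only [dels, List.map_cons, List.map_map, List.sum_cons]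
    have h1 : ((dels l).map (F ∘ (fun d => y :: d) ∘ fun d => x :: d)).sum
        = ((dels l).map (F ∘ (fun d => x :: d) ∘ fun d => y :: d)).sum := by
      congr 1
      apply List.map_congr_left
      intro d _
      exact hF _ _ (List.Perm.swap _ _ _)
    simp only [Function.comp_def] at *
    rw [h1]
    abel
  | trans _ _ ih1 ih2 =>
    intro F hF
    rw [ih1 hF, ih2 hF]

/-- `alt s w = 1` iff the bit word `w` alternates, starting with the bit `s`. -/
def alt : Bool → List Bool → ZMod 2
  | _, [] => 1
  | s, b :: w => if b = s then alt (!s) w else 0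

theorem two_eq (x : ZMod 2) : x + x = 0 := CharTwo.add_self_eq_zero x

/-- The word identity behind Ky Fan's lemma. -/
theorem alt_dels (w : List Bool) (hw : w ≠ []) (s : Bool) :
    ((dels w).map (alt s)).sum = alt true w + alt false w := by
  induction w generalizing s with
  | nil => exact absurd rfl hw
  | cons b w' ih =>
    have hsplit : alt true (b :: w') + alt false (b :: w') = alt s (b :: w') + alt (!s) (b :: w') := by
      cases s <;> simp [add_comm]
    rw [hsplit]
    by_cases hw' : w' = []
    · subst hw'
      cases s <;> cases b <;> simp [dels, alt]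
    · have hih := ih hw' (!s)
      have hsplit' : alt true w' + alt false w' = alt s w' + alt (!s) w' := by
        cases s <;> simp [add_comm]
      simp only [dels, List.map_cons, List.map_map, List.sum_cons]
      have hcomp : ((dels w').map (alt s ∘ fun d => b :: d)).sum
          = if b = s then ((dels w').map (alt (!s))).sum else 0 := by
        by_cases hb : b = s
        · subst hb
          simp only [if_true]
          congr 1
          apply List.map_congr_left
          intro d _
          simp [alt]
        · simp only [hb, if_false]
          have : ∀ d ∈ dels w', (alt s ∘ fun d => b :: d) d = 0 := by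
            intro d _
            simp [alt, hb]
          rw [List.map_congr_left this]
          simp
      rw [hcomp]
      by_cases hb : b = s
      · subst hb
        simp only [if_true, alt]
        rw [hih, hsplit']
        have h2 : alt b w' + (alt b w' + alt (!b) w') = alt (!b) w' := by
          rw [← add_assoc, two_eq, zero_add]
        simp [h2]
      · have hb' : b = !s := by cases b <;> cases s <;> simp_all
        simp [hb', alt]

/-- Sorted bit word of a list of encoded letters `2 * label + bit`. -/
def word (u : List ℕ) : List Bool :=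
  (u.insertionSort (· ≤ ·)).map (fun n => decide (n % 2 = 1))

/-- The Fan cochain on encoded letters. -/
def A (s : Bool) (u : List ℕ) : ZMod 2 :=
  if (u.map (· / 2)).Nodup then alt s (word u) else 0

theorem word_perm {u v : List ℕ} (h : u.Perm v) : word u = word v := by
  unfold word
  congr 1
  apply List.Perm.eq_of_pairwise (le := (· ≤ ·))
  · intro a b _ _ hab hba; exact le_antisymm hab hba
  · exact List.pairwise_insertionSort _ _
  · exact List.pairwise_insertionSort _ _
  · exact (List.perm_insertionSort _ _).trans (h.trans (List.perm_insertionSort _ _).symm)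

theorem A_perm (s : Bool) {u v : List ℕ} (h : u.Perm v) : A s u = A s v := by
  unfold A
  rw [word_perm h]
  have : (u.map (· / 2)).Nodup ↔ (v.map (· / 2)).Nodup := (h.map _).nodup_iff
  simp [this]

/-- Two equal labels force equal letters: the "no complementary edge" hypothesis. -/
def Good (u : List ℕ) : Prop := ∀ x ∈ u, ∀ y ∈ u, x / 2 = y / 2 → x = y

/-- The cochain identity `δ A_s = A_+ + A_-` on good lists. -/
theorem delta_A (s : Bool) (u : List ℕ) (hu : u ≠ []) (hg : Good u) :
    ((dels u).map (A s)).sum = A true u + A false u := by
  by_cases hnd : (u.map (· / 2)).Nodup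
  · -- rainbow case
    set v := u.insertionSort (· ≤ ·) with hv
    have hvu : v.Perm u := List.perm_insertionSort _ _
    have hsorted : v.Pairwise (· ≤ ·) := List.pairwise_insertionSort _ _
    have hndv : (v.map (· / 2)).Nodup := (hvu.map _).nodup_iff.2 hnd
    rw [sum_dels_perm hvu.symm (F := A s) (fun a b hab => A_perm s hab)]
    have hface : ∀ d ∈ dels v, A s d = (alt s ∘ List.map (fun n => decide (n % 2 = 1))) d := by
      intro d hd
      have hsub := sublist_of_mem_dels hd
      have hnd' : (d.map (· / 2)).Nodup := (hsub.map _).nodup hndv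
      have hs : d.Pairwise (· ≤ ·) := hsorted.sublist hsub
      have hins : d.insertionSort (· ≤ ·) = d := by
        apply List.Perm.eq_of_pairwise (le := (· ≤ ·))
        · intro a b _ _ hab hba; exact le_antisymm hab hba
        · exact List.pairwise_insertionSort _ _
        · exact hs
        · exact List.perm_insertionSort _ _
      simp [A, hnd', word, hins]
    rw [List.map_congr_left hface, ← List.map_map, ← dels_map]
    have hne : v.map (fun n => decide (n % 2 = 1)) ≠ [] := by
      intro h
      have hv0 : v = [] := by simpa using h
      rw [hv0] at hvu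
      exact hu hvu.symm.eq_nil
    rw [alt_dels _ hne s]
    simp [A, hnd, word, hv]
  · -- a repeated label: a repeated letter
    have hndu : ¬ u.Nodup := fun h => hnd (h.map_on fun x hx y hy hxy => hg x hx y hy hxy)
    obtain ⟨x, hx⟩ := List.exists_duplicate_iff_not_nodup.2 hndu
    have hsub : [x, x].Sublist u := List.duplicate_iff_sublist.1 hx
    obtain ⟨w, hw⟩ := hsub.exists_perm_append
    have hw' : u.Perm (x :: x :: w) := by simpa using hw
    rw [sum_dels_perm hw' (F := A s) (fun a b hab => A_perm s hab)]
    have hzero : ∀ d ∈ dels w, (A s ∘ (fun d => x :: d) ∘ fun d => x :: d) d = 0 := by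
      intro d _
      simp [A]
    simp only [dels, List.map_cons, List.map_map, List.sum_cons]
    rw [List.map_congr_left hzero]
    simp only [List.map_const', List.sum_replicate, smul_zero, add_zero]
    rw [two_eq]
    simp [A, hnd]

/-! ### Flipping bits -/

/-- Flip the bit of an encoded letter. -/
def flip (n : ℕ) : ℕ := if n % 2 = 1 then n - 1 else n + 1

theorem flip_div (n : ℕ) : flip n / 2 = n / 2 := by
  unfold flip; split_ifs <;> omega

theorem flip_mod (n : ℕ) : decide (flip n % 2 = 1) = !decide (n % 2 = 1) := by
  unfold flip
  split_ifs with h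
  · have : (n - 1) % 2 ≠ 1 := by omega
    simp [h, this]
  · have : (n + 1) % 2 = 1 := by omega
    simp [h, this]

theorem alt_not (s : Bool) (w : List Bool) : alt s (w.map not) = alt (!s) w := by
  induction w generalizing s with
  | nil => rfl
  | cons b w ih =>
    simp only [List.map_cons, alt]
    rw [ih]
    cases s <;> cases b <;> simp

theorem word_flip {u : List ℕ} (h : (u.map (· / 2)).Nodup) :
    word (u.map flip) = (word u).map not := by
  unfold word
  have hvu : (u.insertionSort (· ≤ ·)).Perm u := List.perm_insertionSort _ _
  have hsort : ((u.map flip).insertionSort (· ≤ ·)) = (u.insertionSort (· ≤ ·)).map flip := by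
    apply List.Perm.eq_of_pairwise (le := (· ≤ ·))
    · intro a b _ _ hab hba; exact le_antisymm hab hba
    · exact List.pairwise_insertionSort _ _
    · have hs : (u.insertionSort (· ≤ ·)).Pairwise (· ≤ ·) := List.pairwise_insertionSort _ _
      have hn : ((u.insertionSort (· ≤ ·)).map (· / 2)).Nodup := (hvu.map _).nodup_iff.2 h
      rw [List.Nodup, List.pairwise_map] at hn
      rw [List.pairwise_map]
      refine (hs.and hn).imp ?_
      rintro a b ⟨hab, hne⟩
      have h1 := flip_div a
      have h2 := flip_div b
      have h3 : a / 2 ≤ b / 2 := Nat.div_le_div_right hab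
      have h4 : a / 2 < b / 2 := lt_of_le_of_ne h3 hne
      omega
    · exact (List.perm_insertionSort _ _).trans (hvu.map flip).symm
  rw [hsort, List.map_map, List.map_map]
  apply List.map_congr_left
  intro n _
  simp [flip_mod]

theorem A_flip (s : Bool) (u : List ℕ) : A s (u.map flip) = A (!s) u := by
  unfold A
  have hl : (u.map flip).map (· / 2) = u.map (· / 2) := by
    rw [List.map_map]; apply List.map_congr_left; intro n _; exact flip_div n
  rw [hl]
  split_ifs with h
  · rw [word_flip h, alt_not]
  · rfl

/-! ### The chain theorem -/

section Chain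

variable {P : Type*} (neg : P → P) (lab : P → ℕ) (bit : P → Bool)

/-- Letter of a point: `2 * label + bit`. -/
def enc (p : P) : ℕ := 2 * lab p + (if bit p then 1 else 0)

theorem enc_div (p : P) : enc lab bit p / 2 = lab p := by
  unfold enc; split_ifs <;> omega

theorem enc_neg (hlab : ∀ p, lab (neg p) = lab p) (hbit : ∀ p, bit (neg p) = !bit p) (p : P) :
    enc lab bit (neg p) = flip (enc lab bit p) := by
  unfold enc flip
  rw [hlab, hbit]
  cases hb : bit p <;> simp

/-- The Fan cochain on point tuples. -/
def fanPlus (τ : List P) : ZMod 2 := A true (τ.map (enc lab bit))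

/-- The alternating indicator on point tuples: distinct labels, sorted bits alternate. -/
def fanAlt (τ : List P) : ZMod 2 := A true (τ.map (enc lab bit)) + A false (τ.map (enc lab bit))

theorem fanAlt_eq_zero_of_not_nodup {τ : List P} (h : ¬ (τ.map lab).Nodup) :
    fanAlt lab bit τ = 0 := by
  have : (τ.map (enc lab bit)).map (· / 2) = τ.map lab := by
    rw [List.map_map]; apply List.map_congr_left; intro n _; exact enc_div lab bit n
  simp [fanAlt, A, this, h]

theorem delta_fanPlus (τ : List P) (hτ : τ ≠ [])
    (hsmall : ∀ x ∈ τ, ∀ y ∈ τ, lab x = lab y → bit x = bit y) :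
    ((dels τ).map (fanPlus lab bit)).sum = fanAlt lab bit τ := by
  have hg : Good (τ.map (enc lab bit)) := by
    intro a ha b hb hab
    obtain ⟨x, hx, rfl⟩ := List.mem_map.1 ha
    obtain ⟨y, hy, rfl⟩ := List.mem_map.1 hb
    rw [enc_div, enc_div] at hab
    have hbit := hsmall x hx y hy hab
    simp [enc, hab, hbit]
  have hne : τ.map (enc lab bit) ≠ [] := by simpa using hτ
  have := delta_A true _ hne hg
  rw [dels_map, List.map_map] at this
  exact this

/-- Ky Fan parity for Smith chains: the alternating count on every level is `1`.  Levels `0..n`.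
`St k f` says: `Σ_{τ ∈ c (k+1)} δ f τ = Σ_{σ ∈ c k} (f σ + f (-σ))`. -/
theorem fan_parity (hlab : ∀ p, lab (neg p) = lab p) (hbit : ∀ p, bit (neg p) = !bit p)
    (c : ℕ → List (List P)) (n : ℕ) (p₀ : P) (h0 : c 0 = [[p₀]])
    (St : ∀ k < n, ∀ f : List P → ZMod 2,
      ((c (k + 1)).map (fun τ => ((dels τ).map f).sum)).sum
        = ((c k).map (fun σ => f σ + f (σ.map neg))).sum)
    (hne : ∀ k < n, ∀ τ ∈ c (k + 1), τ ≠ [])
    (hsmall : ∀ k < n, ∀ τ ∈ c (k + 1), ∀ x ∈ τ, ∀ y ∈ τ, lab x = lab y → bit x = bit y) :
    ∀ k ≤ n, ((c k).map (fanAlt lab bit)).sum = 1 := by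
  intro k
  induction k with
  | zero =>
    intro _
    rw [h0]
    simp only [List.map_cons, List.map_nil, List.sum_cons, List.sum_nil, add_zero]
    have hw : ∀ m : ℕ, word [m] = [decide (m % 2 = 1)] := fun m => by simp [word]
    have halt : ∀ b : Bool, alt true [b] + alt false [b] = 1 := by
      intro b; cases b <;> simp [alt]
    simp only [fanAlt, A, List.map_cons, List.map_nil, List.nodup_singleton, if_true, hw]
    exact halt _
  | succ k ih =>
    intro hk
    have hk' : k < n := hk
    have hprev := ih hk'.le
    have hst := St k hk' (fanPlus lab bit)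
    have hL : ((c (k + 1)).map (fun τ => ((dels τ).map (fanPlus lab bit)).sum)).sum
        = ((c (k + 1)).map (fanAlt lab bit)).sum := by
      congr 1
      apply List.map_congr_left
      intro τ hτ
      exact delta_fanPlus lab bit τ (hne k hk' τ hτ) (hsmall k hk' τ hτ)
    have hR : ((c k).map (fun σ => fanPlus lab bit σ + fanPlus lab bit (σ.map neg))).sum
        = ((c k).map (fanAlt lab bit)).sum := by
      congr 1
      apply List.map_congr_left
      intro σ _
      have : (σ.map neg).map (enc lab bit) = (σ.map (enc lab bit)).map flip := by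
        simp only [List.map_map]
        apply List.map_congr_left
        intro p _
        exact enc_neg neg lab bit hlab hbit p
      simp only [fanPlus, fanAlt, this, A_flip]
      rfl
    rw [← hL, hst, hR, hprev]

/-- Some tuple on level `n` has pairwise distinct labels. -/
theorem exists_rainbow (hlab : ∀ p, lab (neg p) = lab p) (hbit : ∀ p, bit (neg p) = !bit p)
    (c : ℕ → List (List P)) (n : ℕ) (p₀ : P) (h0 : c 0 = [[p₀]])
    (St : ∀ k < n, ∀ f : List P → ZMod 2,
      ((c (k + 1)).map (fun τ => ((dels τ).map f).sum)).sum
        = ((c k).map (fun σ => f σ + f (σ.map neg))).sum)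
    (hne : ∀ k < n, ∀ τ ∈ c (k + 1), τ ≠ [])
    (hsmall : ∀ k < n, ∀ τ ∈ c (k + 1), ∀ x ∈ τ, ∀ y ∈ τ, lab x = lab y → bit x = bit y) :
    ∃ τ ∈ c n, (τ.map lab).Nodup := by
  by_contra hcon
  simp only [not_exists, not_and] at hcon
  have h1 := fan_parity neg lab bit hlab hbit c n p₀ h0 St hne hsmall n le_rfl
  have h2 : ((c n).map (fanAlt lab bit)).sum = 0 := by
    have : ∀ τ ∈ c n, fanAlt lab bit τ = 0 := fun τ hτ =>
      fanAlt_eq_zero_of_not_nodup lab bit (hcon τ hτ)
    rw [List.map_congr_left this]
    simp
  rw [h1] at h2
  exact one_ne_zero h2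

end Chain

end Crest.Agent.S0069Lib.Fan
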