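import Crest.Agent.S0069Lib.Chain
import Crest.Agent.S0069Lib.Fan

/-!
# S0069: Ky Fan's parity lemma at chain level

Labels are pairs `(j, b)`: `j : ℕ` the absolute value, `b : Bool` the sign (`true` = `+`).
A face is `+`-alternating (`AltP`) if the absolute values are injective on it and, when sorted by absolute
value, the signs alternate starting with `+`: the sign of `v` is `+` iff the number of elements of the
face with smaller absolute value is even. `AltM`: the same with `-` first.
-/

set_option autoImplicit false

namespace Crest.Agent.S0069Lib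

open Finset

section
variable {V : Type} [DecidableEq V] [Fintype V]

set_option linter.unusedSectionVars false

/-- Rank of `v` in `F` for the labelling `lab`. -/
def labRank (lab : V → ℕ × Bool) (F : Finset V) (v : V) : ℕ :=
  (F.filter (fun u => (lab u).1 < (lab v).1)).card

/-- `+`-alternating face. -/
def AltP (lab : V → ℕ × Bool) (F : Finset V) : Prop :=
  Set.InjOn (fun v => (lab v).1) (F : Set V) ∧
    ∀ v ∈ F, ((lab v).2 = true ↔ Even (labRank lab F v))

/-- `-`-alternating face. -/
def AltM (lab : V → ℕ × Bool) (F : Finset V) : Prop :=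
  Set.InjOn (fun v => (lab v).1) (F : Set V) ∧
    ∀ v ∈ F, ((lab v).2 = true ↔ Odd (labRank lab F v))

open Classical in
/-- Indicator cochain of `+`-alternating faces. -/
noncomputable def altA (lab : V → ℕ × Bool) : Finset V → ZMod 2 :=
  fun F => if AltP lab F then 1 else 0

open Classical in
/-- Indicator cochain of `-`-alternating faces. -/
noncomputable def altB (lab : V → ℕ × Bool) : Finset V → ZMod 2 :=
  fun F => if AltM lab F then 1 else 0


/-! ### Bridge to the list form of the parity identity (`Fan.delta_A`) -/

namespace KF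

open Fan

/-- Encoded letter of a vertex. -/
def letr (lab : V → ℕ × Bool) (v : V) : ℕ := 2 * (lab v).1 + (if (lab v).2 then 1 else 0)

theorem letr_div (lab : V → ℕ × Bool) (v : V) : letr lab v / 2 = (lab v).1 := by
  unfold letr; split_ifs <;> omega

theorem letr_bit (lab : V → ℕ × Bool) (v : V) : decide (letr lab v % 2 = 1) = (lab v).2 := by
  unfold letr
  cases h : (lab v).2 <;> simp

/-- Rank of a letter in a list. -/
def rk (u : List ℕ) (a : ℕ) : ℕ := (u.filter (fun b => b / 2 < a / 2)).length

theorem rk_perm {u v : List ℕ} (h : u.Perm v) (a : ℕ) : rk u a = rk v a := by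
  unfold rk
  exact (h.filter _).length_eq

/-- The alternation word in terms of the ranks. -/
theorem alt_iff (u : List ℕ) (hu : u.Pairwise (fun a b => a / 2 < b / 2)) (s : Bool) :
    alt s (u.map (fun n => decide (n % 2 = 1)))
      = if ∀ a ∈ u, (decide (a % 2 = 1) = true ↔ (s = true ↔ Even (rk u a))) then 1 else 0 := by
  induction u generalizing s with
  | nil => simp [alt]
  | cons a u ih =>
    have hu' := List.pairwise_cons.1 hu
    have ih' := ih hu'.2 (!s)
    have hrka : rk (a :: u) a = 0 := by
      unfold rk
      rw [List.length_eq_zero_iff, List.filter_eq_nil_iff]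
      intro b hb
      rcases List.mem_cons.1 hb with rfl | hb'
      · simp
      · have := hu'.1 b hb'
        simp only [decide_eq_true_eq]
        omega
    have hrkc : ∀ c ∈ u, rk (a :: u) c = rk u c + 1 := by
      intro c hc
      unfold rk
      have := hu'.1 c hc
      rw [List.filter_cons_of_pos (by simpa using this)]
      simp
    simp only [List.map_cons, alt]
    rw [ih']
    by_cases hb : decide (a % 2 = 1) = s
    · rw [if_pos hb]
      have hiff : (∀ c ∈ a :: u, (decide (c % 2 = 1) = true ↔ (s = true ↔ Even (rk (a :: u) c))))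
          ↔ ∀ c ∈ u, (decide (c % 2 = 1) = true ↔ ((!s) = true ↔ Even (rk u c))) := by
        constructor
        · intro h c hc
          have := h c (List.mem_cons_of_mem _ hc)
          rw [hrkc c hc] at this
          rw [this]
          cases s <;> simp [Nat.even_add_one]
        · intro h c hc
          rcases List.mem_cons.1 hc with rfl | hc'
          · rw [hrka, hb]
            simp
          · rw [h c hc', hrkc c hc']
            cases s <;> simp [Nat.even_add_one]
      simp only [hiff]
    · rw [if_neg hb, if_neg]
      intro h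
      have := h a (List.mem_cons_self)
      rw [hrka] at this
      apply hb
      cases ha : decide (a % 2 = 1) <;> cases s <;> simp_all

theorem sorted_strict {u : List ℕ} (hnd : (u.map (· / 2)).Nodup) :
    (u.insertionSort (· ≤ ·)).Pairwise (fun a b => a / 2 < b / 2) := by
  have hvu : (u.insertionSort (· ≤ ·)).Perm u := List.perm_insertionSort _ _
  have hs : (u.insertionSort (· ≤ ·)).Pairwise (· ≤ ·) := List.pairwise_insertionSort _ _
  have hn : ((u.insertionSort (· ≤ ·)).map (· / 2)).Nodup := (hvu.map _).nodup_iff.2 hnd
  rw [List.Nodup, List.pairwise_map] at hn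
  refine (hs.and hn).imp ?_
  rintro a b ⟨hab, hne⟩
  have h3 : a / 2 ≤ b / 2 := Nat.div_le_div_right hab
  exact lt_of_le_of_ne h3 hne

/-- The value of `A s` through ranks. -/
theorem A_iff (s : Bool) (u : List ℕ) :
    A s u = if (u.map (· / 2)).Nodup ∧
        ∀ a ∈ u, (decide (a % 2 = 1) = true ↔ (s = true ↔ Even (rk u a))) then 1 else 0 := by
  unfold A
  by_cases hnd : (u.map (· / 2)).Nodup
  · rw [if_pos hnd]
    have hvu : (u.insertionSort (· ≤ ·)).Perm u := List.perm_insertionSort _ _
    unfold word
    rw [alt_iff _ (sorted_strict hnd) s]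
    have : (∀ a ∈ u.insertionSort (· ≤ ·),
          (decide (a % 2 = 1) = true ↔ (s = true ↔ Even (rk (u.insertionSort (· ≤ ·)) a))))
        ↔ (u.map (· / 2)).Nodup ∧ ∀ a ∈ u, (decide (a % 2 = 1) = true ↔ (s = true ↔ Even (rk u a))) := by
      simp only [hnd, true_and, hvu.mem_iff, rk_perm hvu]
    simp only [this]
  · rw [if_neg hnd, if_neg]
    exact fun h => hnd h.1

theorem card_filter_toList (G : Finset V) (p : V → Prop) [DecidablePred p] :
    (G.toList.filter (fun v => decide (p v))).length = (G.filter p).card := by
  have hnd : (G.toList.filter (fun v => decide (p v))).Nodup := (Finset.nodup_toList G).filter _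
  rw [← List.toFinset_card_of_nodup hnd, List.toFinset_filter, Finset.toList_toFinset]
  simp

theorem rk_toList (lab : V → ℕ × Bool) (G : Finset V) (v : V) :
    rk (G.toList.map (letr lab)) (letr lab v) = labRank lab G v := by
  unfold rk labRank
  rw [List.filter_map, List.length_map, ← card_filter_toList]
  congr 2
  funext w
  simp [letr_div]

theorem nodup_iff (lab : V → ℕ × Bool) (G : Finset V) :
    ((G.toList.map (letr lab)).map (· / 2)).Nodup ↔ Set.InjOn (fun v => (lab v).1) (G : Set V) := by
  have e : (G.toList.map (letr lab)).map (· / 2) = G.toList.map (fun v => (lab v).1) := by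
    rw [List.map_map]
    apply List.map_congr_left
    intro v _
    exact letr_div lab v
  rw [e, List.nodup_map_iff_inj_on (Finset.nodup_toList G)]
  constructor
  · intro h x hx y hy hxy
    exact h x (by simpa using hx) y (by simpa using hy) hxy
  · intro h x hx y hy hxy
    exact h (by simpa using hx) (by simpa using hy) hxy

theorem forall_iff (lab : V → ℕ × Bool) (G : Finset V) (s : Bool) :
    (∀ a ∈ G.toList.map (letr lab),
        (decide (a % 2 = 1) = true ↔ (s = true ↔ Even (rk (G.toList.map (letr lab)) a))))
      ↔ ∀ v ∈ G, ((lab v).2 = true ↔ (s = true ↔ Even (labRank lab G v))) := by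
  constructor
  · intro h v hv
    have := h (letr lab v) (List.mem_map.2 ⟨v, by simpa using hv, rfl⟩)
    rwa [letr_bit, rk_toList] at this
  · intro h a ha
    obtain ⟨v, hv, rfl⟩ := List.mem_map.1 ha
    rw [letr_bit, rk_toList]
    exact h v (by simpa using hv)

theorem altA_eq (lab : V → ℕ × Bool) (G : Finset V) :
    altA lab G = A true (G.toList.map (letr lab)) := by
  rw [A_iff]
  unfold altA AltP
  have : (Set.InjOn (fun v => (lab v).1) (G : Set V) ∧
        ∀ v ∈ G, ((lab v).2 = true ↔ Even (labRank lab G v)))
      ↔ (((G.toList.map (letr lab)).map (· / 2)).Nodup ∧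
        ∀ a ∈ G.toList.map (letr lab),
          (decide (a % 2 = 1) = true ↔ (true = true ↔ Even (rk (G.toList.map (letr lab)) a)))) := by
    rw [nodup_iff, forall_iff]
    simp
  simp only [this]

theorem altB_eq (lab : V → ℕ × Bool) (G : Finset V) :
    altB lab G = A false (G.toList.map (letr lab)) := by
  rw [A_iff]
  unfold altB AltM
  have : (Set.InjOn (fun v => (lab v).1) (G : Set V) ∧
        ∀ v ∈ G, ((lab v).2 = true ↔ Odd (labRank lab G v)))
      ↔ (((G.toList.map (letr lab)).map (· / 2)).Nodup ∧
        ∀ a ∈ G.toList.map (letr lab),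
          (decide (a % 2 = 1) = true ↔ (false = true ↔ Even (rk (G.toList.map (letr lab)) a)))) := by
    rw [nodup_iff, forall_iff]
    simp [Nat.not_even_iff_odd]
  simp only [this]

/-- Deletions of a list without repetitions are the erasures of the corresponding finset. -/
theorem sum_dels_erase (L : List V) (hL : L.Nodup) (g : Finset V → ZMod 2) :
    ((dels L).map (fun d => g d.toFinset)).sum = ∑ v ∈ L.toFinset, g (L.toFinset.erase v) := by
  induction L generalizing g with
  | nil => simp [dels]
  | cons x xs ih =>
    have hx : x ∉ xs := (List.nodup_cons.1 hL).1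
    have hxs : xs.Nodup := (List.nodup_cons.1 hL).2
    have hx' : x ∉ xs.toFinset := by simpa using hx
    simp only [dels, List.map_cons, List.map_map, List.sum_cons, List.toFinset_cons]
    rw [Finset.sum_insert hx', Finset.erase_insert hx']
    congr 1
    have h1 := ih hxs (fun G => g (insert x G))
    have h2 : ((dels xs).map ((fun d : List V => g d.toFinset) ∘ fun d => x :: d))
        = (dels xs).map (fun d : List V => g (insert x d.toFinset)) := by
      apply List.map_congr_left
      intro d _
      simp
    rw [h2, h1]
    apply Finset.sum_congr rfl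
    intro v hv
    have hne : v ≠ x := fun h => hx' (h ▸ hv)
    rw [Finset.erase_insert_of_ne hne.symm]

/-- The facet identity for a nonempty face, for `A s`. -/
theorem facets_A (lab : V → ℕ × Bool) (F : Finset V) (hne : F.Nonempty)
    (hF : ∀ u ∈ F, ∀ v ∈ F, lab u ≠ ((lab v).1, !(lab v).2)) (s : Bool) :
    ∑ v ∈ F, A s ((F.erase v).toList.map (letr lab))
      = A true (F.toList.map (letr lab)) + A false (F.toList.map (letr lab)) := by
  have hL : F.toList.Nodup := Finset.nodup_toList F
  have h1 := sum_dels_erase F.toList hL (fun G => A s (G.toList.map (letr lab)))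
  rw [Finset.toList_toFinset] at h1
  rw [← h1]
  have hne' : F.toList.map (letr lab) ≠ [] := by
    intro h
    have : F.toList = [] := by simpa using h
    rw [Finset.toList_eq_nil] at this
    exact hne.ne_empty this
  have hg : Good (F.toList.map (letr lab)) := by
    intro a ha b hb hab
    obtain ⟨u, hu, rfl⟩ := List.mem_map.1 ha
    obtain ⟨v, hv, rfl⟩ := List.mem_map.1 hb
    rw [letr_div, letr_div] at hab
    have hu' : u ∈ F := by simpa using hu
    have hv' : v ∈ F := by simpa using hv
    have hlab : lab u = lab v := by
      apply Prod.ext hab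
      by_contra hne2
      apply hF u hu' v hv'
      refine Prod.ext_iff.2 ⟨hab, ?_⟩
      cases h1 : (lab u).2 <;> cases h2 : (lab v).2 <;> simp_all
    simp [letr, hlab]
  have h2 := delta_A s _ hne' hg
  rw [dels_map, List.map_map] at h2
  rw [← h2]
  congr 1
  apply List.map_congr_left
  intro d hd
  have hdn : d.Nodup := (sublist_of_mem_dels hd).nodup hL
  exact A_perm s (((List.toFinset_toList hdn)).map _)

end KF

/-- The per-face parity identity. `F` has no complementary pair of labels. -/
theorem alt_facets (lab : V → ℕ × Bool) (F : Finset V)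
    (hF : ∀ u ∈ F, ∀ v ∈ F, lab u ≠ ((lab v).1, !(lab v).2)) :
    (∑ v ∈ F, altA lab (F.erase v)) = altA lab F + altB lab F ∧
    (∑ v ∈ F, altB lab (F.erase v)) = altA lab F + altB lab F := by
  rcases F.eq_empty_or_nonempty with rfl | hne
  · have h1 : altA lab (∅ : Finset V) = 1 := by simp [altA, AltP]
    have h2 : altB lab (∅ : Finset V) = 1 := by simp [altB, AltM]
    rw [h1, h2]
    simp
    decide
  · rw [KF.altA_eq, KF.altB_eq]
    refine ⟨?_, ?_⟩
    · rw [← KF.facets_A lab F hne hF true]
      exact Finset.sum_congr rfl fun v _ => KF.altA_eq lab _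
    · rw [← KF.facets_A lab F hne hF false]
      exact Finset.sum_congr rfl fun v _ => KF.altB_eq lab _

/-- Relabelling by the involution: the alternating patterns are exchanged. -/
theorem altA_image (τ : V → V) (hτ : ∀ v, τ (τ v) = v) (lab : V → ℕ × Bool) (G : Finset V)
    (hG : ∀ v ∈ G, lab (τ v) = ((lab v).1, !(lab v).2)) :
    altA lab (G.image τ) = altB lab G := by
  have hinj : Function.Injective τ := fun a b h => by rw [← hτ a, h, hτ]
  have hrank : ∀ v ∈ G, labRank lab (G.image τ) (τ v) = labRank lab G v := by
    intro v hv
    unfold labRank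
    rw [Finset.filter_image, Finset.card_image_of_injOn hinj.injOn]
    congr 1
    apply Finset.filter_congr
    intro w hw
    simp [hG w hw, hG v hv]
  have hiff : AltP lab (G.image τ) ↔ AltM lab G := by
    unfold AltP AltM
    apply and_congr
    · constructor
      · intro h x hx y hy hxy
        have hx' : τ x ∈ ((G.image τ : Finset V) : Set V) := by
          simpa using ⟨x, hx, rfl⟩
        have hy' : τ y ∈ ((G.image τ : Finset V) : Set V) := by
          simpa using ⟨y, hy, rfl⟩
        have e : (fun v => (lab v).1) (τ x) = (fun v => (lab v).1) (τ y) := by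
          simp only [hG x hx, hG y hy]
          exact hxy
        exact hinj (h hx' hy' e)
      · intro h x hx y hy hxy
        simp only [Finset.coe_image, Set.mem_image, Finset.mem_coe] at hx hy
        obtain ⟨a, ha, rfl⟩ := hx
        obtain ⟨b, hb, rfl⟩ := hy
        have e : (fun v => (lab v).1) a = (fun v => (lab v).1) b := by
          simpa [hG a ha, hG b hb] using hxy
        rw [h ha hb e]
    · constructor
      · intro h v hv
        have := h (τ v) (Finset.mem_image_of_mem _ hv)
        rw [hrank v hv, hG v hv] at this
        rw [← Nat.not_even_iff_odd, ← this]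
        cases (lab v).2 <;> simp
      · intro h w hw
        obtain ⟨v, hv, rfl⟩ := Finset.mem_image.1 hw
        rw [hrank v hv, hG v hv]
        have := h v hv
        rw [← Nat.not_even_iff_odd] at this
        by_cases hE : Even (labRank lab G v)
        · simp only [hE, not_true_eq_false, iff_false] at this
          simp [this, hE]
        · simp only [hE, not_false_eq_true, iff_true] at this
          simp [this, hE]
  unfold altA altB
  by_cases h : AltM lab G
  · rw [if_pos h, if_pos (hiff.2 h)]
  · rw [if_neg h, if_neg (fun h' => h (hiff.1 h'))]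

/-- Pairing with a relabelled chain. -/
theorem pair_tauC (τ : V → V) (hτ : ∀ v, τ (τ v) = v) (c : Chain V) (φ : Finset V → ZMod 2) :
    pair (tauC τ c) φ = ∑ G, c G * φ (G.image τ) := by
  unfold pair tauC
  have hinv : ∀ F : Finset V, (F.image τ).image τ = F := by
    intro F
    rw [Finset.image_image]
    have : τ ∘ τ = id := funext hτ
    rw [this, Finset.image_id]
  refine Finset.sum_bij' (fun F _ => F.image τ) (fun F _ => F.image τ)
    (fun _ _ => Finset.mem_univ _) (fun _ _ => Finset.mem_univ _)
    (fun F _ => hinv F) (fun F _ => hinv F) ?_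
  intro F _
  rw [hinv F]

/-- **Ky Fan's parity lemma** for a Smith family of chains `c 0, …, c n`:
`∂ c (k+1) = c k + τ c k`, `c 0` a single vertex; the labelling is antipodal without complementary
pairs on the faces of the chains. Then the number of `+`-alternating faces of `c n + τ (c n)` is odd. -/
theorem kyFan {n : ℕ} (c : ℕ → Chain V) (τ : V → V) (hτ : ∀ v, τ (τ v) = v)
    (lab : V → ℕ × Bool)
    (hlab : ∀ k ≤ n, ∀ F, c k F ≠ 0 → ∀ v ∈ F, lab (τ v) = ((lab v).1, !(lab v).2))
    (hS : ∀ k < n, bd (c (k + 1)) = c k + tauC τ (c k))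
    (h0 : ∃ v, c 0 = fun F => if F = {v} then 1 else 0)
    (hcomp : ∀ k ≤ n, ∀ F, c k F ≠ 0 → ∀ u ∈ F, ∀ v ∈ F, lab u ≠ ((lab v).1, !(lab v).2)) :
    pair (c n + tauC τ (c n)) (altA lab) = 1 := by
  have hadd : ∀ (a b : Chain V) (φ : Finset V → ZMod 2), pair (a + b) φ = pair a φ + pair b φ := by
    intro a b φ
    unfold pair
    rw [← Finset.sum_add_distrib]
    exact Finset.sum_congr rfl fun F _ => by simp [add_mul]
  have htau : ∀ k ≤ n, pair (tauC τ (c k)) (altA lab) = pair (c k) (altB lab) := by
    intro k hk
    rw [pair_tauC τ hτ]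
    unfold pair
    apply Finset.sum_congr rfl
    intro G _
    by_cases hG : c k G = 0
    · simp [hG]
    · rw [altA_image τ hτ lab G (hlab k hk G hG)]
  -- the invariant
  have key : ∀ k ≤ n, pair (c k + tauC τ (c k)) (altA lab) = 1 := by
    intro k
    induction k with
    | zero =>
      intro hn
      obtain ⟨v, hv⟩ := h0
      rw [hadd, htau 0 hn, hv]
      have hp : ∀ φ : Finset V → ZMod 2, pair (fun F => if F = {v} then (1 : ZMod 2) else 0) φ = φ {v} := by
        intro φ
        unfold pair
        rw [Finset.sum_eq_single {v}]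
        · simp
        · intro F _ hF
          simp [hF]
        · intro h
          exact absurd (Finset.mem_univ _) h
      rw [hp, hp]
      have hsing := (alt_facets lab ({v} : Finset V) (by
        intro a ha b hb
        simp only [Finset.mem_singleton] at ha hb
        subst ha; subst hb
        intro h
        have := congrArg Prod.snd h
        simp at this)).1
      rw [← hsing]
      simp [altA, AltP]
    | succ k ih =>
      intro hk
      have hk' : k < n := hk
      rw [hadd, htau (k + 1) hk, ← ih hk'.le, ← hS k hk', pair_bd]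
      unfold pair
      rw [← Finset.sum_add_distrib]
      apply Finset.sum_congr rfl
      intro F _
      by_cases hF : c (k + 1) F = 0
      · simp [hF]
      · rw [(alt_facets lab F (hcomp (k + 1) hk F hF)).1, mul_add]
  exact key n le_rfl

/-- Corollary: some face of `c n + τ (c n)` is `+`-alternating (Tucker's lemma). -/
theorem tucker {n : ℕ} (c : ℕ → Chain V) (τ : V → V) (hτ : ∀ v, τ (τ v) = v)
    (lab : V → ℕ × Bool)
    (hlab : ∀ k ≤ n, ∀ F, c k F ≠ 0 → ∀ v ∈ F, lab (τ v) = ((lab v).1, !(lab v).2))
    (hS : ∀ k < n, bd (c (k + 1)) = c k + tauC τ (c k))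
    (h0 : ∃ v, c 0 = fun F => if F = {v} then 1 else 0)
    (hcomp : ∀ k ≤ n, ∀ F, c k F ≠ 0 → ∀ u ∈ F, ∀ v ∈ F, lab u ≠ ((lab v).1, !(lab v).2)) :
    ∃ F, (c n + tauC τ (c n)) F ≠ 0 ∧ AltP lab F := by
  have h := kyFan c τ hτ lab hlab hS h0 hcomp
  by_contra hcon
  simp only [not_exists, not_and] at hcon
  have : pair (c n + tauC τ (c n)) (altA lab) = 0 := by
    unfold pair
    apply Finset.sum_eq_zero
    intro F _
    by_cases hF : (c n + tauC τ (c n)) F = 0
    · simp [hF]
    · have := hcon F hF
      simp [altA, this]
  rw [this] at h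
  exact zero_ne_one h

end

end Crest.Agent.S0069Lib
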