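import Crest.Agent.S0069Lib.Chain

/-!
# S0069: the tower of subdivided cross-polytopes

`Sys` bundles a finite vertex set with an involution `τ`, positions in `ℝ⁵`, and the chains we use:
* `c k` (`k ≤ 4`): the "upper hemisphere" of `S^k`, with `∂ c (k+1) = c k + τ (c k)`;
* `H`: the second hemisphere (vertices `±e₀, ±e₁, +e₃`) and `W` the wedge with `∂ W = c 2 + H`.
`Sys.base` is the boundary of the cross-polytope, `Sys.sd` barycentric subdivision, `level j` the
`j`-th iterate. Norms on `Fin 5 → ℝ` are sup norms.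
-/

set_option autoImplicit false

namespace Crest.Agent.S0069Lib

open Finset

/-- Bundled system. -/
structure Sys where
  V : Type
  [dec : DecidableEq V]
  [fin : Fintype V]
  τ : V → V
  pos : V → (Fin 5 → ℝ)
  c : ℕ → Chain V
  H : Chain V
  W : Chain V

attribute [instance] Sys.dec Sys.fin

/-- Hemisphere pattern: `F = {±e₀, …, ±e_{k-1}, +e_k}`. -/
def baseHemi (k : ℕ) (F : Finset (Fin 5 × Bool)) : Prop :=
  F.card = k + 1 ∧ (∀ x ∈ F, (x.1 : ℕ) ≤ k ∧ ((x.1 : ℕ) = k → x.2 = true)) ∧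
    (∀ x ∈ F, (x.1, !x.2) ∉ F)

/-- Second hemisphere pattern: `F = {±e₀, ±e₁, +e₃}`. -/
def baseH (F : Finset (Fin 5 × Bool)) : Prop :=
  F.card = 3 ∧ (∀ x ∈ F, (x.1 : ℕ) ≤ 1 ∨ x = (3, true)) ∧ (∀ x ∈ F, (x.1, !x.2) ∉ F)

/-- Wedge pattern: `F = {±e₀, ±e₁, +e₂, +e₃}`. -/
def baseW (F : Finset (Fin 5 × Bool)) : Prop :=
  F.card = 4 ∧ (∀ x ∈ F, (x.1 : ℕ) ≤ 1 ∨ x = (2, true) ∨ x = (3, true)) ∧
    (∀ x ∈ F, (x.1, !x.2) ∉ F)

open Classical in
/-- The boundary of the 5-dimensional cross-polytope. -/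
noncomputable def Sys.base : Sys where
  V := Fin 5 × Bool
  τ v := (v.1, !v.2)
  pos v := fun i => if i = v.1 then (if v.2 then 1 else -1) else 0
  c k := fun F => if baseHemi k F then 1 else 0
  H := fun F => if baseH F then 1 else 0
  W := fun F => if baseW F then 1 else 0

/-- Barycentre of a face. -/
noncomputable def Sys.bary (S : Sys) (F : Finset S.V) : Fin 5 → ℝ :=
  (F.card : ℝ)⁻¹ • ∑ v ∈ F, S.pos v

/-- Barycentric subdivision. -/
noncomputable def Sys.sd (S : Sys) : Sys where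
  V := Finset S.V
  τ F := F.image S.τ
  pos F := S.bary F
  c k := Crest.Agent.S0069Lib.sd (S.c k)
  H := Crest.Agent.S0069Lib.sd S.H
  W := Crest.Agent.S0069Lib.sd S.W

/-- The tower. -/
noncomputable def level : ℕ → Sys
  | 0 => Sys.base
  | j + 1 => (level j).sd

/-- Good faces: at most 5 vertices, all in one orthant face of the `ℓ¹`-sphere, small diameter. -/
def Sys.Face (S : Sys) (μ : ℝ) (F : Finset S.V) : Prop :=
  F.card ≤ 5 ∧
  (∃ σ : Fin 5 → ℝ, (∀ i, σ i = 1 ∨ σ i = -1) ∧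
    ∀ v ∈ F, (∀ i, 0 ≤ σ i * S.pos v i) ∧ ∑ i, σ i * S.pos v i = 1) ∧
  (∀ u ∈ F, ∀ v ∈ F, ‖S.pos u - S.pos v‖ ≤ μ)

/-- The invariants of the tower. -/
structure Sys.Good (S : Sys) (μ : ℝ) : Prop where
  τ_τ : ∀ v, S.τ (S.τ v) = v
  pos_τ : ∀ v, S.pos (S.τ v) = - S.pos v
  smith : ∀ k < 4, bd (S.c (k + 1)) = S.c k + tauC S.τ (S.c k)
  c0 : ∃ v, S.c 0 = fun F => if F = {v} then 1 else 0
  wedge : bd S.W = S.c 2 + S.H
  c_face : ∀ k ≤ 4, ∀ F, S.c k F ≠ 0 → S.Face μ F
  H_face : ∀ F, S.H F ≠ 0 → S.Face μ F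
  W_face : ∀ F, S.W F ≠ 0 → S.Face μ F
  c_card : ∀ k ≤ 4, ∀ F, S.c k F ≠ 0 → F.card = k + 1
  H_card : ∀ F, S.H F ≠ 0 → F.card = 3
  W_card : ∀ F, S.W F ≠ 0 → F.card = 4
  /-- vertices of `c k` have vanishing coordinates beyond `k` -/
  c_zero : ∀ k ≤ 4, ∀ F, S.c k F ≠ 0 → ∀ v ∈ F, ∀ i : Fin 5, k < (i : ℕ) → S.pos v i = 0
  /-- vertices of `H` have vanishing coordinates `2` and `4` -/
  H_zero : ∀ F, S.H F ≠ 0 → ∀ v ∈ F, S.pos v 2 = 0 ∧ S.pos v 4 = 0
  /-- vertices of `W` have vanishing coordinate `4` -/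
  W_zero : ∀ F, S.W F ≠ 0 → ∀ v ∈ F, S.pos v 4 = 0
  /-- a hemisphere and its antipode have disjoint supports -/
  c_disj : ∀ k ≤ 4, ∀ F, S.c k F ≠ 0 → S.c k (F.image S.τ) = 0

section GoodProofs

/-! ### Proofs of the tower invariants (WP C, helper83) -/

private instance decHemi (k : ℕ) (F : Finset (Fin 5 × Bool)) : Decidable (baseHemi k F) := by
  unfold baseHemi; infer_instance

private instance decH (F : Finset (Fin 5 × Bool)) : Decidable (baseH F) := by
  unfold baseH; infer_instance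

private instance decW (F : Finset (Fin 5 × Bool)) : Decidable (baseW F) := by
  unfold baseW; infer_instance

private def cB (k : ℕ) (F : Finset (Fin 5 × Bool)) : ZMod 2 := if baseHemi k F then 1 else 0
private def hB (F : Finset (Fin 5 × Bool)) : ZMod 2 := if baseH F then 1 else 0
private def wB (F : Finset (Fin 5 × Bool)) : ZMod 2 := if baseW F then 1 else 0

set_option maxRecDepth 100000 in
private theorem smith_check (k : Fin 4) (F : Finset (Fin 5 × Bool)) :
    (∑ v ∈ Fᶜ, cB (k.val + 1) (insert v F)) =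
      cB k.val F + cB k.val (F.image (fun v => (v.1, !v.2))) := by
  revert k F
  decide +kernel

set_option maxRecDepth 100000 in
private theorem wedge_check (F : Finset (Fin 5 × Bool)) :
    (∑ v ∈ Fᶜ, wB (insert v F)) = cB 2 F + hB F := by
  revert F
  decide +kernel

set_option maxRecDepth 100000 in
private theorem disj_check (k : Fin 5) (F : Finset (Fin 5 × Bool)) :
    cB k.val F ≠ 0 → cB k.val (F.image (fun v => (v.1, !v.2))) = 0 := by
  revert k F
  decide +kernel

set_option maxRecDepth 100000 in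
private theorem c0_check (F : Finset (Fin 5 × Bool)) :
    cB 0 F = if F = {((0 : Fin 5), true)} then 1 else 0 := by
  revert F
  decide +kernel

private theorem base_c (k : ℕ) (F : Finset (Fin 5 × Bool)) : Sys.base.c k F = cB k F := by
  show @ite _ (baseHemi k F) (Classical.propDecidable _) (1 : ZMod 2) 0 = cB k F
  unfold cB
  by_cases h : baseHemi k F <;> simp [h]

private theorem base_H (F : Finset (Fin 5 × Bool)) : Sys.base.H F = hB F := by
  show @ite _ (baseH F) (Classical.propDecidable _) (1 : ZMod 2) 0 = hB F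
  unfold hB
  by_cases h : baseH F <;> simp [h]

private theorem base_W (F : Finset (Fin 5 × Bool)) : Sys.base.W F = wB F := by
  show @ite _ (baseW F) (Classical.propDecidable _) (1 : ZMod 2) 0 = wB F
  unfold wB
  by_cases h : baseW F <;> simp [h]

private theorem base_c_ne {k : ℕ} {F : Finset (Fin 5 × Bool)} (h : Sys.base.c k F ≠ 0) :
    baseHemi k F := by
  by_contra hn
  apply h
  show @ite _ (baseHemi k F) (Classical.propDecidable _) (1 : ZMod 2) 0 = 0
  simp [hn]

private theorem base_H_ne {F : Finset (Fin 5 × Bool)} (h : Sys.base.H F ≠ 0) : baseH F := by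
  by_contra hn
  apply h
  show @ite _ (baseH F) (Classical.propDecidable _) (1 : ZMod 2) 0 = 0
  simp [hn]

private theorem base_W_ne {F : Finset (Fin 5 × Bool)} (h : Sys.base.W F ≠ 0) : baseW F := by
  by_contra hn
  apply h
  show @ite _ (baseW F) (Classical.propDecidable _) (1 : ZMod 2) 0 = 0
  simp [hn]

private theorem base_pos_apply (v : Fin 5 × Bool) (i : Fin 5) :
    Sys.base.pos v i = if i = v.1 then (if v.2 then 1 else -1) else 0 := rfl

private theorem base_pos_abs (v : Fin 5 × Bool) (i : Fin 5) : |Sys.base.pos v i| ≤ 1 := by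
  rw [base_pos_apply]
  split_ifs <;> simp

private theorem base_pos_zero {v : Fin 5 × Bool} {i : Fin 5} (h : i ≠ v.1) :
    Sys.base.pos v i = 0 := by
  rw [base_pos_apply, if_neg h]

private theorem base_face {F : Finset (Fin 5 × Bool)} (hc : F.card ≤ 5)
    (h : ∀ x ∈ F, (x.1, !x.2) ∉ F) : Sys.base.Face 2 F := by
  classical
  refine ⟨hc, ⟨fun i => if (i, false) ∈ F then -1 else 1, ?_, ?_⟩, ?_⟩
  · intro i
    by_cases hi : (i, false) ∈ F <;> simp [hi]
  · intro v hv
    have key : (if (v.1, false) ∈ F then (-1 : ℝ) else 1) * Sys.base.pos v v.1 = 1 := by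
      rcases v with ⟨a, b⟩
      cases b with
      | true =>
        have : (a, false) ∉ F := by simpa using h _ hv
        simp [base_pos_apply, this]
      | false =>
        have hv' : (a, false) ∈ F := hv
        simp [base_pos_apply, hv']
    constructor
    · intro i
      by_cases hi : i = v.1
      · subst hi
        show (0 : ℝ) ≤ _
        have := key
        simp only at this ⊢
        rw [this]; norm_num
      · rw [base_pos_zero hi, mul_zero]
    · rw [Finset.sum_eq_single v.1]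
      · exact key
      · intro i _ hi
        rw [base_pos_zero hi, mul_zero]
      · intro hn
        exact absurd (Finset.mem_univ _) hn
  · intro u _ v _
    rw [pi_norm_le_iff_of_nonneg (by norm_num)]
    intro i
    have h1 := base_pos_abs u i
    have h2 := base_pos_abs v i
    rw [Pi.sub_apply, Real.norm_eq_abs]
    calc |Sys.base.pos u i - Sys.base.pos v i| ≤ |Sys.base.pos u i| + |Sys.base.pos v i| :=
          abs_sub _ _
      _ ≤ 2 := by linarith

private theorem base_smith (k : ℕ) (hk : k < 4) (F : Finset (Fin 5 × Bool)) :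
    bd (Sys.base.c (k + 1)) F = (Sys.base.c k + tauC Sys.base.τ (Sys.base.c k)) F := by
  have h := smith_check ⟨k, hk⟩ F
  have e : bd (Sys.base.c (k + 1)) F = ∑ v ∈ Fᶜ, cB (k + 1) (insert v F) :=
    Finset.sum_congr rfl (fun v _ => base_c (k + 1) (insert v F))
  have e2 : (Sys.base.c k + tauC Sys.base.τ (Sys.base.c k)) F =
      cB k F + cB k (F.image (fun v => (v.1, !v.2))) :=
    congrArg₂ (· + ·) (base_c k F) (base_c k _)
  exact e.trans (h.trans e2.symm)

private theorem base_wedge (F : Finset (Fin 5 × Bool)) :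
    bd Sys.base.W F = (Sys.base.c 2 + Sys.base.H) F := by
  have h := wedge_check F
  have e : bd Sys.base.W F = ∑ v ∈ Fᶜ, wB (insert v F) :=
    Finset.sum_congr rfl (fun v _ => base_W (insert v F))
  have e2 : (Sys.base.c 2 + Sys.base.H) F = cB 2 F + hB F :=
    congrArg₂ (· + ·) (base_c 2 F) (base_H F)
  exact e.trans (h.trans e2.symm)

private theorem base_c0 : ∃ v, Sys.base.c 0 = fun F => if F = {v} then 1 else 0 := by
  refine ⟨((0 : Fin 5), true), ?_⟩
  funext (F : Finset (Fin 5 × Bool))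
  have h := c0_check F
  have h2 := base_c 0 F
  exact h2.trans h

theorem good_base : Sys.base.Good 2 := by
  classical
  refine
    { τ_τ := ?_, pos_τ := ?_, smith := ?_, c0 := ?_, wedge := ?_, c_face := ?_, H_face := ?_,
      W_face := ?_, c_card := ?_, H_card := ?_, W_card := ?_, c_zero := ?_, H_zero := ?_,
      W_zero := ?_, c_disj := ?_ }
  · rintro ⟨a, b⟩
    show (a, !!b) = (a, b)
    simp
  · rintro ⟨a, b⟩
    funext i
    show (if i = a then (if (!b) = true then (1 : ℝ) else -1) else 0) =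
      -(if i = a then (if b = true then (1 : ℝ) else -1) else 0)
    by_cases hi : i = a <;> cases b <;> simp [hi]
  · intro k hk
    funext F
    exact base_smith k hk F
  · exact base_c0
  · funext F
    exact base_wedge F
  · intro k hk F hF
    have h := base_c_ne hF
    exact base_face (by rw [h.1]; omega) h.2.2
  · intro F hF
    have h := base_H_ne hF
    exact base_face (by rw [h.1]; norm_num) h.2.2
  · intro F hF
    have h := base_W_ne hF
    exact base_face (by rw [h.1]; norm_num) h.2.2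
  · intro k _ F hF
    exact (base_c_ne hF).1
  · intro F hF
    exact (base_H_ne hF).1
  · intro F hF
    exact (base_W_ne hF).1
  · intro k _ F hF v hv i hi
    have h := (base_c_ne hF).2.1 v hv
    apply base_pos_zero
    intro hn
    have : (i : ℕ) = v.1 := by rw [hn]
    omega
  · intro F hF v hv
    have h := (base_H_ne hF).2.1 v hv
    constructor
    · apply base_pos_zero
      intro hn
      rcases h with h | h
      · have : ((2 : Fin 5) : ℕ) = v.1 := by rw [hn]
        simp at this; omega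
      · rw [h] at hn; simp at hn
    · apply base_pos_zero
      intro hn
      rcases h with h | h
      · have : ((4 : Fin 5) : ℕ) = v.1 := by rw [hn]
        simp at this; omega
      · rw [h] at hn; simp at hn
  · intro F hF v hv
    have h := (base_W_ne hF).2.1 v hv
    apply base_pos_zero
    intro hn
    rcases h with h | h | h
    · have : ((4 : Fin 5) : ℕ) = v.1 := by rw [hn]
      simp at this; omega
    · rw [h] at hn; simp at hn
    · rw [h] at hn; simp at hn
  · intro k hk F hF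
    have hF' : cB k F ≠ 0 := fun h0 => hF ((base_c k F).trans h0)
    exact (base_c k _).trans (disj_check ⟨k, by omega⟩ F hF')


private theorem sd_add' {V : Type} [DecidableEq V] [Fintype V] (c c' : Chain V) :
    Crest.Agent.S0069Lib.sd (c + c') =
      Crest.Agent.S0069Lib.sd c + Crest.Agent.S0069Lib.sd c' := by
  classical
  funext 𝔽
  simp only [Crest.Agent.S0069Lib.sd, Pi.add_apply]
  split_ifs <;> simp

private theorem bary_apply (S : Sys) (F : Finset S.V) (i : Fin 5) :
    S.bary F i = (F.card : ℝ)⁻¹ * ∑ v ∈ F, S.pos v i := by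
  simp [Sys.bary, Finset.sum_apply]

private theorem bary_sub (S : Sys) {A B : Finset S.V} (hA : A.Nonempty) (hB : B.Nonempty) :
    S.bary A - S.bary B =
      ((A.card : ℝ) * B.card)⁻¹ • ∑ u ∈ A, ∑ v ∈ B, (S.pos u - S.pos v) := by
  have ha : (A.card : ℝ) ≠ 0 := by exact_mod_cast hA.card_pos.ne'
  have hb : (B.card : ℝ) ≠ 0 := by exact_mod_cast hB.card_pos.ne'
  have e : ∑ u ∈ A, ∑ v ∈ B, (S.pos u - S.pos v) =
      (B.card : ℝ) • ∑ u ∈ A, S.pos u - (A.card : ℝ) • ∑ v ∈ B, S.pos v := by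
    simp only [Finset.sum_sub_distrib, Finset.sum_const, Finset.smul_sum, Nat.cast_smul_eq_nsmul]
  rw [e, smul_sub, smul_smul, smul_smul]
  unfold Sys.bary
  congr 2 <;> field_simp

private theorem bary_dist (S : Sys) {A B : Finset S.V} (hAB : A ⊆ B) (hA : A.Nonempty)
    (hb : B.card ≤ 5) {μ : ℝ} (hμ : ∀ u ∈ B, ∀ v ∈ B, ‖S.pos u - S.pos v‖ ≤ μ) :
    ‖S.bary A - S.bary B‖ ≤ (4 / 5) * μ := by
  classical
  have hB : B.Nonempty := hA.mono hAB
  obtain ⟨u₀, hu₀⟩ := hB
  have hμ0 : 0 ≤ μ := by simpa using hμ u₀ hu₀ u₀ hu₀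
  have ha : (0 : ℝ) < A.card := by exact_mod_cast hA.card_pos
  have hb0 : (0 : ℝ) < B.card := by exact_mod_cast (Finset.card_pos.mpr ⟨u₀, hu₀⟩)
  rw [bary_sub S hA ⟨u₀, hu₀⟩, norm_smul, Real.norm_of_nonneg (by positivity)]
  have h1 : ‖∑ u ∈ A, ∑ v ∈ B, (S.pos u - S.pos v)‖ ≤
      (A.card : ℝ) * (((B.card : ℝ) - 1) * μ) := by
    refine (norm_sum_le _ _).trans ?_
    have : ∀ u ∈ A, ‖∑ v ∈ B, (S.pos u - S.pos v)‖ ≤ ((B.card : ℝ) - 1) * μ := by
      intro u hu
      have huB := hAB hu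
      rw [← Finset.add_sum_erase B _ huB, sub_self, zero_add]
      refine (norm_sum_le _ _).trans ?_
      calc ∑ v ∈ B.erase u, ‖S.pos u - S.pos v‖
          ≤ ∑ v ∈ B.erase u, μ :=
            Finset.sum_le_sum (fun v hv => hμ u huB v (Finset.mem_of_mem_erase hv))
        _ = ((B.card : ℝ) - 1) * μ := by
            rw [Finset.sum_const, Finset.card_erase_of_mem huB, nsmul_eq_mul,
              Nat.cast_sub (Finset.card_pos.mpr ⟨u, huB⟩)]
            simp
    calc ∑ u ∈ A, ‖∑ v ∈ B, (S.pos u - S.pos v)‖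
        ≤ ∑ u ∈ A, (((B.card : ℝ) - 1) * μ) := Finset.sum_le_sum this
      _ = (A.card : ℝ) * (((B.card : ℝ) - 1) * μ) := by
          rw [Finset.sum_const, nsmul_eq_mul]
  have hb5 : (B.card : ℝ) ≤ 5 := by exact_mod_cast hb
  calc ((A.card : ℝ) * B.card)⁻¹ * ‖∑ u ∈ A, ∑ v ∈ B, (S.pos u - S.pos v)‖
      ≤ ((A.card : ℝ) * B.card)⁻¹ * ((A.card : ℝ) * (((B.card : ℝ) - 1) * μ)) := by
        exact mul_le_mul_of_nonneg_left h1 (by positivity)
    _ = (1 - (B.card : ℝ)⁻¹) * μ := by field_simp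
    _ ≤ (4 / 5) * μ := by
        apply mul_le_mul_of_nonneg_right _ hμ0
        have : (1 / 5 : ℝ) ≤ (B.card : ℝ)⁻¹ := by
          rw [one_div]; exact inv_anti₀ hb0 hb5
        linarith

private theorem flag_nonempty {V : Type} [DecidableEq V] [Fintype V] {𝔽 : Finset (Finset V)}
    (hf : IsFullFlag 𝔽) {A : Finset V} (hA : A ∈ 𝔽) : A.Nonempty := by
  rw [Finset.nonempty_iff_ne_empty]
  rintro rfl
  exact hf.1 hA

private theorem flag_sub {V : Type} [DecidableEq V] {𝔽 : Finset (Finset V)}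
    {A : Finset V} (hA : A ∈ 𝔽) : A ⊆ 𝔽.biUnion id := by
  intro x hx
  exact Finset.mem_biUnion.mpr ⟨A, hA, hx⟩

private theorem face_sd (S : Sys) {μ : ℝ} {𝔽 : Finset (Finset S.V)} (hf : IsFullFlag 𝔽)
    (hF : S.Face μ (𝔽.biUnion id)) : S.sd.Face ((4 / 5) * μ) 𝔽 := by
  obtain ⟨hc, ⟨σ, hσ, hσ'⟩, hd⟩ := hF
  have key0 : 𝔽.card ≤ 5 := by rw [hf.2.2]; exact hc
  have key1 : ∀ A ∈ 𝔽, (∀ i, 0 ≤ σ i * S.bary A i) ∧ ∑ i, σ i * S.bary A i = 1 := by
    intro A hA
    have hne := flag_nonempty hf hA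
    have ha : (A.card : ℝ) ≠ 0 := by exact_mod_cast hne.card_pos.ne'
    have hsub := flag_sub hA
    constructor
    · intro i
      rw [bary_apply, mul_left_comm, Finset.mul_sum]
      apply mul_nonneg (by positivity)
      exact Finset.sum_nonneg (fun v hv => (hσ' v (hsub hv)).1 i)
    · have e : ∑ i, σ i * S.bary A i = (A.card : ℝ)⁻¹ * ∑ v ∈ A, ∑ i, σ i * S.pos v i := by
        simp only [bary_apply, Finset.mul_sum]
        rw [Finset.sum_comm]
        exact Finset.sum_congr rfl (fun v _ => Finset.sum_congr rfl (fun i _ => by ring))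
      have : ∀ v ∈ A, ∑ i, σ i * S.pos v i = 1 := fun v hv => (hσ' v (hsub hv)).2
      rw [e, Finset.sum_congr rfl this]
      simp [ha]
  have key2 : ∀ A ∈ 𝔽, ∀ B ∈ 𝔽, ‖S.bary A - S.bary B‖ ≤ (4 / 5) * μ := by
    intro A hA B hB
    have hAne := flag_nonempty hf hA
    have hBne := flag_nonempty hf hB
    rcases hf.2.1 A hA B hB with h | h
    · exact bary_dist S h hAne
        ((Finset.card_le_card (flag_sub hB)).trans hc)
        (fun u hu v hv => hd u (flag_sub hB hu) v (flag_sub hB hv))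
    · rw [norm_sub_rev]
      exact bary_dist S h hBne
        ((Finset.card_le_card (flag_sub hA)).trans hc)
        (fun u hu v hv => hd u (flag_sub hA hu) v (flag_sub hA hv))
  exact ⟨key0, ⟨σ, hσ, key1⟩, key2⟩

private theorem bary_zero (S : Sys) {A : Finset S.V} {i : Fin 5}
    (h : ∀ v ∈ A, S.pos v i = 0) : S.bary A i = 0 := by
  rw [bary_apply, Finset.sum_eq_zero h, mul_zero]

private theorem sd_delta {V : Type} [DecidableEq V] [Fintype V] (c : Chain V) (v : V)
    (hv : c = fun F => if F = {v} then 1 else 0) :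
    Crest.Agent.S0069Lib.sd c = fun 𝔽 => if 𝔽 = {({v} : Finset V)} then 1 else 0 := by
  classical
  funext 𝔽
  unfold Crest.Agent.S0069Lib.sd
  rw [hv]
  by_cases h𝔽 : 𝔽 = {({v} : Finset V)}
  · subst h𝔽
    have hflag : IsFullFlag ({({v} : Finset V)} : Finset (Finset V)) := by
      refine ⟨by simp, ?_, by simp⟩
      intro A hA B hB
      rw [Finset.mem_singleton] at hA hB
      subst hA; subst hB; exact Or.inl (Finset.Subset.refl _)
    rw [if_pos hflag, if_pos rfl]
    simp
  · rw [if_neg h𝔽]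
    by_cases hf : IsFullFlag 𝔽
    · rw [if_pos hf]
      by_cases hu : 𝔽.biUnion id = {v}
      · exfalso
        have hcard : 𝔽.card = 1 := by rw [hf.2.2, hu]; simp
        obtain ⟨A, rfl⟩ := Finset.card_eq_one.mp hcard
        apply h𝔽
        simp at hu
        rw [hu]
      · simp [hu]
    · rw [if_neg hf]


end GoodProofs

theorem good_sd {S : Sys} {μ : ℝ} (h : S.Good μ) : S.sd.Good ((4 / 5) * μ) := by
  classical
  have hinj : Function.Injective S.τ := by
    intro a b hab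
    have := congrArg S.τ hab
    rwa [h.τ_τ, h.τ_τ] at this
  have hττ : ∀ F : Finset S.V, (F.image S.τ).image S.τ = F := by
    intro F
    rw [Finset.image_image]
    have : S.τ ∘ S.τ = id := funext h.τ_τ
    rw [this, Finset.image_id]
  have hpos : ∀ F : Finset S.V, S.bary (F.image S.τ) = - S.bary F := by
    intro F
    unfold Sys.bary
    rw [Finset.card_image_of_injective _ hinj, Finset.sum_image (fun a _ b _ hab => hinj hab),
      Finset.sum_congr rfl (fun v _ => h.pos_τ v), Finset.sum_neg_distrib, smul_neg]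
  refine
    { τ_τ := hττ, pos_τ := hpos, smith := ?_, c0 := ?_, wedge := ?_, c_face := ?_, H_face := ?_,
      W_face := ?_, c_card := ?_, H_card := ?_, W_card := ?_, c_zero := ?_, H_zero := ?_,
      W_zero := ?_, c_disj := ?_ }
  · intro k hk
    show bd (Crest.Agent.S0069Lib.sd (S.c (k + 1))) =
      Crest.Agent.S0069Lib.sd (S.c k) +
        tauC (fun F : Finset S.V => F.image S.τ) (Crest.Agent.S0069Lib.sd (S.c k))
    rw [bd_sd, h.smith k hk, sd_add', sd_tauC h.τ_τ]
  · obtain ⟨v, hv⟩ := h.c0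
    exact ⟨({v} : Finset S.V), sd_delta _ v hv⟩
  · show bd (Crest.Agent.S0069Lib.sd S.W) =
      Crest.Agent.S0069Lib.sd (S.c 2) + Crest.Agent.S0069Lib.sd S.H
    rw [bd_sd, h.wedge, sd_add']
  · intro k hk 𝔽 h𝔽
    obtain ⟨hf, hne⟩ := sd_support (c := S.c k) (𝔽 := 𝔽) h𝔽
    exact face_sd S hf (h.c_face k hk _ hne)
  · intro 𝔽 h𝔽
    obtain ⟨hf, hne⟩ := sd_support (c := S.H) (𝔽 := 𝔽) h𝔽
    exact face_sd S hf (h.H_face _ hne)
  · intro 𝔽 h𝔽
    obtain ⟨hf, hne⟩ := sd_support (c := S.W) (𝔽 := 𝔽) h𝔽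
    exact face_sd S hf (h.W_face _ hne)
  · intro k hk 𝔽 h𝔽
    obtain ⟨hf, hne⟩ := sd_support (c := S.c k) (𝔽 := 𝔽) h𝔽
    exact hf.2.2.trans (h.c_card k hk _ hne)
  · intro 𝔽 h𝔽
    obtain ⟨hf, hne⟩ := sd_support (c := S.H) (𝔽 := 𝔽) h𝔽
    exact hf.2.2.trans (h.H_card _ hne)
  · intro 𝔽 h𝔽
    obtain ⟨hf, hne⟩ := sd_support (c := S.W) (𝔽 := 𝔽) h𝔽
    exact hf.2.2.trans (h.W_card _ hne)
  · intro k hk 𝔽 h𝔽 A hA i hi
    obtain ⟨hf, hne⟩ := sd_support (c := S.c k) (𝔽 := 𝔽) h𝔽
    exact bary_zero S (fun v hv => h.c_zero k hk _ hne v (flag_sub hA hv) i hi)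
  · intro 𝔽 h𝔽 A hA
    obtain ⟨hf, hne⟩ := sd_support (c := S.H) (𝔽 := 𝔽) h𝔽
    exact ⟨bary_zero S (fun v hv => (h.H_zero _ hne v (flag_sub hA hv)).1),
      bary_zero S (fun v hv => (h.H_zero _ hne v (flag_sub hA hv)).2)⟩
  · intro 𝔽 h𝔽 A hA
    obtain ⟨hf, hne⟩ := sd_support (c := S.W) (𝔽 := 𝔽) h𝔽
    exact bary_zero S (fun v hv => h.W_zero _ hne v (flag_sub hA hv))
  · intro k hk 𝔽 h𝔽
    obtain ⟨hf, hne⟩ := sd_support (c := S.c k) (𝔽 := 𝔽) h𝔽
    have e := congrFun (sd_tauC h.τ_τ (S.c k)) 𝔽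
    have e' : Crest.Agent.S0069Lib.sd (S.c k) (𝔽.image (fun F : Finset S.V => F.image S.τ)) =
        Crest.Agent.S0069Lib.sd (tauC S.τ (S.c k)) 𝔽 := e.symm
    refine e'.trans ?_
    unfold Crest.Agent.S0069Lib.sd
    rw [if_pos hf]
    exact h.c_disj k hk _ hne


theorem good_level (j : ℕ) : (level j).Good (2 * (4 / 5) ^ j) := by
  induction j with
  | zero =>
    show Sys.base.Good (2 * (4 / 5) ^ 0)
    simpa using good_base
  | succ j ih =>
    have h := good_sd ih
    have e : (4 / 5 : ℝ) * (2 * (4 / 5) ^ j) = 2 * (4 / 5) ^ (j + 1) := by ring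
    rw [e] at h
    exact h


/-- Mesh goes to zero. -/
theorem exists_level_mesh {ε : ℝ} (hε : 0 < ε) : ∃ j₀, ∀ j ≥ j₀, 2 * ((4 : ℝ) / 5) ^ j < ε := by
  have h : Filter.Tendsto (fun j : ℕ => 2 * ((4 : ℝ) / 5) ^ j) Filter.atTop (nhds (2 * 0)) :=
    (tendsto_pow_atTop_nhds_zero_of_lt_one (by norm_num) (by norm_num)).const_mul 2
  rw [mul_zero] at h
  have := (h.eventually (gt_mem_nhds hε))
  rcases Filter.eventually_atTop.mp this with ⟨j₀, hj⟩
  exact ⟨j₀, hj⟩


/-- The 2-sphere chain (all triangles) at a level. -/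
noncomputable def Sys.O (S : Sys) : Chain S.V := S.c 2 + tauC S.τ (S.c 2)

end Crest.Agent.S0069Lib
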