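import Crest.Agent.S0069Lib.Line
import Crest.Agent.S0069Lib.KyFan
import Crest.Agent.S0069Lib.Sys

/-!
# S0069: the statements P0-type of `Frame.lean`

Proofs of Tucker's tetra (`exists_tetra_aux`), **P1** (`no_disjoint_tetra_aux`) and
**P2** (`no_three_cover_aux`), in the namespace `FP`.  `Frame.lean` re-exports them under their
blueprint names.
-/

set_option autoImplicit false

namespace Crest.Agent.S0069Lib.FP

open Finset

/-- A unit vector perpendicular to a point of a cluster has a colour outside the colours of the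
cluster. -/
theorem colour_notMem_of_perp {c : (Fin 4 → ℝ) → Fin 10} {δ η : ℝ} (hc : Margin c δ) (hη : 0 ≤ η)
    (hηδ : η < δ) {P : Finset (Fin 4 → ℝ)} (hP : Cluster η P) {p y : Fin 4 → ℝ} (hp : p ∈ P)
    (hy : dot y y = 1) (hyp : dot y p = 0) : c y ∉ P.image c := by
  intro hmem
  obtain ⟨q, hq, hqc⟩ := Finset.mem_image.mp hmem
  have h1 : δ ≤ |dot y q| := hc.sep y q hy (hP.1 q hq) hqc.symm
  have h2 : |dot y q| ≤ |dot y p| + η := abs_dot_sub_le_of_LC hη hy (hP.2 q hq p hp)
  rw [hyp, abs_zero, zero_add] at h2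
  linarith

/-- A set of at most one point representing `P`. -/
theorem exists_rep {α : Type} (P : Finset α) :
    ∃ s : Finset α, s ⊆ P ∧ s.card ≤ 1 ∧ (P.Nonempty → s.Nonempty) := by
  classical
  by_cases h : P.Nonempty
  · obtain ⟨p, hp⟩ := h
    exact ⟨{p}, by simpa using hp, by simp, fun _ => ⟨p, by simp⟩⟩
  · exact ⟨∅, by simp, by simp, fun h' => absurd h' h⟩

/-- **P2.** -/
theorem no_three_cover_aux {c : (Fin 4 → ℝ) → Fin 10} {δ η : ℝ} (hc : Margin c δ) (hη : 0 ≤ η)
    (hηδ : 8 * η < δ) {Q T T' : Finset (Fin 10)} (hQ : InK c η Q) (hT : InK c η T)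
    (hT' : InK c η T') (hcover : Q ∪ T ∪ T' = univ) : False := by
  classical
  have hlt : η < δ := by linarith
  obtain ⟨P₁, hP₁, rfl⟩ := hQ
  obtain ⟨P₂, hP₂, rfl⟩ := hT
  obtain ⟨P₃, hP₃, rfl⟩ := hT'
  obtain ⟨s₁, hs₁, hc₁, hn₁⟩ := exists_rep P₁
  obtain ⟨s₂, hs₂, hc₂, hn₂⟩ := exists_rep P₂
  obtain ⟨s₃, hs₃, hc₃, hn₃⟩ := exists_rep P₃
  have hcard : (s₁ ∪ s₂ ∪ s₃).card + 1 ≤ 4 := by
    have h1 := Finset.card_union_le (s₁ ∪ s₂) s₃
    have h2 := Finset.card_union_le s₁ s₂
    omega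
  obtain ⟨f, hf, hperp⟩ := exists_frame_perp 1 (s₁ ∪ s₂ ∪ s₃) hcard
  set y := f 0 with hy
  have hyy : dot y y = 1 := by simpa using hf 0 0
  have key : ∀ (P : Finset (Fin 4 → ℝ)) (s : Finset (Fin 4 → ℝ)), Cluster η P → s ⊆ P →
      (P.Nonempty → s.Nonempty) → s ⊆ s₁ ∪ s₂ ∪ s₃ → c y ∉ P.image c := by
    intro P s hP hs hn hss hmem
    have hPn : P.Nonempty := by
      obtain ⟨q, hq, _⟩ := Finset.mem_image.mp hmem
      exact ⟨q, hq⟩
    obtain ⟨p, hp⟩ := hn hPn
    exact colour_notMem_of_perp hc hη hlt hP (hs hp) hyy (hperp 0 p (hss hp)) hmem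
  have hy1 := key P₁ s₁ hP₁ hs₁ hn₁ (by
    intro x hx; simp only [Finset.mem_union]; exact Or.inl (Or.inl hx))
  have hy2 := key P₂ s₂ hP₂ hs₂ hn₂ (by
    intro x hx; simp only [Finset.mem_union]; exact Or.inl (Or.inr hx))
  have hy3 := key P₃ s₃ hP₃ hs₃ hn₃ (by
    intro x hx; simp only [Finset.mem_union]; exact Or.inr hx)
  have hmem : c y ∈ P₁.image c ∪ P₂.image c ∪ P₃.image c := by
    rw [hcover]; exact Finset.mem_univ _
  simp only [Finset.mem_union] at hmem
  rcases hmem with (h | h) | h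
  · exact hy1 h
  · exact hy2 h
  · exact hy3 h

/-- **P1.** -/
theorem no_disjoint_tetra_aux {c : (Fin 4 → ℝ) → Fin 10} {δ η : ℝ} (hc : Margin c δ) (hη : 0 ≤ η)
    (hηδ : 8 * η < δ) {Q Q' : Finset (Fin 10)} (hQ : InK c η Q) (hQ' : InK c η Q')
    (h4 : Q.card = 4) (h4' : Q'.card = 4) : ¬ Disjoint Q Q' := by
  classical
  intro hdisj
  have hlt : η < δ := by linarith
  have hδ : 0 < δ := hc.pos
  obtain ⟨P, hP, rfl⟩ := hQ
  obtain ⟨P', hP', rfl⟩ := hQ'
  have hne : (P.image c).Nonempty := by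
    rw [← Finset.card_pos]; omega
  have hne' : (P'.image c).Nonempty := by
    rw [← Finset.card_pos]; omega
  obtain ⟨p, hp⟩ := Finset.image_nonempty.mp hne
  obtain ⟨p', hp'⟩ := Finset.image_nonempty.mp hne'
  have hcard : (({p, p'} : Finset (Fin 4 → ℝ))).card + 2 ≤ 4 := by
    have := Finset.card_le_two (a := p) (b := p')
    omega
  obtain ⟨f, hf, hperp⟩ := exists_frame_perp 2 {p, p'} hcard
  set a := f 0 with ha
  set b := f 1 with hb
  have haa : dot a a = 1 := by simpa using hf 0 0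
  have hbb : dot b b = 1 := by simpa using hf 1 1
  have hab : dot a b = 0 := by simpa using hf 0 1
  obtain ⟨k, hk⟩ := exists_nat_gt (max 1 (Real.pi / (2 * δ)))
  have hk1 : (1 : ℝ) < k := lt_of_le_of_lt (le_max_left _ _) hk
  have hk2 : Real.pi / (2 * δ) < k := lt_of_le_of_lt (le_max_right _ _) hk
  have hk0 : 0 < k := by
    have : (0 : ℝ) < k := by linarith
    exact_mod_cast this
  have hkpos : (0 : ℝ) < k := by linarith
  have hfine : Real.pi / (4 * k) < δ / 2 := by
    rw [div_lt_iff₀ (by positivity)] at hk2 ⊢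
    nlinarith
  have hline := (line_lemma hc haa hbb hab hk0 hfine).1 ((P.image c ∪ P'.image c)ᶜ) (by
    intro i
    have hunit := dot_polyPt haa hbb hab (4 * k) i
    have hperp1 : ∀ x ∈ ({p, p'} : Finset (Fin 4 → ℝ)),
        dot (polyPt a b (4 * k) i) x = 0 := by
      intro x hx
      unfold polyPt
      rw [dot_add_left, dot_smul_left, dot_smul_left, hperp 0 x hx, hperp 1 x hx]
      ring
    have h1 := colour_notMem_of_perp hc hη hlt hP hp hunit (hperp1 p (by simp))
    have h2 := colour_notMem_of_perp hc hη hlt hP' hp' hunit (hperp1 p' (by simp))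
    simp only [Finset.mem_compl, Finset.mem_union, not_or]
    exact ⟨h1, h2⟩)
  have hcardU : ((P.image c ∪ P'.image c)ᶜ).card = 2 := by
    rw [Finset.card_compl, Finset.card_union_of_disjoint hdisj, h4, h4']
    simp
  omega

/-! ### Tucker's tetra -/

/-- Drop the last coordinate. -/
def px (m : Fin 5 → ℝ) : Fin 4 → ℝ := fun i => m i.castSucc

theorem px_neg (m : Fin 5 → ℝ) : px (-m) = - px m := by
  funext i; simp [px]

theorem dot_neg_neg {n : ℕ} (x : Fin n → ℝ) : dot (-x) (-x) = dot x x := by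
  simp [dot]

theorem unitV_neg {n : ℕ} (x : Fin n → ℝ) : unitV (-x) = - unitV x := by
  unfold unitV
  rw [dot_neg_neg, smul_neg]

/-- Expansion of the square of a difference. -/
theorem dot_sub_sub {n : ℕ} (x y : Fin n → ℝ) :
    dot (x - y) (x - y) = dot x x - 2 * dot x y + dot y y := by
  rw [dot_sub_left, dot_comm x (x - y), dot_comm y (x - y), dot_sub_left, dot_sub_left,
    dot_comm y x]
  ring

theorem dot_smul_smul {n : ℕ} (s t : ℝ) (x y : Fin n → ℝ) :
    dot (s • x) (t • y) = s * t * dot x y := by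
  rw [dot_smul_left, dot_comm x, dot_smul_left, dot_comm y]
  ring

/-- Normalisation is 2-Lipschitz away from the ball of radius `1/2`. -/
theorem unit_close4 {n : ℕ} {a b : Fin n → ℝ} {D : ℝ} (ha : 1 / 4 ≤ dot a a) (hb : 1 / 4 ≤ dot b b)
    (h : dot (a - b) (a - b) ≤ D) : dot (unitV a - unitV b) (unitV a - unitV b) ≤ 4 * D := by
  set s := Real.sqrt (dot a a) with hs
  set t := Real.sqrt (dot b b) with ht
  have hs2 : s * s = dot a a := Real.mul_self_sqrt (dot_self_nonneg a)
  have ht2 : t * t = dot b b := Real.mul_self_sqrt (dot_self_nonneg b)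
  have hs0 : 1 / 2 ≤ s := by
    apply Real.le_sqrt_of_sq_le; norm_num; linarith
  have ht0 : 1 / 2 ≤ t := by
    apply Real.le_sqrt_of_sq_le; norm_num; linarith
  have hspos : 0 < s := by linarith
  have htpos : 0 < t := by linarith
  have hD0 : 0 ≤ dot (a - b) (a - b) := dot_self_nonneg _
  have hexp := dot_sub_sub a b
  have hexp' := dot_sub_sub (unitV a) (unitV b)
  have h1 : dot (unitV a) (unitV a) = 1 := by
    unfold unitV
    rw [dot_smul_smul, ← hs, ← hs2]
    field_simp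
  have h2 : dot (unitV b) (unitV b) = 1 := by
    unfold unitV
    rw [dot_smul_smul, ← ht, ← ht2]
    field_simp
  have h3 : dot (unitV a) (unitV b) = s⁻¹ * t⁻¹ * dot a b := by
    unfold unitV
    rw [dot_smul_smul]
  rw [hexp', h1, h2, h3]
  set P := dot a b with hP
  have hP' : 2 * P = s * s + t * t - dot (a - b) (a - b) := by
    rw [hexp, hs2, ht2]; ring
  have hst : 1 / 4 ≤ s * t := by nlinarith
  have hform : 1 - 2 * (s⁻¹ * t⁻¹ * P) + 1 =
      (dot (a - b) (a - b) - (s - t) ^ 2) / (s * t) := by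
    have : 2 * (s⁻¹ * t⁻¹ * P) = (2 * P) / (s * t) := by
      field_simp
    rw [this, hP']
    field_simp
    ring
  rw [hform, div_le_iff₀ (by positivity)]
  nlinarith [sq_nonneg (s - t)]

/-- Positions of a vertex of a face whose last coordinate vanishes have `ℓ¹` norm one. -/
theorem l1_px_of_face {S : Sys} {μ : ℝ} {F : Finset S.V} (hF : S.Face μ F) {v : S.V} (hv : v ∈ F)
    (h4 : S.pos v 4 = 0) : ∑ i, |px (S.pos v) i| = 1 := by
  obtain ⟨_, ⟨σ, hσ, hor⟩, _⟩ := hF
  obtain ⟨h0, h1⟩ := hor v hv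
  have habs : ∀ i, |S.pos v i| = σ i * S.pos v i := by
    intro i
    rcases hσ i with h | h
    · have := h0 i
      rw [h] at this ⊢
      rw [one_mul] at this ⊢
      exact abs_of_nonneg this
    · have := h0 i
      rw [h] at this ⊢
      have h' : S.pos v i ≤ 0 := by linarith
      rw [abs_of_nonpos h']
      ring
  have hsum : ∑ i, |S.pos v i| = 1 := by
    rw [← h1]
    exact Finset.sum_congr rfl fun i _ => habs i
  rw [Fin.sum_univ_castSucc] at hsum
  have hl : |S.pos v (Fin.last 4)| = 0 := by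
    have : (Fin.last 4 : Fin 5) = 4 := rfl
    rw [this, h4, abs_zero]
  rw [hl, add_zero] at hsum
  exact hsum

/-- `ℓ¹` norm one in `ℝ⁴` gives Euclidean norm at least `1/2`. -/
theorem quarter_le_dot {a : Fin 4 → ℝ} (h : ∑ i, |a i| = 1) : 1 / 4 ≤ dot a a := by
  have h1 := sq_sum_le_card_mul_sum_sq (s := (univ : Finset (Fin 4))) (f := fun i => |a i|)
  rw [h] at h1
  simp only [Finset.card_univ, Fintype.card_fin, sq_abs] at h1
  have h2 : dot a a = ∑ i, a i ^ 2 := by
    unfold dot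
    exact Finset.sum_congr rfl fun i _ => (sq (a i)).symm
  rw [h2]
  push_cast at h1
  linarith

/-- Sup-close positions give Euclidean close truncations. -/
theorem dot_px_sub_le {m m' : Fin 5 → ℝ} {μ : ℝ} (h : ‖m - m'‖ ≤ μ) :
    dot (px m - px m') (px m - px m') ≤ 4 * μ ^ 2 := by
  have hco : ∀ i : Fin 4, (px m i - px m' i) ^ 2 ≤ μ ^ 2 := by
    intro i
    have h1 : ‖(m - m') i.castSucc‖ ≤ ‖m - m'‖ := norm_le_pi_norm _ _
    have h2 : |m i.castSucc - m' i.castSucc| ≤ μ := by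
      have := le_trans h1 h
      simpa [Real.norm_eq_abs] using this
    show (m i.castSucc - m' i.castSucc) ^ 2 ≤ μ ^ 2
    exact sq_le_sq' (by linarith [(abs_le.mp h2).1]) (abs_le.mp h2).2
  have : dot (px m - px m') (px m - px m') = ∑ i, (px m i - px m' i) ^ 2 := by
    unfold dot
    exact Finset.sum_congr rfl fun i _ => by simp [sq]
  rw [this]
  calc ∑ i, (px m i - px m' i) ^ 2 ≤ ∑ _i : Fin 4, μ ^ 2 :=
        Finset.sum_le_sum fun i _ => hco i
    _ = 4 * μ ^ 2 := by simp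

/-- Tucker's tetra on a fine level. -/
theorem exists_tetra_sys {c : (Fin 4 → ℝ) → Fin 10} {δ η μ : ℝ} (hc : Margin c δ) {S : Sys}
    (hG : S.Good μ) (hμη : 4 * μ ≤ η) (hμδ : 4 * μ < 2 * δ) :
    ∃ F : Finset (Fin 10), F.card = 4 ∧ InK c η F := by
  classical
  have hex : ∀ i : Fin 10, ∃ e : Fin 4 → ℝ,
      (∃ y : Fin 4 → ℝ, dot y y = 1 ∧ c y = i) → dot e e = 1 ∧ c e = i := by
    intro i
    by_cases h : ∃ y : Fin 4 → ℝ, dot y y = 1 ∧ c y = i
    · obtain ⟨y, hy, hyc⟩ := h
      exact ⟨y, fun _ => ⟨hy, hyc⟩⟩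
    · exact ⟨0, fun h' => absurd h' h⟩
  choose e he using hex
  have hδ : 0 < δ := hc.pos
  -- the unit vectors
  let x : S.V → Fin 4 → ℝ := fun v => unitV (px (S.pos v))
  have hxτ : ∀ v, x (S.τ v) = - x v := by
    intro v
    show unitV (px (S.pos (S.τ v))) = - unitV (px (S.pos v))
    rw [hG.pos_τ, px_neg, unitV_neg]
  -- facts on the faces
  have hface : ∀ k ≤ 3, ∀ F, S.c k F ≠ 0 → ∀ v ∈ F, 1 / 4 ≤ dot (px (S.pos v)) (px (S.pos v)) := by
    intro k hk F hF v hv
    have h4 : S.pos v 4 = 0 := hG.c_zero k (by omega) F hF v hv 4 (by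
      show k < 4
      omega)
    exact quarter_le_dot (l1_px_of_face (hG.c_face k (by omega) F hF) hv h4)
  have hunit : ∀ k ≤ 3, ∀ F, S.c k F ≠ 0 → ∀ v ∈ F, dot (x v) (x v) = 1 := by
    intro k hk F hF v hv
    apply dot_unitV
    intro h0
    have := hface k hk F hF v hv
    rw [h0] at this
    simp [dot] at this
    linarith
  have hclose : ∀ k ≤ 3, ∀ F, S.c k F ≠ 0 → ∀ u ∈ F, ∀ v ∈ F,
      dot (x u - x v) (x u - x v) ≤ (4 * μ) ^ 2 := by
    intro k hk F hF u hu v hv
    have h1 := hface k hk F hF u hu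
    have h2 := hface k hk F hF v hv
    have h3 := (hG.c_face k (by omega) F hF).2.2 u hu v hv
    have h4 := unit_close4 h1 h2 (dot_px_sub_le h3)
    calc dot (x u - x v) (x u - x v) ≤ 4 * (4 * μ ^ 2) := h4
      _ = (4 * μ) ^ 2 := by ring
  have hμ0 : ∀ k ≤ 3, ∀ F, S.c k F ≠ 0 → ∀ v ∈ F, 0 ≤ μ := by
    intro k hk F hF v hv
    have h3 := (hG.c_face k (by omega) F hF).2.2 v hv v hv
    exact le_trans (norm_nonneg _) h3
  -- labels
  let lab : S.V → ℕ × Bool := fun v =>
    (((c (x v) : Fin 10) : ℕ), decide (0 < dot (x v) (e (c (x v)))))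
  have hsep : ∀ v, dot (x v) (x v) = 1 → δ ≤ |dot (x v) (e (c (x v)))| := by
    intro v hv
    have h := he (c (x v)) ⟨x v, hv, rfl⟩
    exact hc.sep _ _ hv h.1 h.2.symm
  have hlab : ∀ k ≤ 3, ∀ F, S.c k F ≠ 0 → ∀ v ∈ F, lab (S.τ v) = ((lab v).1, !(lab v).2) := by
    intro k hk F hF v hv
    have h1 := hsep v (hunit k hk F hF v hv)
    have hne : dot (x v) (e (c (x v))) ≠ 0 := by
      intro h0
      rw [h0, abs_zero] at h1
      linarith
    show ((((c (x (S.τ v)) : Fin 10) : ℕ), decide (0 < dot (x (S.τ v)) (e (c (x (S.τ v)))))) : ℕ × Bool)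
      = (((c (x v) : Fin 10) : ℕ), !(decide (0 < dot (x v) (e (c (x v))))))
    rw [hxτ, hc.even, dot_neg_left]
    congr 1
    by_cases hpos : 0 < dot (x v) (e (c (x v)))
    · have : ¬ (0 < - dot (x v) (e (c (x v)))) := by linarith
      simp [hpos, this]
    · have : 0 < - dot (x v) (e (c (x v))) := by
        have := lt_of_le_of_ne (not_lt.mp hpos) hne
        linarith
      simp [hpos, this]
  have hcomp : ∀ k ≤ 3, ∀ F, S.c k F ≠ 0 → ∀ u ∈ F, ∀ v ∈ F, lab u ≠ ((lab v).1, !(lab v).2) := by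
    intro k hk F hF u hu v hv heq
    have hfst : c (x u) = c (x v) := Fin.ext (congrArg Prod.fst heq)
    have hsnd : decide (0 < dot (x u) (e (c (x u)))) = !(decide (0 < dot (x v) (e (c (x v))))) :=
      congrArg Prod.snd heq
    have hu1 := hunit k hk F hF u hu
    have hv1 := hunit k hk F hF v hv
    have h1 := hsep u hu1
    have h2 := hsep v hv1
    rw [hfst] at h1 hsnd
    set E := e (c (x v)) with hE
    have hEE : dot E E = 1 := (he (c (x v)) ⟨x v, hv1, rfl⟩).1
    have hCS := abs_dot_le (x u - x v) E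
    rw [hEE, Real.sqrt_one, mul_one] at hCS
    have hμ := hμ0 k hk F hF v hv
    have hsq : Real.sqrt (dot (x u - x v) (x u - x v)) ≤ 4 * μ := by
      apply Real.sqrt_le_iff.mpr
      exact ⟨by positivity, hclose k hk F hF u hu v hv⟩
    have hsub : dot (x u - x v) E = dot (x u) E - dot (x v) E := dot_sub_left _ _ _
    rw [hsub] at hCS
    have hCS' := le_trans hCS hsq
    have hA := abs_le.mp hCS'
    by_cases hpos : 0 < dot (x v) E
    · have hnot : ¬ (0 < dot (x u) E) := by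
        intro h'
        simp [h', hpos] at hsnd
      have hu' : dot (x u) E ≤ 0 := not_lt.mp hnot
      rw [abs_of_nonpos hu'] at h1
      rw [abs_of_pos hpos] at h2
      linarith [hA.1]
    · have hpos' : 0 < dot (x u) E := by
        by_contra h'
        simp [h', hpos] at hsnd
      have hv' : dot (x v) E ≤ 0 := not_lt.mp hpos
      rw [abs_of_pos hpos'] at h1
      rw [abs_of_nonpos hv'] at h2
      linarith [hA.2]
  obtain ⟨F, hF, hAlt⟩ := tucker (n := 3) S.c S.τ hG.τ_τ lab hlab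
    (fun k hk => hG.smith k (by omega)) hG.c0 hcomp
  -- the alternating face
  have hτinj : Function.Injective S.τ := fun a b hab => by
    have := congrArg S.τ hab
    rwa [hG.τ_τ, hG.τ_τ] at this
  have hfin : F.card = 4 ∧ (∀ v ∈ F, dot (x v) (x v) = 1) ∧
      ∀ u ∈ F, ∀ v ∈ F, dot (x u - x v) (x u - x v) ≤ (4 * μ) ^ 2 ∧ 0 ≤ μ := by
    by_cases h3 : S.c 3 F ≠ 0
    · refine ⟨hG.c_card 3 (by omega) F h3, hunit 3 le_rfl F h3, fun u hu v hv =>
        ⟨hclose 3 le_rfl F h3 u hu v hv, hμ0 3 le_rfl F h3 v hv⟩⟩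
    · have h3' : S.c 3 F = 0 := not_not.mp h3
      have h4 : S.c 3 (F.image S.τ) ≠ 0 := by
        intro h0
        apply hF
        show S.c 3 F + S.c 3 (F.image S.τ) = 0
        rw [h3', h0, add_zero]
      have hcard : (F.image S.τ).card = 4 := hG.c_card 3 (by omega) _ h4
      rw [Finset.card_image_of_injective _ hτinj] at hcard
      refine ⟨hcard, ?_, ?_⟩
      · intro v hv
        have := hunit 3 le_rfl _ h4 (S.τ v) (Finset.mem_image_of_mem _ hv)
        rwa [hxτ, dot_neg_neg] at this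
      · intro u hu v hv
        have hc1 := hclose 3 le_rfl _ h4 (S.τ u) (Finset.mem_image_of_mem _ hu) (S.τ v)
          (Finset.mem_image_of_mem _ hv)
        refine ⟨?_, hμ0 3 le_rfl _ h4 (S.τ v) (Finset.mem_image_of_mem _ hv)⟩
        rw [hxτ, hxτ] at hc1
        have heq : - x u - - x v = -(x u - x v) := by abel
        rwa [heq, dot_neg_neg] at hc1
  obtain ⟨hcard, hunitF, hcloseF⟩ := hfin
  refine ⟨(F.image x).image c, ?_, F.image x, ?_, rfl⟩
  · rw [Finset.image_image, Finset.card_image_of_injOn, hcard]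
    intro u hu v hv huv
    apply hAlt.1 hu hv
    show ((c (x u) : Fin 10) : ℕ) = ((c (x v) : Fin 10) : ℕ)
    have : c (x u) = c (x v) := huv
    rw [this]
  · constructor
    · intro p hp
      obtain ⟨v, hv, rfl⟩ := Finset.mem_image.mp hp
      exact hunitF v hv
    · intro p hp q hq
      obtain ⟨u, hu, rfl⟩ := Finset.mem_image.mp hp
      obtain ⟨v, hv, rfl⟩ := Finset.mem_image.mp hq
      left
      obtain ⟨h1, h2⟩ := hcloseF u hu v hv
      refine le_trans h1 ?_
      exact pow_le_pow_left₀ (by positivity) hμη 2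

/-- **Tucker with pieces**: `K` has a face with 4 colours. -/
theorem exists_tetra_aux {c : (Fin 4 → ℝ) → Fin 10} {δ η : ℝ} (hc : Margin c δ) (hη : 0 < η) :
    ∃ F : Finset (Fin 10), F.card = 4 ∧ InK c η F := by
  have hδ := hc.pos
  obtain ⟨j, hj⟩ := exists_level_mesh (ε := min (η / 4) (δ / 2)) (lt_min (by positivity) (by positivity))
  have hj' := hj j le_rfl
  have h1 := lt_of_lt_of_le hj' (min_le_left _ _)
  have h2 := lt_of_lt_of_le hj' (min_le_right _ _)
  exact exists_tetra_sys hc (good_level j) (by linarith) (by linarith)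

end Crest.Agent.S0069Lib.FP
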