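import Crest.Agent.S0069Lib.T2Geom
import Crest.Agent.S0069Lib.FrameP

/-!
# S0069: from `ℝ³` to a polar plane in `ℝ⁴`; the wedge (extension lemma); Tucker's tetra; P1, P2

`f : Fin 4 → Fin 4 → ℝ` is an orthonormal frame of `ℝ⁴`. `Lf f m = ∑_{i<4} m i • f i`.
The plane is `span (f 0, f 1, f 2) = (f 3)^⟂`.
-/

set_option autoImplicit false

namespace Crest.Agent.S0069Lib

open Finset

/-- Linear map `ℝ⁵ → ℝ⁴` from a frame (coordinate 4 is ignored). -/
noncomputable def Lf (f : Fin 4 → Fin 4 → ℝ) (m : Fin 5 → ℝ) : Fin 4 → ℝ :=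
  ∑ i : Fin 4, m i.castSucc • f i

/-- Labelling of the vertices of a system through a frame. -/
noncomputable def lab4 (c : (Fin 4 → ℝ) → Fin 10) (f : Fin 4 → Fin 4 → ℝ) (S : Sys) (v : S.V) : Fin 10 :=
  c (unitV (Lf f (S.pos v)))

/-! ### Helper lemmas on `push` (WP N) -/

section PushLemmas
variable {V W : Type} [DecidableEq V] [Fintype V] [DecidableEq W] [Fintype W]

/-- `push f c` only depends on `f` on the vertices of the faces in the support of `c`. -/
theorem push_congr_support (f g : V → W) (c : Chain V)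
    (h : ∀ F, c F ≠ 0 → ∀ v ∈ F, f v = g v) : push f c = push g c := by
  funext G
  unfold push
  rw [Finset.sum_filter, Finset.sum_filter]
  refine Finset.sum_congr rfl fun F _ => ?_
  by_cases hF : c F = 0
  · simp [hF]
  · have e : F.image f = F.image g := Finset.image_congr fun v hv => h F hF v hv
    rw [e]

theorem push_add (f : V → W) (c c' : Chain V) : push f (c + c') = push f c + push f c' := by
  funext G
  simp only [push, Pi.add_apply, Finset.sum_add_distrib]

/-- Pushing along a `τ`-invariant map forgets `tauC τ`. -/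
theorem push_tauC_of_invariant {τ : V → V} (hτ : ∀ v, τ (τ v) = v) {f : V → W}
    (hf : ∀ v, f (τ v) = f v) (c : Chain V) : push f (tauC τ c) = push f c := by
  funext G
  unfold push tauC
  have hinv : ∀ F : Finset V, (F.image τ).image τ = F := by
    intro F
    rw [Finset.image_image]
    have : τ ∘ τ = id := funext hτ
    rw [this, Finset.image_id]
  have hcard : ∀ F : Finset V, (F.image τ).card = F.card := by
    intro F
    exact Finset.card_image_of_injective _ (Function.LeftInverse.injective hτ)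
  have himg : ∀ F : Finset V, (F.image τ).image f = F.image f := by
    intro F
    rw [Finset.image_image]
    exact Finset.image_congr fun v _ => hf v
  refine Finset.sum_nbij' (fun F => F.image τ) (fun F => F.image τ) ?_ ?_ ?_ ?_ ?_
  · intro F hF
    simp only [Finset.mem_filter, Finset.mem_univ, true_and] at hF ⊢
    exact ⟨by rw [himg]; exact hF.1, by rw [hcard]; exact hF.2⟩
  · intro F hF
    simp only [Finset.mem_filter, Finset.mem_univ, true_and] at hF ⊢
    exact ⟨by rw [himg]; exact hF.1, by rw [hcard]; exact hF.2⟩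
  · intro F _; exact hinv F
  · intro F _; exact hinv F
  · intro F _; rfl

end PushLemmas

/-! ### The plane `(f 3)^⟂` as an isometric copy of `ℝ³` (WP N) -/

/-- Embedding of `ℝ³` in `ℝ⁴` through the first three vectors of a frame. -/
noncomputable def emb3F (f : Fin 4 → Fin 4 → ℝ) (y : Fin 3 → ℝ) : Fin 4 → ℝ :=
  y 0 • f 0 + y 1 • f 1 + y 2 • f 2

theorem dot_add_right' {n : ℕ} (x y z : Fin n → ℝ) : dot x (y + z) = dot x y + dot x z := by
  rw [dot_comm, dot_add_left, dot_comm y, dot_comm z]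

theorem dot_smul_right' {n : ℕ} (a : ℝ) (x z : Fin n → ℝ) : dot x (a • z) = a * dot x z := by
  rw [dot_comm, dot_smul_left, dot_comm z]

theorem dot_emb3F {f : Fin 4 → Fin 4 → ℝ} (hf : Frame f) (x y : Fin 3 → ℝ) :
    dot (emb3F f x) (emb3F f y) = dot x y := by
  have h : ∀ i j, dot (f i) (f j) = if i = j then 1 else 0 := hf
  simp only [emb3F, dot_add_left, dot_add_right', dot_smul_left, dot_smul_right', h]
  simp [dot, Fin.sum_univ_three]
  ring

theorem dot_emb3F_last {f : Fin 4 → Fin 4 → ℝ} (hf : Frame f) (y : Fin 3 → ℝ) :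
    dot (emb3F f y) (f 3) = 0 := by
  have h : ∀ i j, dot (f i) (f j) = if i = j then 1 else 0 := hf
  simp [emb3F, dot_add_left, dot_smul_left, h]

theorem emb3F_neg (f : Fin 4 → Fin 4 → ℝ) (y : Fin 3 → ℝ) :
    emb3F f (-y) = - emb3F f y := by
  simp only [emb3F, Pi.neg_apply, neg_smul]
  abel

theorem emb3F_smul (f : Fin 4 → Fin 4 → ℝ) (a : ℝ) (y : Fin 3 → ℝ) :
    emb3F f (a • y) = a • emb3F f y := by
  simp only [emb3F, Pi.smul_apply, smul_eq_mul, mul_smul, smul_add]

theorem emb3F_sub (f : Fin 4 → Fin 4 → ℝ) (x y : Fin 3 → ℝ) :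
    emb3F f (x - y) = emb3F f x - emb3F f y := by
  simp only [emb3F, Pi.sub_apply, sub_smul]
  abel

theorem unitV_emb3F {f : Fin 4 → Fin 4 → ℝ} (hf : Frame f) (y : Fin 3 → ℝ) :
    unitV (emb3F f y) = emb3F f (unitV y) := by
  simp only [unitV, dot_emb3F hf, emb3F_smul]

theorem unitV_neg {n : ℕ} (x : Fin n → ℝ) : unitV (-x) = - unitV x := by
  have : dot (-x) (-x) = dot x x := by
    rw [dot_neg_left, dot_comm, dot_neg_left, neg_neg]
  simp only [unitV, this, smul_neg]

theorem Lf_neg (f : Fin 4 → Fin 4 → ℝ) (m : Fin 5 → ℝ) : Lf f (-m) = - Lf f m := by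
  simp only [Lf, Pi.neg_apply, neg_smul, Finset.sum_neg_distrib]

theorem Lf_eq_emb3F (f : Fin 4 → Fin 4 → ℝ) (m : Fin 5 → ℝ) (h3 : m 3 = 0) :
    Lf f m = emb3F f (proj3 m) := by
  simp only [Lf, Fin.sum_univ_four]
  have e3 : (3 : Fin 4).castSucc = (3 : Fin 5) := rfl
  have e0 : (0 : Fin 4).castSucc = (0 : Fin 5) := rfl
  have e1 : (1 : Fin 4).castSucc = (1 : Fin 5) := rfl
  have e2 : (2 : Fin 4).castSucc = (2 : Fin 5) := rfl
  rw [e0, e1, e2, e3, h3, zero_smul, add_zero]
  rfl

/-- The labelling of a vertex is even. -/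
theorem lab4_τ {c : (Fin 4 → ℝ) → Fin 10} {δ : ℝ} (hc : Margin c δ) (f : Fin 4 → Fin 4 → ℝ)
    {S : Sys} {μ : ℝ} (hG : S.Good μ) (v : S.V) : lab4 c f S (S.τ v) = lab4 c f S v := by
  simp only [lab4, hG.pos_τ, Lf_neg, unitV_neg, hc.even]

/-- The colouring of `ℝ³` induced on the plane of a frame. -/
noncomputable def colF (c : (Fin 4 → ℝ) → Fin 10) (f : Fin 4 → Fin 4 → ℝ) (y : Fin 3 → ℝ) : Fin 10 :=
  c (emb3F f y)

theorem margin_colF {c : (Fin 4 → ℝ) → Fin 10} {δ : ℝ} (hc : Margin c δ)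
    {f : Fin 4 → Fin 4 → ℝ} (hf : Frame f) : Margin (colF c f) δ where
  pos := hc.pos
  even x := by simp only [colF, emb3F_neg, hc.even]
  sep x y hx hy hxy := by
    have := hc.sep (emb3F f x) (emb3F f y) (by rw [dot_emb3F hf]; exact hx)
      (by rw [dot_emb3F hf]; exact hy) hxy
    rwa [dot_emb3F hf] at this

/-- On the vertices of a face of `c 2` the labelling `lab4` is the colouring of the plane. -/
theorem lab4_eq_col {c : (Fin 4 → ℝ) → Fin 10} {f : Fin 4 → Fin 4 → ℝ} (hf : Frame f)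
    {S : Sys} {μ : ℝ} (hG : S.Good μ) {F : Finset S.V} (hF : S.c 2 F ≠ 0) {v : S.V} (hv : v ∈ F) :
    lab4 c f S v = col (colF c f) S v := by
  have h3 : S.pos v 3 = 0 := hG.c_zero 2 (by norm_num) F hF v hv 3 (by norm_num)
  simp only [lab4, col, colF, u3, Lf_eq_emb3F f _ h3, unitV_emb3F hf]

/-- `push` of a hemisphere through an even colouring is a cycle. -/
theorem push_c2_cycle {c : (Fin 4 → ℝ) → Fin 10} {δ : ℝ} (hc : Margin c δ) (f : Fin 4 → Fin 4 → ℝ)
    {S : Sys} {μ : ℝ} (hG : S.Good μ) :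
    bd (push (lab4 c f S) (S.c 2)) = 0 := by
  rw [bd_push, hG.smith 1 (by norm_num), push_add,
    push_tauC_of_invariant hG.τ_τ (lab4_τ hc f hG)]
  funext G
  exact CharTwo.add_self_eq_zero _

/-- **T2 in a polar plane.** -/
theorem t2_frame {c : (Fin 4 → ℝ) → Fin 10} {δ : ℝ} (hc : Margin c δ) {f : Fin 4 → Fin 4 → ℝ}
    (hf : Frame f) {B : Finset (Fin 10)} (hB : B.card = 6)
    (hcB : ∀ y, dot y y = 1 → dot y (f 3) = 0 → c y ∈ B) :
    ∃ j₀, ∀ j ≥ j₀, ∀ T ⊆ B, T.card = 3 →
      push (lab4 c f (level j)) ((level j).c 2) T +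
        push (lab4 c f (level j)) ((level j).c 2) (B \ T) = 1 := by
  have hB3 : ∀ y, dot y y = 1 → colF c f y ∈ B := fun y hy =>
    hcB _ (by rw [dot_emb3F hf]; exact hy) (dot_emb3F_last hf y)
  obtain ⟨j₀, hj₀⟩ := t2 (margin_colF hc hf) hB hB3
  refine ⟨j₀, fun j hj T hTB hT => ?_⟩
  have e : push (lab4 c f (level j)) ((level j).c 2) = push (col (colF c f) (level j)) ((level j).c 2) :=
    push_congr_support _ _ _ fun F hF v hv => lab4_eq_col hf (good_level j) hF hv
  rw [e]
  exact hj₀ j hj T hTB hT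

/-- Faces of `c 2` (any level) are small clusters: a label-count nonzero gives membership in `K`. -/
theorem inK_of_push_ne {c : (Fin 4 → ℝ) → Fin 10} {δ η : ℝ} (hc : Margin c δ) (hη : 0 < η)
    {f : Fin 4 → Fin 4 → ℝ} (hf : Frame f) :
    ∃ j₀, ∀ j ≥ j₀, ∀ T : Finset (Fin 10),
      push (lab4 c f (level j)) ((level j).c 2) T ≠ 0 →
        InK c η T ∧ ∀ t ∈ T, ∃ y, dot y y = 1 ∧ dot y (f 3) = 0 ∧ c y = t := by
  have hη20 : 0 < η / 20 := by positivity
  obtain ⟨j₀, hj₀⟩ := exists_level_mesh hη20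
  refine ⟨j₀, fun j hj T hT => ?_⟩
  set μ : ℝ := 2 * ((4 : ℝ) / 5) ^ j with hμ
  have hμlt : 20 * μ < η := by
    have := hj₀ j hj
    rw [← hμ] at this
    linarith
  have hμ0 : 0 ≤ μ := by rw [hμ]; positivity
  have hG : (level j).Good μ := good_level j
  -- a face of `c 2` with labels `T`
  unfold push at hT
  obtain ⟨F, hF, hFne⟩ := Finset.exists_ne_zero_of_sum_ne_zero hT
  simp only [Finset.mem_filter, Finset.mem_univ, true_and] at hF
  -- vertices are `ℓ¹`-normalised in `ℝ³`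
  have hface := hG.c_face 2 (by norm_num) F hFne
  have hzero := hG.c_zero 2 (by norm_num) F hFne
  have hl1 : ∀ v ∈ F, l1n (proj3 ((level j).pos v)) = 1 := by
    intro v hv
    obtain ⟨σ, hσ, hσv⟩ := hface.2.1
    obtain ⟨h0, h1⟩ := hσv v hv
    have h3 := hzero v hv 3 (by norm_num)
    have h4 := hzero v hv 4 (by norm_num)
    rw [Fin.sum_univ_five, h3, h4] at h1
    have key : ∀ i : Fin 5, |(level j).pos v i| = σ i * (level j).pos v i := by
      intro i
      rcases hσ i with h | h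
      · have := h0 i
        rw [h] at this ⊢
        rw [one_mul] at this ⊢
        exact abs_of_nonneg this
      · have := h0 i
        rw [h] at this ⊢
        rw [neg_one_mul] at this ⊢
        exact abs_of_nonpos (by linarith)
    simp only [l1n, proj3, Fin.sum_univ_three]
    have e0 := key 0
    have e1 := key 1
    have e2 := key 2
    have a0 : (⟨((0 : Fin 3) : ℕ), by omega⟩ : Fin 5) = 0 := rfl
    have a1 : (⟨((1 : Fin 3) : ℕ), by omega⟩ : Fin 5) = 1 := rfl
    have a2 : (⟨((2 : Fin 3) : ℕ), by omega⟩ : Fin 5) = 2 := rfl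
    rw [a0, a1, a2, e0, e1, e2]
    simpa using h1
  have hne0 : ∀ v ∈ F, proj3 ((level j).pos v) ≠ 0 := by
    intro v hv h0
    have := hl1 v hv
    rw [h0] at this
    simp [l1n] at this
  -- the unit vector of a vertex
  have hpt : ∀ v ∈ F, unitV (Lf f ((level j).pos v)) = emb3F f (unitV (proj3 ((level j).pos v))) := by
    intro v hv
    rw [Lf_eq_emb3F f _ (hzero v hv 3 (by norm_num)), unitV_emb3F hf]
  have hunit : ∀ v ∈ F, dot (unitV (Lf f ((level j).pos v))) (unitV (Lf f ((level j).pos v))) = 1 := by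
    intro v hv
    rw [hpt v hv, dot_emb3F hf, dot_unitV (hne0 v hv)]
  have himg : F.image (lab4 c f (level j)) = T.image id := by
    simpa using hF.1
  have hT' : F.image (lab4 c f (level j)) = T := by simpa using himg
  constructor
  · refine ⟨F.image fun v => unitV (Lf f ((level j).pos v)), ⟨?_, ?_⟩, ?_⟩
    · intro p hp
      obtain ⟨v, hv, rfl⟩ := Finset.mem_image.1 hp
      exact hunit v hv
    · intro p hp q hq
      obtain ⟨u, hu, rfl⟩ := Finset.mem_image.1 hp
      obtain ⟨v, hv, rfl⟩ := Finset.mem_image.1 hq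
      left
      rw [hpt u hu, hpt v hv, ← emb3F_sub, dot_emb3F hf]
      have hclose : ‖proj3 ((level j).pos u) - proj3 ((level j).pos v)‖ ≤ μ := by
        refine (pi_norm_le_iff_of_nonneg hμ0).2 fun i => ?_
        have := hface.2.2 u hu v hv
        exact (norm_le_pi_norm ((level j).pos u - (level j).pos v) _).trans this
      have := unit_close (hl1 u hu) (hl1 v hv) hclose
      refine this.trans ?_
      have h20 : 0 ≤ 20 * μ := by positivity
      exact pow_le_pow_left₀ h20 hμlt.le 2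
    · rw [Finset.image_image, ← hT']
      rfl
  · intro t ht
    rw [← hT'] at ht
    obtain ⟨v, hv, rfl⟩ := Finset.mem_image.1 ht
    refine ⟨unitV (Lf f ((level j).pos v)), hunit v hv, ?_, rfl⟩
    rw [hpt v hv]
    exact dot_emb3F_last hf _

/-! ### Helpers for the wedge -/

/-- `dot` is additive in sums on the left. -/
theorem dot_sum_left {ι : Type} (s : Finset ι) (g : ι → Fin 4 → ℝ) (z : Fin 4 → ℝ) :
    dot (∑ i ∈ s, g i) z = ∑ i ∈ s, dot (g i) z := by
  classical
  induction s using Finset.induction_on with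
  | empty => simp [dot]
  | insert a s ha ih => rw [Finset.sum_insert ha, Finset.sum_insert ha, dot_add_left, ih]

/-- Coordinates of `Lf f a` along the frame. -/
theorem dot_Lf_frame {f : Fin 4 → Fin 4 → ℝ} (hf : Frame f) (a : Fin 5 → ℝ) (k : Fin 4) :
    dot (Lf f a) (f k) = a k.castSucc := by
  unfold Lf
  rw [dot_sum_left]
  simp only [dot_smul_left, hf _ k]
  simp

/-- `Lf` is an isometry on the first four coordinates. -/
theorem dot_Lf_Lf {f : Fin 4 → Fin 4 → ℝ} (hf : Frame f) (a b : Fin 5 → ℝ) :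
    dot (Lf f a) (Lf f b) = ∑ i : Fin 4, a i.castSucc * b i.castSucc := by
  conv_lhs => rw [dot_comm, show Lf f b = ∑ i : Fin 4, b i.castSucc • f i from rfl]
  rw [dot_sum_left]
  simp only [dot_smul_left]
  refine Finset.sum_congr rfl fun i _ => ?_
  rw [dot_comm, dot_Lf_frame hf, mul_comm]

theorem Lf_sub (f : Fin 4 → Fin 4 → ℝ) (a b : Fin 5 → ℝ) : Lf f a - Lf f b = Lf f (a - b) := by
  unfold Lf
  rw [← Finset.sum_sub_distrib]
  refine Finset.sum_congr rfl fun i _ => ?_
  simp [sub_smul]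

/-- Points of the `ℓ¹`-sphere with vanishing last coordinate have Euclidean norm² at least `1/4`. -/
theorem quarter_le_of_l1 (a : Fin 5 → ℝ) (h4 : a 4 = 0) (h : ∑ i, |a i| = 1) :
    1 / 4 ≤ ∑ i : Fin 4, a i.castSucc * a i.castSucc := by
  rw [Fin.sum_univ_castSucc] at h
  have h4' : a (Fin.last 4) = 0 := h4
  rw [h4'] at h
  simp only [abs_zero, add_zero] at h
  -- Cauchy-Schwarz
  have hcs := Finset.sum_mul_sq_le_sq_mul_sq (Finset.univ : Finset (Fin 4))
    (fun i => |a i.castSucc|) (fun _ => (1 : ℝ))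
  simp only [mul_one, one_pow, Finset.sum_const, Finset.card_univ, Fintype.card_fin, nsmul_eq_mul,
    sq_abs] at hcs
  rw [h] at hcs
  have : ∑ i : Fin 4, a i.castSucc * a i.castSucc = ∑ i : Fin 4, a i.castSucc ^ 2 :=
    Finset.sum_congr rfl fun i _ => by ring
  rw [this]
  norm_num at hcs
  linarith

/-- Sup-close points: Euclidean distance² on the first four coordinates is at most `4 μ²`. -/
theorem sum_sq_le_of_norm_le (a b : Fin 5 → ℝ) {μ : ℝ} (h : ‖a - b‖ ≤ μ) :
    ∑ i : Fin 4, (a - b) i.castSucc * (a - b) i.castSucc ≤ (2 * μ) ^ 2 := by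
  have h1 : ∀ i : Fin 4, (a - b) i.castSucc * (a - b) i.castSucc ≤ μ ^ 2 := fun i => by
    have := norm_le_pi_norm (a - b) i.castSucc
    have h2 : |(a - b) i.castSucc| ≤ μ := by
      rw [← Real.norm_eq_abs]; exact this.trans h
    calc (a - b) i.castSucc * (a - b) i.castSucc = |(a - b) i.castSucc| ^ 2 := by
          rw [sq_abs]; ring
      _ ≤ μ ^ 2 := by
          have := abs_nonneg ((a - b) i.castSucc)
          gcongr
  calc _ ≤ ∑ _i : Fin 4, μ ^ 2 := Finset.sum_le_sum fun i _ => h1 i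
    _ = (2 * μ) ^ 2 := by simp; ring

/-- Normalising does not increase distance by more than a factor `2`, away from the origin. -/
theorem dot_unitV_sub_le {n : ℕ} {x y : Fin n → ℝ} (hx : 1 / 4 ≤ dot x x) (hy : 1 / 4 ≤ dot y y) :
    dot (unitV x - unitV y) (unitV x - unitV y) ≤ 4 * dot (x - y) (x - y) := by
  set r := Real.sqrt (dot x x) with hr
  set s := Real.sqrt (dot y y) with hs
  have hr2 : r * r = dot x x := Real.mul_self_sqrt (dot_self_nonneg x)
  have hs2 : s * s = dot y y := Real.mul_self_sqrt (dot_self_nonneg y)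
  have hr0 : 1 / 2 ≤ r := by
    rw [hr]; apply Real.le_sqrt_of_sq_le; norm_num; linarith
  have hs0 : 1 / 2 ≤ s := by
    rw [hs]; apply Real.le_sqrt_of_sq_le; norm_num; linarith
  have hrpos : 0 < r := by linarith
  have hspos : 0 < s := by linarith
  have hu : unitV x = r⁻¹ • x := rfl
  have hv : unitV y = s⁻¹ • y := rfl
  have hcomm := dot_comm x y
  have e1 : dot (x - y) (x - y) = dot x x - 2 * dot x y + dot y y := by
    rw [dot_sub_left, dot_comm x (x - y), dot_comm y (x - y), dot_sub_left, dot_sub_left, hcomm]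
    ring
  have e2 : dot (unitV x - unitV y) (unitV x - unitV y)
      = r⁻¹ * r⁻¹ * dot x x - 2 * (r⁻¹ * s⁻¹) * dot x y + s⁻¹ * s⁻¹ * dot y y := by
    rw [hu, hv, dot_sub_left, dot_comm (r⁻¹ • x) _, dot_comm (s⁻¹ • y) _, dot_sub_left, dot_sub_left,
      dot_smul_left, dot_smul_left, dot_smul_left, dot_smul_left,
      dot_comm x (r⁻¹ • x), dot_comm y (r⁻¹ • x), dot_comm x (s⁻¹ • y), dot_comm y (s⁻¹ • y),
      dot_smul_left, dot_smul_left, dot_smul_left, dot_smul_left, hcomm]
    ring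
  rw [e1, e2, ← hr2, ← hs2]
  have h1 : r⁻¹ * r⁻¹ * (r * r) = 1 := by field_simp
  have h2 : s⁻¹ * s⁻¹ * (s * s) = 1 := by field_simp
  rw [h1, h2]
  set d := dot x y
  -- goal: 1 - 2 (r s)⁻¹ d + 1 ≤ 4 (r² - 2 d + s²)
  have hrs : 1 / 4 ≤ r * s := by nlinarith
  have hrspos : 0 < r * s := by positivity
  have key : (1 : ℝ) - 2 * (r⁻¹ * s⁻¹) * d + 1 = (r * r + s * s - 2 * d - (r - s) ^ 2) / (r * s) := by
    field_simp
    ring
  rw [key, div_le_iff₀ hrspos]
  have hD : 0 ≤ r * r - 2 * d + s * s := by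
    rw [hr2, hs2]; have := dot_self_nonneg (x - y); rw [e1] at this; linarith
  nlinarith [sq_nonneg (r - s)]

/-- `push` is additive. -/
theorem push_add_chain {V W : Type} [DecidableEq V] [Fintype V] [DecidableEq W] (g : V → W)
    (a b : Chain V) : push g (a + b) = push g a + push g b := by
  funext G
  simp only [push, Pi.add_apply, Finset.sum_add_distrib]

/-- Vertices of a good face lie on the `ℓ¹`-sphere. -/
theorem l1_of_face {S : Sys} {μ : ℝ} {F : Finset S.V} (h : S.Face μ F) {v : S.V} (hv : v ∈ F) :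
    ∑ i, |S.pos v i| = 1 := by
  obtain ⟨-, ⟨σ, hσ, hs⟩, -⟩ := h
  obtain ⟨h0, h1⟩ := hs v hv
  rw [← h1]
  refine Finset.sum_congr rfl fun i _ => ?_
  rcases hσ i with h | h
  · have := h0 i
    rw [h] at this ⊢
    rw [abs_of_nonneg (by linarith)]; ring
  · have := h0 i
    rw [h] at this ⊢
    rw [abs_of_nonpos (by linarith)]; ring

/-- The core of the wedge: at a fixed good level. -/
theorem wedge_core {c : (Fin 4 → ℝ) → Fin 10} {δ η : ℝ} (hc : Margin c δ)
    {f : Fin 4 → Fin 4 → ℝ} (hf : Frame f) {S : Sys} {μ : ℝ} (hG : S.Good μ) (hμη : 4 * μ ≤ η)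
    (T : Finset (Fin 10)) (hT : c (f 2) ∈ T) (hpush : push (lab4 c f S) (S.c 2) T = 1) :
    ∃ m, m ∉ T ∧ InK c η (insert m T) := by
  classical
  -- face points have norm² at least 1/4
  have hquarter : ∀ v : S.V, S.pos v 4 = 0 → ∑ i, |S.pos v i| = 1 →
      1 / 4 ≤ dot (Lf f (S.pos v)) (Lf f (S.pos v)) := by
    intro v h4 hl1
    rw [dot_Lf_Lf hf]
    exact quarter_le_of_l1 _ h4 hl1
  have hunit : ∀ v : S.V, S.pos v 4 = 0 → ∑ i, |S.pos v i| = 1 →
      dot (unitV (Lf f (S.pos v))) (unitV (Lf f (S.pos v))) = 1 := by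
    intro v h4 hl1
    apply dot_unitV
    intro h0
    have := hquarter v h4 hl1
    rw [h0] at this
    simp [dot] at this
    linarith
  -- the boundary
  have hbd : bd (push (lab4 c f S) S.W) = push (lab4 c f S) (S.c 2) + push (lab4 c f S) S.H := by
    rw [bd_push, hG.wedge, push_add_chain]
  -- `H` does not see the colour of `f 2`
  have hH : push (lab4 c f S) S.H T = 0 := by
    unfold push
    apply Finset.sum_eq_zero
    intro F hF
    obtain ⟨himg, -⟩ := (Finset.mem_filter.mp hF).2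
    by_contra hne
    have hmem : c (f 2) ∈ F.image (lab4 c f S) := himg ▸ hT
    obtain ⟨v, hv, hlab⟩ := Finset.mem_image.mp hmem
    have hface := hG.H_face F hne
    obtain ⟨hz2, hz4⟩ := hG.H_zero F hne v hv
    have hu := hunit v hz4 (l1_of_face hface hv)
    have hdot : dot (unitV (Lf f (S.pos v))) (f 2) = 0 := by
      have : unitV (Lf f (S.pos v)) = (Real.sqrt (dot (Lf f (S.pos v)) (Lf f (S.pos v))))⁻¹ •
          Lf f (S.pos v) := rfl
      rw [this, dot_smul_left, dot_Lf_frame hf]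
      have h2 : S.pos v ((2 : Fin 4).castSucc) = 0 := hz2
      rw [h2, mul_zero]
    have hsep := hc.sep _ _ hu (by simpa using hf 2 2) hlab
    rw [hdot, abs_zero] at hsep
    linarith [hc.pos]
  -- evaluate at `T`
  have hev : ∑ m ∈ Tᶜ, push (lab4 c f S) S.W (insert m T) = 1 := by
    have := congrFun hbd T
    simp only [bd, Pi.add_apply, hH, hpush, add_zero] at this
    exact this
  obtain ⟨m, hm, hne⟩ : ∃ m ∈ Tᶜ, push (lab4 c f S) S.W (insert m T) ≠ 0 := by
    by_contra hall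
    push Not at hall
    rw [Finset.sum_eq_zero hall] at hev
    exact zero_ne_one hev
  have hmT : m ∉ T := by simpa using hm
  refine ⟨m, hmT, ?_⟩
  obtain ⟨F, hF, hFne⟩ : ∃ F ∈ (univ : Finset (Finset S.V)).filter
      (fun F => F.image (lab4 c f S) = insert m T ∧ F.card = (insert m T).card), S.W F ≠ 0 := by
    by_contra hall
    push Not at hall
    apply hne
    exact Finset.sum_eq_zero hall
  obtain ⟨himg, -⟩ := (Finset.mem_filter.mp hF).2
  have hface := hG.W_face F hFne
  have hz4 : ∀ v ∈ F, S.pos v 4 = 0 := hG.W_zero F hFne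
  refine ⟨F.image (fun v => unitV (Lf f (S.pos v))), ⟨?_, ?_⟩, ?_⟩
  · intro p hp
    obtain ⟨v, hv, rfl⟩ := Finset.mem_image.mp hp
    exact hunit v (hz4 v hv) (l1_of_face hface hv)
  · intro p hp q hq
    obtain ⟨u, hu, rfl⟩ := Finset.mem_image.mp hp
    obtain ⟨v, hv, rfl⟩ := Finset.mem_image.mp hq
    left
    have h1 := hquarter u (hz4 u hu) (l1_of_face hface hu)
    have h2 := hquarter v (hz4 v hv) (l1_of_face hface hv)
    have h3 := dot_unitV_sub_le h1 h2
    have hd : dot (Lf f (S.pos u) - Lf f (S.pos v)) (Lf f (S.pos u) - Lf f (S.pos v)) ≤ (2 * μ) ^ 2 := by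
      rw [Lf_sub, dot_Lf_Lf hf]
      exact sum_sq_le_of_norm_le _ _ (hface.2.2 u hu v hv)
    have hμ0 : 0 ≤ μ := by
      have := hface.2.2 u hu v hv
      exact (norm_nonneg _).trans this
    calc _ ≤ 4 * (2 * μ) ^ 2 := by linarith
      _ = (4 * μ) ^ 2 := by ring
      _ ≤ η ^ 2 := by
        have : 0 ≤ 4 * μ := by positivity
        gcongr
  · rw [Finset.image_image]
    exact himg

/-- **Extension lemma (wedge).** `f 2` has a colour in `T`, `T` has odd count in the plane `(f 3)^⟂`: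
then `T ∪ {m} ∈ K` for some `m ∉ T`. -/
theorem wedge_ext {c : (Fin 4 → ℝ) → Fin 10} {δ η : ℝ} (hc : Margin c δ) (hη : 0 < η)
    {f : Fin 4 → Fin 4 → ℝ} (hf : Frame f) :
    ∃ j₀, ∀ j ≥ j₀, ∀ T : Finset (Fin 10), c (f 2) ∈ T →
      push (lab4 c f (level j)) ((level j).c 2) T = 1 →
        ∃ m, m ∉ T ∧ InK c η (insert m T) := by
  obtain ⟨j₀, hj₀⟩ := exists_level_mesh (ε := η / 4) (by positivity)
  refine ⟨j₀, fun j hj T hT hpush => ?_⟩
  refine wedge_core hc hf (good_level j) ?_ T hT hpush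
  have := hj₀ j hj
  linarith

/-- **Tucker with pieces**: `K` has a face with 4 colours. -/
theorem exists_tetra {c : (Fin 4 → ℝ) → Fin 10} {δ η : ℝ} (hc : Margin c δ) (hη : 0 < η) :
    ∃ F : Finset (Fin 10), F.card = 4 ∧ InK c η F :=
  FP.exists_tetra_aux hc hη

/-- **P1.** -/
theorem no_disjoint_tetra {c : (Fin 4 → ℝ) → Fin 10} {δ η : ℝ} (hc : Margin c δ) (hη : 0 ≤ η)
    (hηδ : 8 * η < δ) {Q Q' : Finset (Fin 10)} (hQ : InK c η Q) (hQ' : InK c η Q') (h4 : Q.card = 4)
    (h4' : Q'.card = 4) : ¬ Disjoint Q Q' :=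
  FP.no_disjoint_tetra_aux hc hη hηδ hQ hQ' h4 h4'

/-- **P2.** -/
theorem no_three_cover {c : (Fin 4 → ℝ) → Fin 10} {δ η : ℝ} (hc : Margin c δ) (hη : 0 ≤ η)
    (hηδ : 8 * η < δ) {Q T T' : Finset (Fin 10)} (hQ : InK c η Q) (hT : InK c η T) (hT' : InK c η T')
    (hcover : Q ∪ T ∪ T' = univ) : False :=
  FP.no_three_cover_aux hc hη hηδ hQ hT hT' hcover

end Crest.Agent.S0069Lib
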