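import Crest.Agent.S0069Lib.Shell
import Crest.Agent.S0069Lib.Frame
import Crest.Agent.S0069Lib.CoreFinite

/-!
# S0069: assembly
-/

set_option autoImplicit false

namespace Crest.Agent.S0069Lib

open Finset

/-- A singleton is a cluster. -/
private theorem cluster_singleton {n : ℕ} {y : Fin n → ℝ} {η : ℝ} (hy : dot y y = 1) :
    Cluster η {y} := by
  refine ⟨?_, ?_⟩
  · intro p hp
    rw [Finset.mem_singleton] at hp
    rw [hp]; exact hy
  · intro p hp q hq
    rw [Finset.mem_singleton] at hp hq
    rw [hp, hq]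
    left
    have : dot (y - y) (y - y) = 0 := by simp [dot]
    rw [this]
    positivity

/-- The polar of a cluster avoids its colours. -/
private theorem polar_avoid {c : (Fin 4 → ℝ) → Fin 10} {δ η : ℝ} (hc : Margin c δ) (hη : 0 ≤ η)
    (hηδ : 8 * η < δ) {P : Finset (Fin 4 → ℝ)} (hP : Cluster η P) {x y : Fin 4 → ℝ} (hx : x ∈ P)
    (hy : dot y y = 1) (hxy : dot x y = 0) : c y ∉ P.image c := by
  have h4 : 4 * η < δ := by linarith
  have hd := disjoint_of_nearOrth hc hη h4 hP (cluster_singleton hy) hx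
    (Finset.mem_singleton_self y) (by rw [hxy]; simpa using hη)
  intro hmem
  rw [Finset.disjoint_left] at hd
  exact hd hmem (by simp)

private theorem zmod2_cases (a : ZMod 2) : a = 0 ∨ a = 1 := by
  revert a; decide

/-- For a tetra `S ∈ K`: the selection-cycle on its complement with extensions. -/
theorem tetra_structure {c : (Fin 4 → ℝ) → Fin 10} {δ η : ℝ} (hc : Margin c δ) (hη : 0 < η)
    (hηδ : 8 * η < δ) {Q : Finset (Fin 10)} (hQ4 : Q.card = 4) (hQ : InK c η Q) :
    ∃ Z : Finset (Finset (Fin 10)),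
      (∀ T ∈ Z, T.card = 3 ∧ Disjoint T Q ∧ InK c η T ∧ ∃ m ∈ Q, InK c η (insert m T)) ∧
      (∀ T, T.card = 3 → Disjoint T Q → (T ∈ Z ↔ (Qᶜ \ T) ∉ Z)) ∧
      (∀ e : Finset (Fin 10), e.card = 2 → Disjoint e Q → Even (Z.filter (fun T => e ⊆ T)).card) := by
  classical
  obtain ⟨P, hP, hPQ⟩ := hQ
  -- a point of the cluster
  have hPne : P.Nonempty := by
    rw [Finset.nonempty_iff_ne_empty]
    rintro rfl
    simp at hPQ
    rw [← hPQ] at hQ4
    simp at hQ4
  obtain ⟨x, hxP⟩ := hPne
  have hxx : dot x x = 1 := hP.1 x hxP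
  -- all colours on the polar of `x` lie in `B`
  have hpolar : ∀ y, dot y y = 1 → dot y x = 0 → c y ∈ Qᶜ := by
    intro y hy hyx
    rw [Finset.mem_compl, ← hPQ]
    exact polar_avoid hc hη.le hηδ hP hxP hy (by rw [dot_comm]; exact hyx)
  have hBcard : (Qᶜ).card = 6 := by
    rw [Finset.card_compl, hQ4]; simp
  have hQ' : InK c η Q := ⟨P, hP, hPQ⟩
  -- a frame with last vector `x`
  have frame_of : ∀ {a b y : Fin 4 → ℝ}, dot a a = 1 → dot b b = 1 → dot y y = 1 → dot a b = 0 →
      dot a y = 0 → dot a x = 0 → dot b y = 0 → dot b x = 0 → dot y x = 0 →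
      Frame ![a, b, y, x] := by
    intro a b y haa hbb hyy hab hay hax hby hbx hyx i j
    fin_cases i <;> fin_cases j <;>
      simp [Matrix.cons_val_zero, Matrix.cons_val_one, haa, hbb, hyy, hxx, hab, hay, hax, hby, hbx,
        hyx, dot_comm _ a, dot_comm _ b, dot_comm _ y]
  -- the base frame
  obtain ⟨g, hg, hgx⟩ := exists_frame_perp (n := 4) 3 ({x} : Finset (Fin 4 → ℝ)) (by simp)
  have hg' : ∀ i, dot (g i) x = 0 := fun i => hgx i x (by simp)
  have hgg : ∀ i j, dot (g i) (g j) = if i = j then 1 else 0 := hg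
  have hF0 : Frame ![g 0, g 1, g 2, x] :=
    frame_of (by simpa using hgg 0 0) (by simpa using hgg 1 1) (by simpa using hgg 2 2)
      (by simpa using hgg 0 1) (by simpa using hgg 0 2) (hg' 0) (by simpa using hgg 1 2) (hg' 1)
      (hg' 2)
  set F0 : Fin 4 → Fin 4 → ℝ := ![g 0, g 1, g 2, x] with hF0def
  have hF03 : F0 3 = x := rfl
  obtain ⟨j₁, ht2⟩ := t2_frame hc hF0 hBcard (fun y hy hyx => hpolar y hy (by rwa [hF03] at hyx))
  obtain ⟨j₂, hinK⟩ := inK_of_push_ne hc hη hF0
  set j := max j₁ j₂ with hj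
  have ht2' := ht2 j (le_max_left _ _)
  have hinK' := hinK j (le_max_right _ _)
  have hcyc := push_c2_cycle hc F0 (good_level j)
  set d : Finset (Fin 10) → ZMod 2 := push (lab4 c F0 (level j)) ((level j).c 2) with hd
  -- support of `d` in `B`
  have hdB : ∀ T : Finset (Fin 10), d T ≠ 0 → T ⊆ Qᶜ := by
    intro T hT t ht
    obtain ⟨y, hy, hyx, hyt⟩ := (hinK' T hT).2 t ht
    rw [← hyt]
    exact hpolar y hy (by rwa [hF03] at hyx)
  refine ⟨(univ : Finset (Finset (Fin 10))).filter (fun T => T.card = 3 ∧ d T = 1), ?_, ?_, ?_⟩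
  · -- properties of `Z`
    intro T hT
    rw [Finset.mem_filter] at hT
    obtain ⟨-, hT3, hdT⟩ := hT
    have hdT' : d T ≠ 0 := by rw [hdT]; exact one_ne_zero
    have hTB := hdB T hdT'
    have hTQ : Disjoint T Q := by
      rw [Finset.disjoint_left]
      intro t ht htQ
      exact (Finset.mem_compl.mp (hTB ht)) htQ
    have hTK := (hinK' T hdT').1
    refine ⟨hT3, hTQ, hTK, ?_⟩
    -- extension
    obtain ⟨t, ht⟩ : T.Nonempty := by
      rw [← Finset.card_pos, hT3]; norm_num
    obtain ⟨y, hy, hyx, hyt⟩ := (hinK' T hdT').2 t ht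
    rw [hF03] at hyx
    obtain ⟨h, hh, hhp⟩ := exists_frame_perp (n := 4) 2 ({x, y} : Finset (Fin 4 → ℝ)) (by
      have : ({x, y} : Finset (Fin 4 → ℝ)).card ≤ 2 := Finset.card_le_two
      omega)
    have hh' : ∀ i j, dot (h i) (h j) = if i = j then 1 else 0 := hh
    have hf : Frame ![h 0, h 1, y, x] :=
      frame_of (by simpa using hh' 0 0) (by simpa using hh' 1 1) hy (by simpa using hh' 0 1)
        (hhp 0 y (by simp)) (hhp 0 x (by simp)) (hhp 1 y (by simp)) (hhp 1 x (by simp)) hyx
    set f : Fin 4 → Fin 4 → ℝ := ![h 0, h 1, y, x] with hfdef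
    have hf3 : f 3 = x := rfl
    have hf2 : f 2 = y := rfl
    obtain ⟨j₃, ht2f⟩ := t2_frame hc hf hBcard (fun y' hy' hyx' => hpolar y' hy' (by rwa [hf3] at hyx'))
    obtain ⟨j₄, hinKf⟩ := inK_of_push_ne hc hη hf
    obtain ⟨j₅, hwedge⟩ := wedge_ext hc hη hf
    set k := max j₃ (max j₄ j₅) with hk
    have hk3 : j₃ ≤ k := le_max_left _ _
    have hk4 : j₄ ≤ k := le_trans (le_max_left _ _) (le_max_right _ _)
    have hk5 : j₅ ≤ k := le_trans (le_max_right _ _) (le_max_right _ _)
    have hTBsub : T ⊆ Qᶜ := hTB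
    have hsum := ht2f k hk3 T hTBsub hT3
    have hcardc : (Qᶜ \ T).card = 3 := by
      rw [Finset.card_sdiff_of_subset hTBsub, hBcard, hT3]
    -- `d^f T = 1`
    have hdf : push (lab4 c f (level k)) ((level k).c 2) T = 1 := by
      rcases zmod2_cases (push (lab4 c f (level k)) ((level k).c 2) T) with h0 | h1
      · exfalso
        rw [h0, zero_add] at hsum
        have hne : push (lab4 c f (level k)) ((level k).c 2) (Qᶜ \ T) ≠ 0 := by
          rw [hsum]; exact one_ne_zero
        have hT'K := (hinKf k hk4 (Qᶜ \ T) hne).1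
        refine no_three_cover hc hη.le hηδ hQ' hTK hT'K ?_
        ext i
        simp only [Finset.mem_union, Finset.mem_sdiff, Finset.mem_compl, Finset.mem_univ, iff_true]
        by_cases hiQ : i ∈ Q
        · exact Or.inl (Or.inl hiQ)
        · by_cases hiT : i ∈ T
          · exact Or.inl (Or.inr hiT)
          · exact Or.inr ⟨hiQ, hiT⟩
      · exact h1
    have hcT : c (f 2) ∈ T := by rw [hf2, hyt]; exact ht
    obtain ⟨m, hmT, hmK⟩ := hwedge k hk5 T hcT hdf
    refine ⟨m, ?_, hmK⟩
    by_contra hmQ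
    have hdisj : Disjoint (insert m T) Q := by
      rw [Finset.disjoint_insert_left]
      exact ⟨hmQ, hTQ⟩
    have hcard4 : (insert m T).card = 4 := by
      rw [Finset.card_insert_of_notMem hmT, hT3]
    exact no_disjoint_tetra hc hη.le hηδ hmK hQ' hcard4 hQ4 hdisj
  · -- selection
    intro T hT3 hTQ
    have hTB : T ⊆ Qᶜ := by
      intro t ht
      rw [Finset.mem_compl]
      exact Finset.disjoint_left.mp hTQ ht
    have hsum := ht2' T hTB hT3
    have hcardc : (Qᶜ \ T).card = 3 := by
      rw [Finset.card_sdiff_of_subset hTB, hBcard, hT3]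
    have hsum' : d T + d (Qᶜ \ T) = 1 := hsum
    simp only [Finset.mem_filter, Finset.mem_univ, true_and, hT3, hcardc]
    rcases zmod2_cases (d T) with h0 | h1
    · rw [h0, zero_add] at hsum'
      simp [h0, hsum']
    · rw [h1] at hsum'
      have h2 : d (Qᶜ \ T) = 0 := by
        have : (1 : ZMod 2) + d (Qᶜ \ T) = 1 := hsum'
        rcases zmod2_cases (d (Qᶜ \ T)) with h | h
        · exact h
        · rw [h] at this; exact absurd this (by decide : (1 : ZMod 2) + 1 ≠ 1)
      simp [h1, h2]
  · -- cycle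
    intro e he2 heQ
    have hb := congrFun hcyc e
    have hb' : ∑ v ∈ eᶜ, d (insert v e) = 0 := hb
    -- The filtered family is in bijection with the vertices `v ∉ e` such that `d (insert v e) = 1`.
    have hval : ∀ v : Fin 10, d (insert v e) = if d (insert v e) = 1 then 1 else 0 := by
      intro v
      rcases zmod2_cases (d (insert v e)) with h | h <;> simp [h]
    have hcount : (((univ : Finset (Finset (Fin 10))).filter (fun T => T.card = 3 ∧ d T = 1)).filter
        (fun T => e ⊆ T)).card = (eᶜ.filter (fun v => d (insert v e) = 1)).card := by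
      symm
      apply Finset.card_bij (fun v _ => insert v e)
      · intro v hv
        rw [Finset.mem_filter, Finset.mem_compl] at hv
        simp only [Finset.mem_filter, Finset.mem_univ, true_and]
        refine ⟨⟨?_, hv.2⟩, Finset.subset_insert _ _⟩
        rw [Finset.card_insert_of_notMem hv.1, he2]
      · intro v hv w hw hvw
        rw [Finset.mem_filter, Finset.mem_compl] at hv hw
        have : v ∈ insert w e := by rw [← hvw]; exact Finset.mem_insert_self _ _
        rw [Finset.mem_insert] at this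
        rcases this with h | h
        · exact h
        · exact absurd h hv.1
      · intro T hT
        simp only [Finset.mem_filter, Finset.mem_univ, true_and] at hT
        obtain ⟨⟨hT3, hdT⟩, heT⟩ := hT
        have hcard : (T \ e).card = 1 := by
          rw [Finset.card_sdiff_of_subset heT, hT3, he2]
        obtain ⟨v, hv⟩ := Finset.card_eq_one.mp hcard
        have hvT : v ∈ T \ e := by rw [hv]; simp
        rw [Finset.mem_sdiff] at hvT
        have hins : insert v e = T := by
          ext a
          rw [Finset.mem_insert]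
          constructor
          · rintro (rfl | h)
            · exact hvT.1
            · exact heT h
          · intro haT
            by_cases hae : a ∈ e
            · exact Or.inr hae
            · left
              have : a ∈ T \ e := Finset.mem_sdiff.mpr ⟨haT, hae⟩
              rw [hv] at this
              simpa using this
        refine ⟨v, ?_, hins⟩
        rw [Finset.mem_filter, Finset.mem_compl]
        exact ⟨hvT.2, by rw [hins]; exact hdT⟩
    rw [hcount]
    rw [Finset.sum_congr rfl (fun v _ => hval v), Finset.sum_ite] at hb'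
    simp only [Finset.sum_const_zero, add_zero, Finset.sum_const, nsmul_eq_mul, mul_one] at hb'
    exact (ZMod.natCast_eq_zero_iff_even).mp hb'

/-- **The core of S0069.** -/
theorem core_proof : Core := by
  rintro ⟨C, d, hd, hC⟩
  obtain ⟨c, hc⟩ := exists_even_margin C hd hC
  have hη : 0 < d / 16 := by positivity
  have hηδ : 8 * (d / 16) < d := by linarith
  obtain ⟨F, hF4, hF⟩ := exists_tetra hc hη
  refine core_finite (InK c (d / 16)) (InK c (d / 16)) ⟨F, hF4, hF⟩ ?_ ?_ ?_
  · intro Q Q' h4 h4' hQ hQ'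
    exact no_disjoint_tetra hc hη.le hηδ hQ hQ' h4 h4'
  · intro Q T T' _ _ _ hQ hT hT' hcover
    exact no_three_cover hc hη.le hηδ hQ hT hT' hcover
  · intro Q hQ4 hQ
    exact tetra_structure hc hη hηδ hQ4 hQ

end Crest.Agent.S0069Lib
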