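import Mathlib

/-!
# S0069: the Line Lemma, as a statement on periodic sequences

`f : ℕ → α` is the colour sequence along a fine polygon of a projective line: `f (j + 2N) = f j`,
and `f j ≠ f (j + N)`, `f j ≠ f (j + N + 1)` express that (near-)orthogonal points of the line have
different colours.  Then the line uses at least three colours, and when it uses exactly three colours
`a, b, c`, the number of `a-b` edges of the closed polygon is odd.

The proof of the parity is a potential function on ordered pairs `(f j, f (j + N))`: with the order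
`b < c < a`, `φ (x, y)` records whether `x > y`.  It changes exactly when one coordinate jumps over the
other, i.e. along an `a-b` edge of one of the two strands, and `φ (y, x) = φ (x, y) + 1`.
-/

set_option autoImplicit false

namespace Crest.Agent.S0069Lib

open Finset

variable {α : Type*} [DecidableEq α]

/-- Indicator (in `ZMod 2`) of an `a-b` edge. -/
def edgeInd (a b x y : α) : ZMod 2 :=
  if (x = a ∧ y = b) ∨ (x = b ∧ y = a) then 1 else 0

/-- Potential on ordered pairs: with order `b < c < a`, it is `1` iff `x > y`. -/
def linePot (a b : α) (x y : α) : ZMod 2 :=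
  if x = a ∨ y = b then 1 else 0

omit [DecidableEq α] in
/-- A periodic sequence with the near-orthogonality constraints takes at least three values. -/
theorem line_two_colours_false (f : ℕ → α) (N : ℕ)
    (h0 : ∀ j, f j ≠ f (j + N)) (h1 : ∀ j, f j ≠ f (j + N + 1))
    (a b : α) (hab : ∀ j, f j = a ∨ f j = b) : False := by
  -- `f (k + N + 1) = f (k + N)` for every `k`
  have step : ∀ k, f (k + N + 1) = f (k + N) := by
    intro k
    have h₀ := h0 k
    have h₁ := h1 k
    rcases hab k with h | h <;> rcases hab (k + N) with h' | h' <;>
      rcases hab (k + N + 1) with h'' | h'' <;> simp_all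
  have const : ∀ m, f (N + m) = f N := by
    intro m
    induction m with
    | zero => simp
    | succ m ih =>
      have := step m
      have e1 : N + (m + 1) = m + N + 1 := by ring
      have e2 : N + m = m + N := by ring
      rw [e1, this, ← e2, ih]
  have := h0 N
  apply this
  rw [const N]

/-- One step of the potential. -/
theorem line_pot_step {a b c : α} (hab : a ≠ b) (hac : a ≠ c) (hbc : b ≠ c)
    (p q p' q' : α)
    (hp : p = a ∨ p = b ∨ p = c) (hq : q = a ∨ q = b ∨ q = c)
    (hp' : p' = a ∨ p' = b ∨ p' = c) (hq' : q' = a ∨ q' = b ∨ q' = c)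
    (h1 : p ≠ q) (h2 : p' ≠ q') (h3 : p ≠ q') (h4 : q ≠ p') :
    edgeInd a b p p' + edgeInd a b q q' = linePot a b p' q' + linePot a b p q := by
  have hba := hab.symm
  have hca := hac.symm
  have hcb := hbc.symm
  rcases hp with rfl | rfl | rfl <;> rcases hq with rfl | rfl | rfl <;>
    rcases hp' with rfl | rfl | rfl <;> rcases hq' with rfl | rfl | rfl <;>
    first
    | exact absurd rfl h1
    | exact absurd rfl h2
    | exact absurd rfl h3
    | exact absurd rfl h4
    | (simp [edgeInd, linePot, *]; try decide)

/-- The antipodal relation of the potential. -/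
theorem line_pot_swap {a b c : α} (hab : a ≠ b) (hac : a ≠ c) (hbc : b ≠ c)
    (p q : α) (hp : p = a ∨ p = b ∨ p = c) (hq : q = a ∨ q = b ∨ q = c) (h1 : p ≠ q) :
    linePot a b q p + linePot a b p q = 1 := by
  have hba := hab.symm
  have hca := hac.symm
  have hcb := hbc.symm
  rcases hp with rfl | rfl | rfl <;> rcases hq with rfl | rfl | rfl <;>
    first
    | exact absurd rfl h1
    | (simp [linePot, *]; try decide)

/-- **Line Lemma (parity).** If a `2N`-periodic sequence with the near-orthogonality constraints takes
values in `{a, b, c}` (distinct), the number of `a-b` edges of the closed polygon is odd. -/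
theorem line_parity (f : ℕ → α) (N : ℕ)
    (hper : ∀ j, f (j + 2 * N) = f j)
    (h0 : ∀ j, f j ≠ f (j + N)) (h1 : ∀ j, f j ≠ f (j + N + 1))
    {a b c : α} (hab : a ≠ b) (hac : a ≠ c) (hbc : b ≠ c)
    (hval : ∀ j, f j = a ∨ f j = b ∨ f j = c) :
    ∑ j ∈ range (2 * N), edgeInd a b (f j) (f (j + 1)) = 1 := by
  have hstep : ∀ j, edgeInd a b (f j) (f (j + 1)) + edgeInd a b (f (j + N)) (f (j + N + 1))
      = linePot a b (f (j + 1)) (f (j + 1 + N)) + linePot a b (f j) (f (j + N)) := by
    intro j
    have e : j + 1 + N = j + N + 1 := by ring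
    rw [e]
    refine line_pot_step hab hac hbc _ _ _ _ (hval _) (hval _) (hval _) (hval _) (h0 _) ?_ (h1 _) ?_
    · have := h0 (j + 1)
      rwa [e] at this
    · -- `f (j + N) ≠ f (j + 1)`, from `h1` at `j + N` and periodicity
      have := h1 (j + N)
      have e2 : j + N + N + 1 = (j + 1) + 2 * N := by ring
      rw [e2, hper] at this
      exact this
  have hsum : ∀ k, ∑ j ∈ range k, (edgeInd a b (f j) (f (j + 1))
        + edgeInd a b (f (j + N)) (f (j + N + 1)))
      = linePot a b (f k) (f (k + N)) + linePot a b (f 0) (f (0 + N)) := by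
    intro k
    induction k with
    | zero =>
      simp only [range_zero, sum_empty]
      exact (CharTwo.add_self_eq_zero _).symm
    | succ k ih =>
      rw [sum_range_succ, ih, hstep k]
      have h2 : ∀ x y z : ZMod 2, x + y + (z + x) = z + y := by decide
      exact h2 _ _ _
  have hN := hsum N
  rw [sum_add_distrib] at hN
  have e1 : ∑ j ∈ range (2 * N), edgeInd a b (f j) (f (j + 1))
      = ∑ j ∈ range N, edgeInd a b (f j) (f (j + 1))
        + ∑ j ∈ range N, edgeInd a b (f (j + N)) (f (j + N + 1)) := by
    rw [two_mul, sum_range_add]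
    refine congrArg₂ _ rfl ?_
    refine sum_congr rfl fun j _ => ?_
    have e3 : N + j = j + N := by ring
    have e4 : N + j + 1 = j + N + 1 := by ring
    rw [e3]
  rw [e1, hN]
  have e5 : f (N + N) = f 0 := by
    have := hper 0
    rwa [show 0 + 2 * N = N + N by ring] at this
  rw [e5]
  simpa using line_pot_swap hab hac hbc (f 0) (f N) (hval _) (hval _)
    (by simpa using h0 0)

end Crest.Agent.S0069Lib
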