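import Crest.Agent.S0069Lib.Vec
import Crest.Agent.S0069Lib.LineLemma

/-!
# S0069: the line lemma

Combinatorial part `line_seq` (walk in ordered pairs of colours = permutations of three colours)
and geometric part `line_lemma`.
-/

set_option autoImplicit false

namespace Crest.Agent.S0069Lib

open Finset

/-- `edgeInd` recognises the unordered pair. -/
private theorem edgeInd_eq_ite {κ : Type} [DecidableEq κ] {a b : κ} (hab : a ≠ b) (x y : κ) :
    edgeInd a b x y = if ({x, y} : Finset κ) = {a, b} then 1 else 0 := by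
  unfold edgeInd
  have hiff : ((x = a ∧ y = b) ∨ (x = b ∧ y = a)) ↔ ({x, y} : Finset κ) = {a, b} := by
    constructor
    · rintro (⟨rfl, rfl⟩ | ⟨rfl, rfl⟩)
      · rfl
      · exact Finset.pair_comm _ _
    · intro h
      have hx : x ∈ ({a, b} : Finset κ) := by rw [← h]; simp
      have hy : y ∈ ({a, b} : Finset κ) := by rw [← h]; simp
      have ha : a ∈ ({x, y} : Finset κ) := by rw [h]; simp
      have hb : b ∈ ({x, y} : Finset κ) := by rw [h]; simp
      simp only [mem_insert, mem_singleton] at hx hy ha hb
      rcases hx with rfl | rfl <;> rcases hy with rfl | rfl <;> simp_all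
  by_cases h : ({x, y} : Finset κ) = {a, b}
  · rw [if_pos h, if_pos (hiff.mpr h)]
  · rw [if_neg h, if_neg (fun h' => h (hiff.mp h'))]

/-- **Combinatorial line lemma.** -/
theorem line_seq {κ : Type} [DecidableEq κ] (k : ℕ) (hk : 0 < k) (s : ℕ → κ)
    (hper : ∀ i, s (i + 4 * k) = s i)
    (hd : ∀ i, Disjoint ({s i, s (i + 1)} : Finset κ) {s (i + 2 * k), s (i + 2 * k + 1)}) :
    (∀ U : Finset κ, (∀ i, s i ∈ U) → 3 ≤ U.card) ∧
    ∀ U : Finset κ, U.card = 3 → (∀ i, s i ∈ U) → ∀ E ⊆ U, E.card = 2 →
      Odd ((range (4 * k)).filter (fun i => ({s i, s (i + 1)} : Finset κ) = E)).card := by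
  have h0 : ∀ j, s j ≠ s (j + 2 * k) := by
    intro j h
    have := Finset.disjoint_left.mp (hd j) (show s j ∈ ({s j, s (j + 1)} : Finset κ) by simp)
    exact this (by simp [h])
  have h1 : ∀ j, s j ≠ s (j + 2 * k + 1) := by
    intro j h
    have := Finset.disjoint_left.mp (hd j) (show s j ∈ ({s j, s (j + 1)} : Finset κ) by simp)
    exact this (by simp [h])
  refine ⟨?_, ?_⟩
  · intro U hU
    by_contra hcard
    have hle : U.card ≤ 2 := by omega
    -- `U` has at most two elements and contains a value of `s`
    obtain ⟨a, b, hab⟩ : ∃ a b : κ, ∀ j, s j = a ∨ s j = b := by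
      have hmem : s 0 ∈ U := hU 0
      rcases Nat.lt_or_ge U.card 2 with hlt | hge
      · have hone : U.card = 1 := by
          have : 0 < U.card := Finset.card_pos.mpr ⟨_, hmem⟩
          omega
        obtain ⟨a, ha⟩ := Finset.card_eq_one.mp hone
        refine ⟨a, a, fun j => Or.inl ?_⟩
        have := hU j
        rw [ha] at this
        simpa using this
      · have htwo : U.card = 2 := by omega
        obtain ⟨a, b, _, hb⟩ := Finset.card_eq_two.mp htwo
        refine ⟨a, b, fun j => ?_⟩
        have := hU j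
        rw [hb] at this
        simpa using this
    exact line_two_colours_false s (2 * k) h0 h1 a b hab
  · intro U hU hval E hEU hE
    obtain ⟨a, b, hab, rfl⟩ := Finset.card_eq_two.mp hE
    -- the third colour
    have hcard : ((U \ {a, b}) : Finset κ).card = 1 := by
      rw [Finset.card_sdiff_of_subset hEU, hU, hE]
    obtain ⟨c, hc⟩ := Finset.card_eq_one.mp hcard
    have hcmem : c ∈ U \ {a, b} := by rw [hc]; simp
    simp only [mem_sdiff, mem_insert, mem_singleton, not_or] at hcmem
    obtain ⟨hcU, hca, hcb⟩ := hcmem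
    have hUeq : U = {a, b, c} := by
      ext x
      constructor
      · intro hx
        by_cases hxE : x ∈ ({a, b} : Finset κ)
        · simp only [mem_insert, mem_singleton] at hxE ⊢
          tauto
        · have : x ∈ U \ {a, b} := mem_sdiff.mpr ⟨hx, hxE⟩
          rw [hc, mem_singleton] at this
          simp [this]
      · intro hx
        simp only [mem_insert, mem_singleton] at hx
        rcases hx with rfl | rfl | rfl
        · exact hEU (by simp)
        · exact hEU (by simp)
        · exact hcU
    have hval' : ∀ j, s j = a ∨ s j = b ∨ s j = c := by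
      intro j
      have := hval j
      rw [hUeq] at this
      simpa using this
    have hpar := line_parity s (2 * k)
      (by
        intro j
        have e : j + 2 * (2 * k) = j + 4 * k := by ring
        rw [e]; exact hper j) h0 h1 hab (Ne.symm hca) (Ne.symm hcb) hval'
    have e4 : 2 * (2 * k) = 4 * k := by ring
    rw [e4] at hpar
    simp only [edgeInd_eq_ite hab] at hpar
    rw [Finset.sum_boole] at hpar
    exact (ZMod.natCast_eq_one_iff_odd).mp hpar

variable {n : ℕ}

/-- Polygon on the projective line spanned by `a, b`: `p i = cos (iπ/N) a + sin (iπ/N) b`. -/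
noncomputable def polyPt (a b : Fin n → ℝ) (N i : ℕ) : Fin n → ℝ :=
  Real.cos (i * Real.pi / N) • a + Real.sin (i * Real.pi / N) • b

/-- Dot product on the circle. -/
private theorem dot_circle {a b : Fin n → ℝ} (ha : dot a a = 1) (hb : dot b b = 1)
    (hab : dot a b = 0) (α β : ℝ) :
    dot (Real.cos α • a + Real.sin α • b) (Real.cos β • a + Real.sin β • b) = Real.cos (α - β) := by
  have hba : dot b a = 0 := by rw [dot_comm]; exact hab
  have hr : ∀ (r : ℝ) (x y : Fin n → ℝ), dot x (r • y) = r * dot x y := by
    intro r x y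
    rw [dot_comm, dot_smul_left, dot_comm]
  have hadd : ∀ (x y z : Fin n → ℝ), dot x (y + z) = dot x y + dot x z := by
    intro x y z
    rw [dot_comm, dot_add_left, dot_comm y, dot_comm z]
  rw [dot_add_left, hadd, hadd, dot_smul_left, dot_smul_left, hr, hr, dot_smul_left,
    dot_smul_left, hr, hr, ha, hb, hab, hba, Real.cos_sub]
  ring

theorem dot_polyPt {a b : Fin n → ℝ} (ha : dot a a = 1) (hb : dot b b = 1) (hab : dot a b = 0)
    (N i : ℕ) : dot (polyPt a b N i) (polyPt a b N i) = 1 := by
  unfold polyPt
  rw [dot_circle ha hb hab, sub_self, Real.cos_zero]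

/-- Inner product of two polygon points. -/
private theorem dot_polyPt_polyPt {a b : Fin n → ℝ} (ha : dot a a = 1) (hb : dot b b = 1)
    (hab : dot a b = 0) (N i j : ℕ) :
    dot (polyPt a b N i) (polyPt a b N j) =
      Real.cos ((i : ℝ) * Real.pi / N - (j : ℝ) * Real.pi / N) := by
  unfold polyPt
  rw [dot_circle ha hb hab]

theorem polyPt_add_N {a b : Fin n → ℝ} {N : ℕ} (hN : 0 < N) (i : ℕ) :
    polyPt a b N (i + N) = - polyPt a b N i := by
  have hN' : (N : ℝ) ≠ 0 := by positivity
  have e : ((i + N : ℕ) : ℝ) * Real.pi / N = (i : ℝ) * Real.pi / N + Real.pi := by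
    push_cast
    field_simp
  unfold polyPt
  rw [e, Real.cos_add_pi, Real.sin_add_pi]
  simp only [neg_smul, neg_add_rev]
  abel

/-- Consecutive polygon points are close. -/
theorem LC_polyPt {a b : Fin n → ℝ} (ha : dot a a = 1) (hb : dot b b = 1) (hab : dot a b = 0)
    {N : ℕ} (hN : 0 < N) (i : ℕ) :
    dot (polyPt a b N i - polyPt a b N (i + 1)) (polyPt a b N i - polyPt a b N (i + 1)) ≤
      (Real.pi / N) ^ 2 := by
  have hN' : (N : ℝ) ≠ 0 := by positivity
  have hsub : ∀ (x y z : Fin n → ℝ), dot x (y - z) = dot x y - dot x z := by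
    intro x y z
    rw [dot_comm, dot_sub_left, dot_comm y, dot_comm z]
  have h1 := dot_polyPt ha hb hab N i
  have h2 := dot_polyPt ha hb hab N (i + 1)
  have h3 := dot_polyPt_polyPt ha hb hab N i (i + 1)
  have h4 : dot (polyPt a b N (i + 1)) (polyPt a b N i) = dot (polyPt a b N i) (polyPt a b N (i + 1)) :=
    dot_comm _ _
  have e : (i : ℝ) * Real.pi / N - ((i + 1 : ℕ) : ℝ) * Real.pi / N = - (Real.pi / N) := by
    push_cast
    field_simp
    ring
  rw [dot_sub_left, hsub, hsub, h1, h2, h4, h3, e, Real.cos_neg]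
  have := Real.one_sub_sq_div_two_le_cos (x := Real.pi / N)
  nlinarith

/-- **Geometric line lemma.** For `N = 4k` fine wrt the margin: a projective line has at least three
colours, and if exactly three then for each pair of colours the number of polygon edges with exactly these
colours is odd. -/
theorem line_lemma {c : (Fin n → ℝ) → Fin 10} {δ : ℝ} (hc : Margin c δ)
    {a b : Fin n → ℝ} (ha : dot a a = 1) (hb : dot b b = 1) (hab : dot a b = 0)
    {k : ℕ} (hk : 0 < k) (hfine : Real.pi / (4 * k) < δ / 2) :
    (∀ U : Finset (Fin 10), (∀ i, c (polyPt a b (4 * k) i) ∈ U) → 3 ≤ U.card) ∧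
    ∀ U : Finset (Fin 10), U.card = 3 → (∀ i, c (polyPt a b (4 * k) i) ∈ U) →
      ∀ E ⊆ U, E.card = 2 →
        Odd ((range (4 * k)).filter (fun i =>
          ({c (polyPt a b (4 * k) i), c (polyPt a b (4 * k) (i + 1))} : Finset (Fin 10)) = E)).card := by
  have hk' : (0 : ℝ) < k := by exact_mod_cast hk
  have hδ := hc.pos
  have hkr : (k : ℝ) ≠ 0 := hk'.ne'
  have h4k : 0 < 4 * k := by omega
  set N : ℕ := 4 * k with hN
  have hNr : ((N : ℕ) : ℝ) = 4 * k := by rw [hN]; push_cast; ring
  set θ : ℝ := Real.pi / (4 * k) with hθ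
  have hθ0 : 0 ≤ θ := by positivity
  have hθπ : θ ≤ Real.pi := by
    rw [hθ]
    refine div_le_self Real.pi_pos.le ?_
    have : (1 : ℝ) ≤ k := by exact_mod_cast hk
    linarith
  have hsin : |Real.sin θ| < δ := by
    rw [abs_of_nonneg (Real.sin_nonneg_of_nonneg_of_le_pi hθ0 hθπ)]
    have := Real.sin_le hθ0
    linarith
  -- if two polygon points have `|dot| < δ` they have different colours
  have hne : ∀ i j, |dot (polyPt a b N i) (polyPt a b N j)| < δ →
      c (polyPt a b N i) ≠ c (polyPt a b N j) := by
    intro i j hlt heq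
    have := hc.sep _ _ (dot_polyPt ha hb hab N i) (dot_polyPt ha hb hab N j) heq
    linarith
  -- the inner products we need
  have hval : ∀ (i j : ℕ) (t : ℝ), (i : ℝ) * Real.pi / N - (j : ℝ) * Real.pi / N = t →
      dot (polyPt a b N i) (polyPt a b N j) = Real.cos t := by
    intro i j t ht
    rw [dot_polyPt_polyPt ha hb hab, ht]
  have hper : ∀ i, c (polyPt a b N (i + 4 * k)) = c (polyPt a b N i) := by
    intro i
    rw [← hN, polyPt_add_N (by omega), hc.even]
  have hNne : (N : ℝ) ≠ 0 := by rw [hNr]; positivity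
  have hdis : ∀ i, Disjoint ({c (polyPt a b N i), c (polyPt a b N (i + 1))} : Finset (Fin 10))
      {c (polyPt a b N (i + 2 * k)), c (polyPt a b N (i + 2 * k + 1))} := by
    intro i
    have h00 : c (polyPt a b N i) ≠ c (polyPt a b N (i + 2 * k)) := by
      apply hne
      rw [hval i (i + 2 * k) (-(Real.pi / 2))]
      · rw [Real.cos_neg, Real.cos_pi_div_two, abs_zero]; exact hδ
      · rw [hNr]; push_cast; field_simp; ring
    have h01 : c (polyPt a b N i) ≠ c (polyPt a b N (i + 2 * k + 1)) := by
      apply hne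
      rw [hval i (i + 2 * k + 1) (-(Real.pi / 2 + θ))]
      · rw [Real.cos_neg, Real.cos_add, Real.cos_pi_div_two, Real.sin_pi_div_two]
        simpa using hsin
      · rw [hNr, hθ]; push_cast; field_simp; ring
    have h10 : c (polyPt a b N (i + 1)) ≠ c (polyPt a b N (i + 2 * k)) := by
      apply hne
      rw [hval (i + 1) (i + 2 * k) (-(Real.pi / 2 - θ))]
      · rw [Real.cos_neg, Real.cos_sub, Real.cos_pi_div_two, Real.sin_pi_div_two]
        simpa using hsin
      · rw [hNr, hθ]; push_cast; field_simp; ring
    have h11 : c (polyPt a b N (i + 1)) ≠ c (polyPt a b N (i + 2 * k + 1)) := by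
      apply hne
      rw [hval (i + 1) (i + 2 * k + 1) (-(Real.pi / 2))]
      · rw [Real.cos_neg, Real.cos_pi_div_two, abs_zero]; exact hδ
      · rw [hNr]; push_cast; field_simp; ring
    rw [Finset.disjoint_left]
    intro x hx hx'
    simp only [mem_insert, mem_singleton] at hx hx'
    rcases hx with rfl | rfl <;> rcases hx' with h | h
    · exact h00 h
    · exact h01 h
    · exact h10 h
    · exact h11 h
  exact line_seq k hk (fun i => c (polyPt a b N i)) hper hdis

end Crest.Agent.S0069Lib
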