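import Crest.Agent.S0069Lib.Chain
import Crest.Agent.S0069Lib.Line

/-!
# S0069: band lemma

A mod 2 1-cycle near a projective line `(f 2)^⟂ ⊂ ℝ³`, whose neighbourhood carries exactly three colours
which never occur all three in one small cluster: for each pair `E` of colours the number of `E`-edges of the
cycle has the parity of the sign-change count `wf` of the cycle (the class of the cycle in `H₁(RP²)`).

Proof: on the band there is a potential `Ψ` with `Ψ x + Ψ y = ε_E (x, y)` when `x ≈ y` and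
`Ψ x + Ψ y = ε_E (x, y) + 1` when `x ≈ -y`.  It is built from the partial sums along a polygon on the
exact line (the line lemma makes the sums antiperiodic) and a rounding to the polygon.  Summing over
the cycle gives the claim.
-/

set_option autoImplicit false

namespace Crest.Agent.S0069Lib

open Finset

open Classical in
/-- Sign change of an edge. -/
noncomputable def wf {W : Type} (u : W → Fin 3 → ℝ) (e : Finset W) : ZMod 2 :=
  if ∃ a ∈ e, ∃ b ∈ e, dot (u a) (u b) < 0 then 1 else 0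

namespace BandAux

variable {n : ℕ}

theorem dot_add_right' (x y z : Fin n → ℝ) : dot x (y + z) = dot x y + dot x z := by
  simp [dot, mul_add, Finset.sum_add_distrib]

theorem dot_sub_right' (x y z : Fin n → ℝ) : dot x (y - z) = dot x y - dot x z := by
  simp [dot, mul_sub, Finset.sum_sub_distrib]

theorem dot_smul_right' (a : ℝ) (x z : Fin n → ℝ) : dot x (a • z) = a * dot x z := by
  rw [dot_comm, dot_smul_left, dot_comm]

theorem dot_neg_neg' (x y : Fin n → ℝ) : dot (-x) (-y) = dot x y := by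
  simp [dot]

theorem near_comm (x y : Fin n → ℝ) : dot (x - y) (x - y) = dot (y - x) (y - x) := by
  have : x - y = -(y - x) := by abel
  rw [this, dot_neg_neg']

theorem near_self (x : Fin n → ℝ) (A : ℝ) : dot (x - x) (x - x) ≤ A ^ 2 := by
  have : dot (x - x) (x - x) = 0 := by simp [dot]
  rw [this]; positivity

/-- Triangle inequality. -/
theorem tri {x y z : Fin n → ℝ} {A B : ℝ} (hA : 0 ≤ A) (hB : 0 ≤ B)
    (h1 : dot (x - y) (x - y) ≤ A ^ 2) (h2 : dot (y - z) (y - z) ≤ B ^ 2) :
    dot (x - z) (x - z) ≤ (A + B) ^ 2 := by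
  have h3 : x - z = (x - y) + (y - z) := by abel
  rw [h3]
  have e : dot ((x - y) + (y - z)) ((x - y) + (y - z)) =
      dot (x - y) (x - y) + 2 * dot (x - y) (y - z) + dot (y - z) (y - z) := by
    rw [dot_add_left, dot_add_right', dot_add_right', dot_comm (y - z) (x - y)]; ring
  rw [e]
  have hcs := abs_dot_le (x - y) (y - z)
  have hu : Real.sqrt (dot (x - y) (x - y)) ≤ A := Real.sqrt_le_iff.2 ⟨hA, h1⟩
  have hv : Real.sqrt (dot (y - z) (y - z)) ≤ B := Real.sqrt_le_iff.2 ⟨hB, h2⟩
  have : dot (x - y) (y - z) ≤ A * B := by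
    calc _ ≤ |dot (x - y) (y - z)| := le_abs_self _
      _ ≤ _ := hcs
      _ ≤ A * B := mul_le_mul hu hv (Real.sqrt_nonneg _) hA
  nlinarith

/-- Near vectors: expansion for unit vectors. -/
theorem near_unit {x y : Fin n → ℝ} (hx : dot x x = 1) (hy : dot y y = 1) :
    dot (x - y) (x - y) = 2 - 2 * dot x y := by
  rw [dot_sub_left, dot_sub_right', dot_sub_right', hx, hy, dot_comm y x]; ring

theorem near_neg_unit {x y : Fin n → ℝ} (hx : dot x x = 1) (hy : dot y y = 1) :
    dot (x + y) (x + y) = 2 + 2 * dot x y := by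
  rw [dot_add_left, dot_add_right', dot_add_right', hx, hy, dot_comm y x]; ring

/-! ### The polygon -/

theorem dot_polyPt_polyPt {a b : Fin n → ℝ} (ha : dot a a = 1) (hb : dot b b = 1) (hab : dot a b = 0)
    (N i j : ℕ) :
    dot (polyPt a b N i) (polyPt a b N j) = Real.cos (i * Real.pi / N - j * Real.pi / N) := by
  unfold polyPt
  simp only [dot_add_left, dot_add_right', dot_smul_left, dot_smul_right', ha, hb, dot_comm b a, hab,
    Real.cos_sub]
  ring

theorem chord {a b : Fin n → ℝ} (ha : dot a a = 1) (hb : dot b b = 1) (hab : dot a b = 0)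
    (N i j : ℕ) :
    dot (polyPt a b N i - polyPt a b N j) (polyPt a b N i - polyPt a b N j) =
      2 - 2 * Real.cos (i * Real.pi / N - j * Real.pi / N) := by
  rw [near_unit (dot_polyPt ha hb hab N i) (dot_polyPt ha hb hab N j), dot_polyPt_polyPt ha hb hab]

/-- Chord upper bound. -/
theorem chord_le {a b : Fin n → ℝ} (ha : dot a a = 1) (hb : dot b b = 1) (hab : dot a b = 0)
    (N i t : ℕ) :
    dot (polyPt a b N i - polyPt a b N (i + t)) (polyPt a b N i - polyPt a b N (i + t)) ≤
      (t * (Real.pi / N)) ^ 2 := by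
  rw [chord ha hb hab]
  have h := @Real.one_sub_sq_div_two_le_cos (i * Real.pi / N - ((i + t : ℕ) : ℝ) * Real.pi / N)
  have e : (i * Real.pi / N - ((i + t : ℕ) : ℝ) * Real.pi / N) = -(t * (Real.pi / N)) := by
    push_cast; ring
  rw [e] at h ⊢
  rw [neg_sq] at h
  linarith

/-- Chord lower bound. -/
theorem chord_ge {a b : Fin n → ℝ} (ha : dot a a = 1) (hb : dot b b = 1) (hab : dot a b = 0)
    {N : ℕ} (hN : 0 < N) (i t : ℕ) (ht : t ≤ N) :
    (t * (Real.pi / N)) ^ 2 * (4 / Real.pi ^ 2) ≤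
      dot (polyPt a b N i - polyPt a b N (i + t)) (polyPt a b N i - polyPt a b N (i + t)) := by
  rw [chord ha hb hab]
  have hNpos : (0 : ℝ) < N := by exact_mod_cast hN
  have e : (i * Real.pi / N - ((i + t : ℕ) : ℝ) * Real.pi / N) = -(t * (Real.pi / N)) := by
    push_cast; ring
  rw [e]
  have hab' : |-(t * (Real.pi / N))| ≤ Real.pi := by
    rw [abs_neg, abs_of_nonneg (by positivity)]
    have : (t : ℝ) ≤ N := by exact_mod_cast ht
    calc (t : ℝ) * (Real.pi / N) ≤ N * (Real.pi / N) := by gcongr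
      _ = Real.pi := by field_simp
  have h := Real.cos_le_one_sub_mul_cos_sq hab'
  have hpi := Real.pi_pos
  have e2 : (t * (Real.pi / N)) ^ 2 * (4 / Real.pi ^ 2) =
      2 * (2 / Real.pi ^ 2 * (-(t * (Real.pi / N))) ^ 2) := by
    rw [neg_sq]; ring
  rw [e2]
  linarith

/-- Polygon is `2N`-periodic. -/
theorem polyPt_add_two {a b : Fin n → ℝ} {N : ℕ} (hN : 0 < N) (i : ℕ) :
    polyPt a b N (i + 2 * N) = polyPt a b N i := by
  have : i + 2 * N = (i + N) + N := by ring
  rw [this, polyPt_add_N hN, polyPt_add_N hN, neg_neg]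

/-! ### The colour cochain -/

/-- The `E`-edge indicator on colours. -/
def eps (E : Finset (Fin 10)) (A B : Fin 10) : ZMod 2 :=
  if ({A, B} : Finset (Fin 10)) = E then 1 else 0

theorem eps_self {E : Finset (Fin 10)} (hE : E.card = 2) (A : Fin 10) : eps E A A = 0 := by
  unfold eps
  rw [if_neg]
  intro h
  rw [← h] at hE
  simp at hE

theorem eps_comm (E : Finset (Fin 10)) (A B : Fin 10) : eps E A B = eps E B A := by
  unfold eps
  rw [Finset.pair_comm]

theorem char2 (a : ZMod 2) : a + a = 0 := by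
  revert a; decide

theorem eps_cocycle {E : Finset (Fin 10)} (hE : E.card = 2) {A B C : Fin 10}
    (h : A = B ∨ B = C ∨ A = C) : eps E A B + eps E B C + eps E A C = 0 := by
  rcases h with rfl | rfl | rfl
  · rw [eps_self hE, zero_add, char2]
  · rw [eps_self hE, add_zero, char2]
  · rw [eps_self hE, add_zero, eps_comm E B A, char2]

/-- Partial sums along a colour sequence. -/
def hSum (E : Finset (Fin 10)) (s : ℕ → Fin 10) (i : ℕ) : ZMod 2 :=
  ∑ l ∈ range i, eps E (s l) (s (l + 1))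

theorem hSum_succ (E : Finset (Fin 10)) (s : ℕ → Fin 10) (i : ℕ) :
    hSum E s (i + 1) = hSum E s i + eps E (s i) (s (i + 1)) := by
  unfold hSum; rw [sum_range_succ]

theorem hSum_add_N {E : Finset (Fin 10)} {s : ℕ → Fin 10} {N : ℕ} (hper : ∀ i, s (i + N) = s i)
    (h1 : hSum E s N = 1) (i : ℕ) : hSum E s (i + N) = hSum E s i + 1 := by
  induction i with
  | zero =>
    rw [zero_add, h1]
    simp [hSum]
  | succ i ih =>
    have e : i + 1 + N = (i + N) + 1 := by ring
    rw [e, hSum_succ, ih, hSum_succ, hper i]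
    have : s (i + N + 1) = s (i + 1) := by
      have e2 : i + N + 1 = (i + 1) + N := by ring
      rw [e2, hper]
    rw [this]; ring

theorem hSum_near {E : Finset (Fin 10)} (hE : E.card = 2) {s : ℕ → Fin 10} {T : ℕ} (i : ℕ)
    (hloc : ∀ t, t < T → (s i = s (i + t) ∨ s (i + t) = s (i + t + 1) ∨ s i = s (i + t + 1)))
    (t : ℕ) (ht : t ≤ T) : hSum E s i + hSum E s (i + t) = eps E (s i) (s (i + t)) := by
  induction t with
  | zero => simp [eps_self hE, char2]
  | succ t ih =>
    have ih' := ih (by omega)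
    have hc := eps_cocycle hE (hloc t (by omega))
    have e : i + (t + 1) = (i + t) + 1 := by ring
    rw [e, hSum_succ]
    generalize hSum E s i = a at *
    generalize hSum E s (i + t) = b at *
    generalize eps E (s (i + t)) (s (i + t + 1)) = d at *
    generalize eps E (s i) (s (i + t + 1)) = g at *
    generalize eps E (s i) (s (i + t)) = q at *
    clear e ih hloc
    revert a b d g q
    decide

/-- Parseval for a frame of `ℝ³`. -/
theorem parseval {f : Fin 3 → Fin 3 → ℝ} (hf : Frame f) (x : Fin 3 → ℝ) :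
    dot x (f 0) ^ 2 + dot x (f 1) ^ 2 + dot x (f 2) ^ 2 = dot x x := by
  let F : Matrix (Fin 3) (Fin 3) ℝ := Matrix.of f
  have h1 : F * F.transpose = 1 := by
    ext i j
    have := hf i j
    simp only [dot] at this
    simp [F, Matrix.mul_apply, Matrix.one_apply, this]
  have h2 : F.transpose * F = 1 := mul_eq_one_comm.1 h1
  have h3 : ∀ i j, ∑ k, f k i * f k j = if i = j then 1 else 0 := by
    intro i j
    have := congrFun (congrFun h2 i) j
    simpa [F, Matrix.mul_apply, Matrix.one_apply] using this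
  have : ∑ k, dot x (f k) ^ 2 = dot x x := by
    simp only [dot, sq]
    calc ∑ k, (∑ i, x i * f k i) * (∑ j, x j * f k j)
        = ∑ k, ∑ i, ∑ j, x i * x j * (f k i * f k j) := by
          refine Finset.sum_congr rfl fun k _ => ?_
          rw [Finset.sum_mul_sum]
          refine Finset.sum_congr rfl fun i _ => Finset.sum_congr rfl fun j _ => ?_
          ring
      _ = ∑ i, ∑ j, x i * x j * ∑ k, f k i * f k j := by
          rw [Finset.sum_comm]
          refine Finset.sum_congr rfl fun i _ => ?_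
          rw [Finset.sum_comm]
          refine Finset.sum_congr rfl fun j _ => ?_
          rw [Finset.mul_sum]
      _ = ∑ i, x i * x i := by
          refine Finset.sum_congr rfl fun i _ => ?_
          simp [h3]
  rw [← this, Fin.sum_univ_three]

/-- Rounding a point of the band to the polygon. -/
theorem exists_round {f : Fin 3 → Fin 3 → ℝ} (hf : Frame f) {N : ℕ} (hN : 0 < N)
    (hρ : Real.pi / N ≤ 1 / 2) {x : Fin 3 → ℝ} (hx : dot x x = 1)
    (hband : |dot x (f 2)| ≤ Real.pi / N) :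
    ∃ i : ℕ, dot (x - polyPt (f 0) (f 1) N i) (x - polyPt (f 0) (f 1) N i) ≤ (2 * (Real.pi / N)) ^ 2 := by
  have hNpos : (0 : ℝ) < N := by exact_mod_cast hN
  have hpi := Real.pi_pos
  set ρ := Real.pi / N with hρdef
  have hρpos : 0 < ρ := by positivity
  set α := dot x (f 0) with hα
  set β := dot x (f 1) with hβ
  set τ := dot x (f 2) with hτ
  have hpar : α ^ 2 + β ^ 2 + τ ^ 2 = 1 := by
    rw [hα, hβ, hτ, parseval hf x, hx]
  have hτ2 : τ ^ 2 ≤ ρ ^ 2 := sq_le_sq' (by linarith [(abs_le.1 hband).1]) (abs_le.1 hband).2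
  let z : ℂ := ⟨α, β⟩
  have hR1 : ‖z‖ * Real.cos (Complex.arg z) = α := Complex.norm_mul_cos_arg z
  have hR2 : ‖z‖ * Real.sin (Complex.arg z) = β := Complex.norm_mul_sin_arg z
  have hR3 : ‖z‖ ^ 2 = α ^ 2 + β ^ 2 := by
    rw [Complex.sq_norm, Complex.normSq_apply]; ring
  set R := ‖z‖ with hRdef
  have hR0 : 0 ≤ R := norm_nonneg _
  set θ0 := Complex.arg z with hθ0
  have hθ0_gt : -Real.pi < θ0 := Complex.neg_pi_lt_arg z
  set θ := θ0 + 2 * Real.pi with hθ
  have hθpos : 0 ≤ θ := by rw [hθ]; linarith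
  let i : ℕ := ⌊θ / ρ⌋₊
  have hi1 : (i : ℝ) ≤ θ / ρ := Nat.floor_le (by positivity)
  have hi2 : θ / ρ < i + 1 := Nat.lt_floor_add_one _
  have hφ1 : (i : ℝ) * ρ ≤ θ := by
    rwa [le_div_iff₀ hρpos] at hi1
  have hφ2 : θ < (i + 1) * ρ := by
    rwa [div_lt_iff₀ hρpos] at hi2
  refine ⟨i, ?_⟩
  have hp1 : dot (polyPt (f 0) (f 1) N i) (polyPt (f 0) (f 1) N i) = 1 :=
    dot_polyPt (by simpa using hf 0 0) (by simpa using hf 1 1) (by simpa using hf 0 1) N i
  rw [near_unit hx hp1]
  have hdot : dot x (polyPt (f 0) (f 1) N i) = R * Real.cos (θ - i * ρ) := by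
    unfold polyPt
    rw [dot_add_right', dot_smul_right', dot_smul_right', ← hα, ← hβ, ← hR1, ← hR2]
    have e1 : (i : ℝ) * Real.pi / N = i * ρ := by rw [hρdef]; ring
    rw [e1]
    have e2 : θ - i * ρ = (θ0 - i * ρ) + 2 * Real.pi := by rw [hθ]; ring
    rw [e2, Real.cos_add_two_pi, Real.cos_sub]
    ring
  rw [hdot]
  have hc1 := @Real.one_sub_sq_div_two_le_cos (θ - i * ρ)
  have hdiff0 : 0 ≤ θ - i * ρ := by linarith
  have hdiff1 : θ - i * ρ ≤ ρ := by
    have : ((i : ℝ) + 1) * ρ = i * ρ + ρ := by ring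
    linarith
  have hdiff2 : (θ - i * ρ) ^ 2 ≤ ρ ^ 2 := by
    apply sq_le_sq' <;> linarith
  have hc2 : 1 - ρ ^ 2 / 2 ≤ Real.cos (θ - i * ρ) := by linarith
  have hR4 : R ^ 2 ≤ 1 := by
    have := sq_nonneg τ
    linarith
  have hR5 : R ≤ 1 := (sq_le_one_iff₀ hR0).1 hR4
  have hR7 : R ^ 2 ≤ R := by
    rw [sq]
    exact mul_le_of_le_one_left hR0 hR5
  have hR6 : 1 - ρ ^ 2 ≤ R := by linarith
  have hρ2 : ρ ^ 2 ≤ 1 / 4 := by
    have := pow_le_pow_left₀ hρpos.le hρ 2
    norm_num at this ⊢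
    linarith
  have hmul : (1 - ρ ^ 2) * (1 - ρ ^ 2 / 2) ≤ R * Real.cos (θ - i * ρ) :=
    mul_le_mul hR6 hc2 (by linarith) hR0
  have e4 : (2 * ρ) ^ 2 = 4 * ρ ^ 2 := by ring
  have e5 : (1 - ρ ^ 2) * (1 - ρ ^ 2 / 2) = 1 - 3 / 2 * ρ ^ 2 + (ρ ^ 2) ^ 2 / 2 := by ring
  have hs := sq_nonneg (ρ ^ 2)
  have hs0 := sq_nonneg ρ
  rw [e4]
  rw [e5] at hmul
  linarith

/-- In a small cluster with colours in `U` two of three colours coincide. -/
theorem two_equal {c : (Fin 3 → ℝ) → Fin 10} {η : ℝ} {U : Finset (Fin 10)} (hU3 : U.card = 3)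
    (hno : ¬ ∃ P, Cluster η P ∧ P.image c = U) {x y z : Fin 3 → ℝ}
    (hx : dot x x = 1) (hy : dot y y = 1) (hz : dot z z = 1)
    (hxU : c x ∈ U) (hyU : c y ∈ U) (hzU : c z ∈ U)
    (hxy : dot (x - y) (x - y) ≤ η ^ 2) (hyz : dot (y - z) (y - z) ≤ η ^ 2)
    (hxz : dot (x - z) (x - z) ≤ η ^ 2) :
    c x = c y ∨ c y = c z ∨ c x = c z := by
  by_contra hcon
  push Not at hcon
  obtain ⟨h1, h2, h3⟩ := hcon
  apply hno
  refine ⟨{x, y, z}, ⟨?_, ?_⟩, ?_⟩
  · intro p hp
    simp only [mem_insert, mem_singleton] at hp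
    rcases hp with rfl | rfl | rfl <;> assumption
  · intro p hp q hq
    left
    simp only [mem_insert, mem_singleton] at hp hq
    rcases hp with rfl | rfl | rfl <;> rcases hq with rfl | rfl | rfl <;>
      first
        | exact near_self _ _
        | assumption
        | (rw [near_comm]; assumption)
  · apply Finset.eq_of_subset_of_card_le
    · intro a ha
      simp only [image_insert, image_singleton, mem_insert, mem_singleton] at ha
      rcases ha with rfl | rfl | rfl <;> assumption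
    · rw [hU3]
      have e : ({x, y, z} : Finset (Fin 3 → ℝ)).image c = {c x, c y, c z} := by
        simp only [image_insert, image_singleton]
      rw [e, Finset.card_eq_three.2 ⟨_, _, _, h1, h3, h2, rfl⟩]

theorem alg1 (a b p q g h d : ZMod 2) (hL : a + b = p) (h1 : q + p + g = 0) (h2 : g + h + d = 0) :
    a + q + (b + h) = d := by
  revert a b p q g h d; decide

theorem alg2 (a b p q g h d : ZMod 2) (hL : a + (b + 1) = p) (h1 : q + p + g = 0)
    (h2 : g + h + d = 0) : a + q + (b + h) = d + 1 := by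
  revert a b p q g h d; decide

/-- The potential on the band. -/
theorem band_potential {c : (Fin 3 → ℝ) → Fin 10} {δ : ℝ} (hc : Margin c δ)
    {f : Fin 3 → Fin 3 → ℝ} (hf : Frame f) {k : ℕ} (hk : 0 < k)
    (hρ1 : Real.pi / ((4 * k : ℕ) : ℝ) ≤ δ / 64) (hρ2 : Real.pi / ((4 * k : ℕ) : ℝ) ≤ 1 / 2)
    {U : Finset (Fin 10)} (hU3 : U.card = 3)
    (hUband : ∀ y, dot y y = 1 → |dot y (f 2)| ≤ Real.pi / ((4 * k : ℕ) : ℝ) → c y ∈ U)
    (hno : ¬ ∃ P, Cluster (δ / 8) P ∧ P.image c = U)
    {E : Finset (Fin 10)} (hEU : E ⊆ U) (hE2 : E.card = 2) :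
    ∃ Ψ : (Fin 3 → ℝ) → ZMod 2, ∀ x y, dot x x = 1 → dot y y = 1 →
      |dot x (f 2)| ≤ Real.pi / ((4 * k : ℕ) : ℝ) → |dot y (f 2)| ≤ Real.pi / ((4 * k : ℕ) : ℝ) →
      (dot (x - y) (x - y) ≤ (Real.pi / ((4 * k : ℕ) : ℝ)) ^ 2 → Ψ x + Ψ y = eps E (c x) (c y)) ∧
      (dot (x + y) (x + y) ≤ (Real.pi / ((4 * k : ℕ) : ℝ)) ^ 2 →
        Ψ x + Ψ y = eps E (c x) (c y) + 1) := by
  have hδ := hc.pos
  have hN : 0 < 4 * k := by omega
  have hNpos : (0 : ℝ) < ((4 * k : ℕ) : ℝ) := by exact_mod_cast hN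
  have hpi := Real.pi_pos
  set N := 4 * k with hNdef
  set ρ := Real.pi / (N : ℝ) with hρdef
  have hρpos : 0 < ρ := by positivity
  have ha : dot (f 0) (f 0) = 1 := by simpa using hf 0 0
  have hb : dot (f 1) (f 1) = 1 := by simpa using hf 1 1
  have hab : dot (f 0) (f 1) = 0 := by simpa using hf 0 1
  have ha2 : dot (f 0) (f 2) = 0 := by simpa using hf 0 2
  have hb2 : dot (f 1) (f 2) = 0 := by simpa using hf 1 2
  let p : ℕ → Fin 3 → ℝ := fun i => polyPt (f 0) (f 1) N i
  have hpu : ∀ i, dot (p i) (p i) = 1 := fun i => dot_polyPt ha hb hab N i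
  have hp2 : ∀ i, dot (p i) (f 2) = 0 := by
    intro i
    simp only [p, polyPt, dot_add_left, dot_smul_left, ha2, hb2]
    ring
  have hpU : ∀ i, c (p i) ∈ U := by
    intro i
    apply hUband _ (hpu i)
    rw [hp2, abs_zero]
    exact hρpos.le
  let s : ℕ → Fin 10 := fun i => c (p i)
  have hpN : ∀ i, p (i + N) = - p i := fun i => polyPt_add_N hN i
  have hper : ∀ i, s (i + N) = s i := by
    intro i
    simp only [s, hpN, hc.even]
  have hfine : Real.pi / (4 * k) < δ / 2 := by
    have e : ((N : ℕ) : ℝ) = 4 * k := by rw [hNdef]; push_cast; ring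
    rw [← e]
    linarith
  have hH1 : hSum E s N = 1 := by
    have hodd := (line_lemma hc ha hb hab hk hfine).2 U hU3 hpU E hEU hE2
    have e : hSum E s N = (((range N).filter
        (fun i => ({c (polyPt (f 0) (f 1) N i), c (polyPt (f 0) (f 1) N (i + 1))} :
          Finset (Fin 10)) = E)).card : ZMod 2) := by
      unfold hSum eps
      rw [← Finset.sum_boole]
    rw [e]
    exact (ZMod.natCast_eq_one_iff_odd).2 hodd
  set H := hSum E s with hHdef
  have hHN : ∀ i, H (i + N) = H i + 1 := fun i => hSum_add_N hper hH1 i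
  have hH2N : ∀ i, H (i + 2 * N) = H i := by
    intro i
    have e : i + 2 * N = (i + N) + N := by ring
    rw [e, hHN, hHN, add_assoc]
    have : (1 : ZMod 2) + 1 = 0 := by decide
    rw [this, add_zero]
  have hp2N : ∀ i, p (i + 2 * N) = p i := fun i => polyPt_add_two hN i
  set η := δ / 8 with hηdef
  have hρη : 8 * ρ ≤ η := by rw [hηdef]; linarith
  have hηpos : 0 < η := by positivity
  -- cocycle condition along the polygon
  have hnear : ∀ i t : ℕ, (t : ℝ) * ρ ≤ η → H i + H (i + t) = eps E (s i) (s (i + t)) := by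
    intro i t ht
    apply hSum_near hE2 i (T := t) _ t le_rfl
    intro l hl
    have hl' : ((l : ℝ) + 1) ≤ t := by exact_mod_cast hl
    have hl1 : ((l : ℝ) + 1) * ρ ≤ η := le_trans (by gcongr) ht
    have hl0 : (l : ℝ) * ρ ≤ η := by nlinarith
    apply two_equal hU3 hno (hpu i) (hpu _) (hpu _) (hpU _) (hpU _) (hpU _)
    · refine le_trans (chord_le ha hb hab N i l) ?_
      exact pow_le_pow_left₀ (by positivity) hl0 2
    · refine le_trans (chord_le ha hb hab N (i + l) 1) ?_
      have : ((1 : ℕ) : ℝ) * ρ ≤ η := by push_cast; linarith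
      exact pow_le_pow_left₀ (by positivity) this 2
    · have := chord_le ha hb hab N i (l + 1)
      rw [← add_assoc] at this
      refine le_trans this ?_
      have h' : (((l + 1 : ℕ) : ℝ)) * ρ ≤ η := by push_cast; exact hl1
      exact pow_le_pow_left₀ (by positivity) h' 2
  -- from chord closeness to index closeness
  have hdist : ∀ t : ℕ, ∀ i, t ≤ N →
      dot (p i - p (i + t)) (p i - p (i + t)) ≤ (5 * ρ) ^ 2 → (t : ℝ) * ρ ≤ η := by
    intro t i ht h
    have h1 := chord_ge ha hb hab hN i t ht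
    have h2 := le_trans h1 h
    have hpi3 : Real.pi ≤ 3.15 := Real.pi_lt_d2.le
    have h3 : ((t : ℝ) * ρ) ^ 2 ≤ (8 * ρ) ^ 2 := by
      have e : ((t : ℝ) * ρ) ^ 2 * (4 / Real.pi ^ 2) ≤ (5 * ρ) ^ 2 := h2
      have hpos : 0 < 4 / Real.pi ^ 2 := by positivity
      have e2 : ((t : ℝ) * ρ) ^ 2 ≤ (5 * ρ) ^ 2 * (Real.pi ^ 2 / 4) := by
        have : ((t : ℝ) * ρ) ^ 2 = ((t : ℝ) * ρ) ^ 2 * (4 / Real.pi ^ 2) * (Real.pi ^ 2 / 4) := by
          field_simp
        rw [this]
        gcongr
      refine le_trans e2 ?_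
      have h4 : Real.pi ^ 2 ≤ 3.15 ^ 2 := pow_le_pow_left₀ hpi.le hpi3 2
      have h5 : (5 * ρ) ^ 2 * (Real.pi ^ 2 / 4) ≤ (5 * ρ) ^ 2 * ((3.15 : ℝ) ^ 2 / 4) := by gcongr
      refine le_trans h5 ?_
      have e3 : (5 * ρ) ^ 2 * ((3.15 : ℝ) ^ 2 / 4) = 62.015625 * ρ ^ 2 := by ring
      have e4 : (8 * ρ) ^ 2 = 64 * ρ ^ 2 := by ring
      rw [e3, e4]
      have := sq_nonneg ρ
      linarith
    have h6 : (t : ℝ) * ρ ≤ 8 * ρ := by
      exact (pow_le_pow_iff_left₀ (by positivity) (by positivity) two_ne_zero).1 h3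
    linarith
  -- the key: potential on the polygon
  have hL1 : ∀ i t, dot (p i - p (i + t)) (p i - p (i + t)) ≤ (5 * ρ) ^ 2 →
      H i + H (i + t) = eps E (s i) (s (i + t)) := by
    intro i t h
    -- reduce modulo `2N`
    have h2N : 0 < 2 * N := by omega
    have hperP : ∀ q l, p (l + q * (2 * N)) = p l := by
      intro q
      induction q with
      | zero => intro l; simp
      | succ q ih =>
        intro l
        have e : l + (q + 1) * (2 * N) = (l + q * (2 * N)) + 2 * N := by ring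
        rw [e, hp2N, ih]
    have hperH : ∀ q l, H (l + q * (2 * N)) = H l := by
      intro q
      induction q with
      | zero => intro l; simp
      | succ q ih =>
        intro l
        have e : l + (q + 1) * (2 * N) = (l + q * (2 * N)) + 2 * N := by ring
        rw [e, hH2N, ih]
    have et : i + t = (i + t % (2 * N)) + (t / (2 * N)) * (2 * N) := by
      have := Nat.mod_add_div t (2 * N)
      rw [mul_comm (t / (2 * N))]
      omega
    have hpt : p (i + t) = p (i + t % (2 * N)) := by rw [et, hperP]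
    have hHt : H (i + t) = H (i + t % (2 * N)) := by rw [et, hperH]
    have hst : s (i + t) = s (i + t % (2 * N)) := by
      simp only [s]
      rw [hpt]
    rw [hpt] at h
    rw [hHt, hst]
    have hlt : t % (2 * N) < 2 * N := Nat.mod_lt _ h2N
    generalize t % (2 * N) = t' at *
    by_cases hcase : t' ≤ N
    · exact hnear i t' (hdist t' i hcase h)
    · push Not at hcase
      obtain ⟨t2, ht2⟩ : ∃ t2, t' + t2 = 2 * N := ⟨2 * N - t', by omega⟩
      have ht2N : t2 ≤ N := by omega
      have e2 : (i + t') + t2 = i + 2 * N := by omega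
      have hc2 : dot (p (i + t') - p ((i + t') + t2)) (p (i + t') - p ((i + t') + t2)) ≤
          (5 * ρ) ^ 2 := by
        rw [e2, hp2N, near_comm]; exact h
      have := hnear (i + t') t2 (hdist t2 (i + t') ht2N hc2)
      rw [e2, hH2N] at this
      have hs2 : s (i + 2 * N) = s i := by simp only [s]; rw [hp2N]
      rw [hs2, eps_comm] at this
      rw [add_comm]; exact this
  have hL : ∀ i j, dot (p i - p j) (p i - p j) ≤ (5 * ρ) ^ 2 →
      H i + H j = eps E (s i) (s j) := by
    intro i j h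
    rcases le_total i j with hij | hij
    · obtain ⟨t, rfl⟩ := Nat.exists_eq_add_of_le hij
      exact hL1 i t h
    · obtain ⟨t, rfl⟩ := Nat.exists_eq_add_of_le hij
      rw [near_comm] at h
      rw [add_comm, eps_comm]
      exact hL1 j t h
  -- rounding
  have hround : ∀ x : Fin 3 → ℝ, ∃ i : ℕ, dot x x = 1 → |dot x (f 2)| ≤ ρ →
      dot (x - p i) (x - p i) ≤ (2 * ρ) ^ 2 := by
    intro x
    by_cases h : dot x x = 1 ∧ |dot x (f 2)| ≤ ρ
    · obtain ⟨i, hi⟩ := exists_round hf hN hρ2 h.1 h.2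
      exact ⟨i, fun _ _ => hi⟩
    · exact ⟨0, fun h1 h2 => absurd ⟨h1, h2⟩ h⟩
  choose r hr using hround
  refine ⟨fun x => H (r x) + eps E (c x) (s (r x)), ?_⟩
  intro x y hx hy hxb hyb
  have hxi := hr x hx hxb
  have hyj := hr y hy hyb
  have h5η : 5 * ρ ≤ η := by linarith
  have hpow : ∀ {A : ℝ}, 0 ≤ A → A ≤ η → A ^ 2 ≤ η ^ 2 := fun h0 h1 => pow_le_pow_left₀ h0 h1 2
  have hxU := hUband x hx hxb
  have hyU := hUband y hy hyb
  have hq1 : ρ ^ 2 ≤ η ^ 2 := hpow hρpos.le (by linarith)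
  have hq2 : (2 * ρ) ^ 2 ≤ η ^ 2 := hpow (by positivity) (by linarith)
  have hq3 : (3 * ρ) ^ 2 ≤ η ^ 2 := hpow (by positivity) (by linarith)
  have hq5 : (5 * ρ) ^ 2 ≤ η ^ 2 := hpow (by positivity) (by linarith)
  set i := r x with hi
  set j := r y with hj
  constructor
  · intro hxy
    have hij : dot (p i - p j) (p i - p j) ≤ (5 * ρ) ^ 2 := by
      have h1 : dot (p i - x) (p i - x) ≤ (2 * ρ) ^ 2 := by rw [near_comm]; exact hxi
      have h2 := tri (by positivity) hρpos.le h1 hxy
      have h3 := tri (by positivity) (by positivity) h2 hyj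
      have e : 2 * ρ + ρ + 2 * ρ = 5 * ρ := by ring
      rwa [e] at h3
    have hxpj : dot (x - p j) (x - p j) ≤ (3 * ρ) ^ 2 := by
      have h3 := tri hρpos.le (by positivity) hxy hyj
      have e : ρ + 2 * ρ = 3 * ρ := by ring
      rwa [e] at h3
    have c1 := eps_cocycle hE2 (two_equal (η := η) (c := c) hU3 hno hx (hpu i) (hpu j) hxU (hpU i) (hpU j)
      (hxi.trans hq2) (hij.trans hq5) (hxpj.trans hq3))
    have c2 := eps_cocycle hE2 (two_equal (η := η) (c := c) hU3 hno hx (hpu j) hy hxU (hpU j) hyU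
      (hxpj.trans hq3) ((by rw [near_comm]; exact hyj : dot (p j - y) (p j - y) ≤ (2 * ρ) ^ 2).trans hq2)
      (hxy.trans hq1))
    have hLij := hL i j hij
    show H i + eps E (c x) (s i) + (H j + eps E (c y) (s j)) = eps E (c x) (c y)
    rw [eps_comm E (c y) (s j)]
    exact alg1 _ _ _ _ _ _ _ hLij c1 c2
  · intro hxy
    have hneg : x - (-y) = x + y := by abel
    have hxy' : dot (x - (-y)) (x - (-y)) ≤ ρ ^ 2 := by rw [hneg]; exact hxy
    have hy' : dot (-y) (-y) = 1 := by rw [dot_neg_neg']; exact hy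
    have hyj' : dot ((-y) - p (j + N)) ((-y) - p (j + N)) ≤ (2 * ρ) ^ 2 := by
      have e : (-y) - p (j + N) = -(y - p j) := by rw [hpN]; abel
      rw [e, dot_neg_neg']; exact hyj
    have hcy' : c (-y) = c y := hc.even y
    have hsN : s (j + N) = s j := hper j
    have hij : dot (p i - p (j + N)) (p i - p (j + N)) ≤ (5 * ρ) ^ 2 := by
      have h1 : dot (p i - x) (p i - x) ≤ (2 * ρ) ^ 2 := by rw [near_comm]; exact hxi
      have h2 := tri (by positivity) hρpos.le h1 hxy'
      have h3 := tri (by positivity) (by positivity) h2 hyj'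
      have e : 2 * ρ + ρ + 2 * ρ = 5 * ρ := by ring
      rwa [e] at h3
    have hxpj : dot (x - p (j + N)) (x - p (j + N)) ≤ (3 * ρ) ^ 2 := by
      have h3 := tri hρpos.le (by positivity) hxy' hyj'
      have e : ρ + 2 * ρ = 3 * ρ := by ring
      rwa [e] at h3
    have c1 := eps_cocycle hE2 (two_equal (η := η) (c := c) hU3 hno hx (hpu i) (hpu (j + N)) hxU (hpU i) (hpU _)
      (hxi.trans hq2) (hij.trans hq5) (hxpj.trans hq3))
    have c2 := eps_cocycle hE2 (two_equal (η := η) (c := c) hU3 hno hx (hpu (j + N)) hy' hxU (hpU _)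
      (by rw [hcy']; exact hyU)
      (hxpj.trans hq3)
      ((by rw [near_comm]; exact hyj' : dot (p (j + N) - (-y)) (p (j + N) - (-y)) ≤ (2 * ρ) ^ 2).trans hq2)
      (hxy'.trans hq1))
    have hLij := hL i (j + N) hij
    rw [hHN] at hLij
    show H i + eps E (c x) (s i) + (H j + eps E (c y) (s j)) = eps E (c x) (c y) + 1
    rw [eps_comm E (c y) (s j)]
    have hsj : c (p (j + N)) = s j := hsN
    rw [hsj] at c1 c2
    rw [hcy'] at c2
    have hLij' : H i + (H j + 1) = eps E (s i) (s j) := by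
      rw [hLij, hsN]
    exact alg2 _ _ _ _ _ _ _ hLij' c1 c2

end BandAux

open BandAux in
/-- **Band lemma.** -/
theorem band_lemma {c : (Fin 3 → ℝ) → Fin 10} {δ : ℝ} (hc : Margin c δ) :
    ∃ ζ > 0, ζ ≤ δ / 8 ∧ ∀ f : Fin 3 → Fin 3 → ℝ, Frame f → ∀ U : Finset (Fin 10), U.card = 3 →
      (∀ y, dot y y = 1 → |dot y (f 2)| ≤ ζ → c y ∈ U) →
      (¬ ∃ P, Cluster (δ / 8) P ∧ P.image c = U) →
      ∀ {W : Type} [DecidableEq W] [Fintype W] (u : W → Fin 3 → ℝ) (γ : Chain W),
        (∀ v, dot (u v) (u v) = 1) →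
        (∀ e, γ e ≠ 0 → e.card = 2 ∧ (∀ v ∈ e, |dot (u v) (f 2)| ≤ ζ) ∧
          ∀ v ∈ e, ∀ v' ∈ e, LC ζ (u v) (u v')) →
        (∀ v, ∑ e ∈ (univ : Finset (Finset W)).filter (fun e => v ∈ e), γ e = 0) →
        ∀ E ⊆ U, E.card = 2 →
          ∑ e ∈ (univ : Finset (Finset W)).filter (fun e => e.image (fun v => c (u v)) = E), γ e =
            ∑ e, γ e * wf u e := by
  have hδ := hc.pos
  have hpi := Real.pi_pos
  obtain ⟨k, hk⟩ := exists_nat_gt (Real.pi / min (δ / 64) (1 / 2))
  have hmin : 0 < min (δ / 64) (1 / 2 : ℝ) := lt_min (by positivity) (by norm_num)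
  have hkpos : (0 : ℝ) < k := lt_of_le_of_lt (by positivity) hk
  have hk0 : 0 < k := by exact_mod_cast hkpos
  have hNpos : (0 : ℝ) < ((4 * k : ℕ) : ℝ) := by positivity
  have hρ : Real.pi / ((4 * k : ℕ) : ℝ) ≤ min (δ / 64) (1 / 2) := by
    rw [div_le_iff₀ hNpos]
    rw [div_lt_iff₀ hmin] at hk
    push_cast
    have : (k : ℝ) ≤ 4 * k := by linarith
    nlinarith
  have hρ1 := le_trans hρ (min_le_left _ _)
  have hρ2 := le_trans hρ (min_le_right _ _)
  set ρ := Real.pi / ((4 * k : ℕ) : ℝ) with hρdef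
  have hρpos : 0 < ρ := by positivity
  refine ⟨ρ, hρpos, by linarith, ?_⟩
  intro f hf U hU3 hUband hno W _ _ u γ hu hγ hcyc E hEU hE2
  obtain ⟨Ψ, hΨ⟩ := band_potential hc hf hk0 hρ1 hρ2 hU3 hUband hno hEU hE2
  -- edge identity
  have hedge : ∀ e : Finset W, γ e ≠ 0 →
      (if e.image (fun v => c (u v)) = E then (1 : ZMod 2) else 0) + wf u e =
        ∑ v ∈ e, Ψ (u v) := by
    intro e he
    obtain ⟨hcard, hband, hlc⟩ := hγ e he
    obtain ⟨v, v', hne, rfl⟩ := Finset.card_eq_two.1 hcard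
    have hvm : v ∈ ({v, v'} : Finset W) := by simp
    have hvm' : v' ∈ ({v, v'} : Finset W) := by simp
    have hx := hu v
    have hy := hu v'
    have hP := hΨ (u v) (u v') hx hy (hband v hvm) (hband v' hvm')
    have himg : ({v, v'} : Finset W).image (fun v => c (u v)) = {c (u v), c (u v')} := by
      simp only [image_insert, image_singleton]
    rw [himg, Finset.sum_pair hne]
    have hρsq : ρ ^ 2 ≤ 1 / 4 := by
      have := pow_le_pow_left₀ hρpos.le hρ2 2
      norm_num at this ⊢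
      linarith
    rcases hlc v hvm v' hvm' with h | h
    · have hd : 0 < dot (u v) (u v') := by
        rw [near_unit hx hy] at h
        linarith
      have hw : wf u ({v, v'} : Finset W) = 0 := by
        unfold wf
        rw [if_neg]
        rintro ⟨a, ha, b, hb, hab⟩
        simp only [mem_insert, mem_singleton] at ha hb
        rcases ha with rfl | rfl <;> rcases hb with rfl | rfl
        · rw [hx] at hab; linarith
        · linarith
        · rw [dot_comm] at hab; linarith
        · rw [hy] at hab; linarith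
      rw [hw, add_zero, (hP.1 h)]
      rfl
    · have hd : dot (u v) (u v') < 0 := by
        rw [near_neg_unit hx hy] at h
        linarith
      have hw : wf u ({v, v'} : Finset W) = 1 := by
        unfold wf
        rw [if_pos]
        exact ⟨v, hvm, v', hvm', hd⟩
      rw [hw, (hP.2 h)]
      rfl
  have hsum : ∑ e, γ e * ((if e.image (fun v => c (u v)) = E then (1 : ZMod 2) else 0) + wf u e) = 0 := by
    calc ∑ e, γ e * ((if e.image (fun v => c (u v)) = E then (1 : ZMod 2) else 0) + wf u e)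
        = ∑ e, γ e * ∑ v ∈ e, Ψ (u v) := by
          refine Finset.sum_congr rfl fun e _ => ?_
          by_cases he : γ e = 0
          · rw [he, zero_mul, zero_mul]
          · rw [hedge e he]
      _ = ∑ e : Finset W, ∑ v, if v ∈ e then γ e * Ψ (u v) else 0 := by
          refine Finset.sum_congr rfl fun e _ => ?_
          rw [Finset.mul_sum, Finset.sum_ite_mem, Finset.univ_inter]
      _ = ∑ v, ∑ e : Finset W, if v ∈ e then γ e * Ψ (u v) else 0 := Finset.sum_comm
      _ = ∑ v, (∑ e ∈ (univ : Finset (Finset W)).filter (fun e => v ∈ e), γ e) * Ψ (u v) := by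
          refine Finset.sum_congr rfl fun v _ => ?_
          rw [Finset.sum_filter, Finset.sum_mul]
          refine Finset.sum_congr rfl fun e _ => ?_
          split_ifs <;> simp
      _ = 0 := by
          refine Finset.sum_eq_zero fun v _ => ?_
          rw [hcyc v, zero_mul]
  have hsplit : ∑ e, γ e * ((if e.image (fun v => c (u v)) = E then (1 : ZMod 2) else 0) + wf u e) =
      ∑ e ∈ (univ : Finset (Finset W)).filter (fun e => e.image (fun v => c (u v)) = E), γ e +
        ∑ e, γ e * wf u e := by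
    rw [Finset.sum_filter, ← Finset.sum_add_distrib]
    refine Finset.sum_congr rfl fun e _ => ?_
    split_ifs <;> ring
  rw [hsplit] at hsum
  have hchar : ∀ A B : ZMod 2, A + B = 0 → A = B := by decide
  exact hchar _ _ hsum

end Crest.Agent.S0069Lib
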