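import Mathlib

/-!
# S0069: vectors as functions `Fin n → ℝ`, margin colourings, clusters

All geometry of S0069 is on plain functions with the explicit dot product `dot`.
-/

set_option autoImplicit false

namespace Crest.Agent.S0069Lib

open Finset

variable {n : ℕ}

/-- Dot product. -/
def dot (x y : Fin n → ℝ) : ℝ := ∑ i, x i * y i

/-- Normalisation (`0 ↦ 0`). -/
noncomputable def unitV (x : Fin n → ℝ) : Fin n → ℝ := (Real.sqrt (dot x x))⁻¹ • x

/-- Line closeness: `x` is `η`-close to `y` or to `-y`. -/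
def LC (η : ℝ) (x y : Fin n → ℝ) : Prop :=
  dot (x - y) (x - y) ≤ η ^ 2 ∨ dot (x + y) (x + y) ≤ η ^ 2

/-- A colouring of `ℝⁿ`, even, such that unit vectors of one colour are never `δ`-nearly orthogonal. -/
structure Margin (c : (Fin n → ℝ) → Fin 10) (δ : ℝ) : Prop where
  pos : 0 < δ
  even : ∀ x, c (-x) = c x
  sep : ∀ x y, dot x x = 1 → dot y y = 1 → c x = c y → δ ≤ |dot x y|

/-- An `η`-cluster: a finite set of unit vectors, pairwise line-close. -/
def Cluster (η : ℝ) (P : Finset (Fin n → ℝ)) : Prop :=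
  (∀ p ∈ P, dot p p = 1) ∧ ∀ p ∈ P, ∀ q ∈ P, LC η p q

/-- `F` is the colour set of an `η`-cluster. -/
def InK (c : (Fin n → ℝ) → Fin 10) (η : ℝ) (F : Finset (Fin 10)) : Prop :=
  ∃ P, Cluster η P ∧ P.image c = F

/-- Orthonormal family indexed by `Fin k`. -/
def Frame {k : ℕ} (f : Fin k → Fin n → ℝ) : Prop :=
  ∀ i j, dot (f i) (f j) = if i = j then 1 else 0

theorem dot_comm (x y : Fin n → ℝ) : dot x y = dot y x := by
  simp [dot, mul_comm]

theorem dot_add_left (x y z : Fin n → ℝ) : dot (x + y) z = dot x z + dot y z := by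
  simp [dot, add_mul, Finset.sum_add_distrib]

theorem dot_sub_left (x y z : Fin n → ℝ) : dot (x - y) z = dot x z - dot y z := by
  simp [dot, sub_mul, Finset.sum_sub_distrib]

theorem dot_neg_left (x z : Fin n → ℝ) : dot (-x) z = - dot x z := by
  simp [dot, Finset.sum_neg_distrib]

theorem dot_smul_left (a : ℝ) (x z : Fin n → ℝ) : dot (a • x) z = a * dot x z := by
  simp [dot, Finset.mul_sum, mul_assoc]

theorem dot_self_nonneg (x : Fin n → ℝ) : 0 ≤ dot x x := by
  exact Finset.sum_nonneg fun i _ => mul_self_nonneg _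

/-- Cauchy-Schwarz. -/
theorem abs_dot_le (x y : Fin n → ℝ) : |dot x y| ≤ Real.sqrt (dot x x) * Real.sqrt (dot y y) := by
  rw [← Real.sqrt_mul (dot_self_nonneg x)]
  apply Real.abs_le_sqrt
  have := Finset.sum_mul_sq_le_sq_mul_sq (Finset.univ : Finset (Fin n)) x y
  simpa [dot, sq] using this

theorem dot_add_right (x y z : Fin n → ℝ) : dot x (y + z) = dot x y + dot x z := by
  simp [dot, mul_add, Finset.sum_add_distrib]

theorem dot_sub_right (x y z : Fin n → ℝ) : dot x (y - z) = dot x y - dot x z := by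
  simp [dot, mul_sub, Finset.sum_sub_distrib]

theorem dot_neg_right (x z : Fin n → ℝ) : dot x (-z) = - dot x z := by
  simp [dot, Finset.sum_neg_distrib]

theorem dot_smul_right (a : ℝ) (x z : Fin n → ℝ) : dot x (a • z) = a * dot x z := by
  simp only [dot, Pi.smul_apply, smul_eq_mul, Finset.mul_sum]
  exact Finset.sum_congr rfl fun i _ => by ring

/-- `dot x x = 0` forces `x = 0`. -/
theorem eq_zero_of_dot_self {x : Fin n → ℝ} (h : dot x x = 0) : x = 0 := by
  funext i
  have h2 := (Finset.sum_eq_zero_iff_of_nonneg (fun i _ => mul_self_nonneg (x i))).1 h i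
    (Finset.mem_univ i)
  simpa using h2

/-- Triangle inequality in squared form. -/
theorem dot_add_self_le {a b : Fin n → ℝ} {u v : ℝ} (hu : 0 ≤ u) (hv : 0 ≤ v)
    (ha : dot a a ≤ u ^ 2) (hb : dot b b ≤ v ^ 2) : dot (a + b) (a + b) ≤ (u + v) ^ 2 := by
  have h1 : Real.sqrt (dot a a) ≤ u := by
    rw [← Real.sqrt_sq hu]; exact Real.sqrt_le_sqrt ha
  have h2 : Real.sqrt (dot b b) ≤ v := by
    rw [← Real.sqrt_sq hv]; exact Real.sqrt_le_sqrt hb
  have h3 : |dot a b| ≤ u * v :=
    (abs_dot_le a b).trans (mul_le_mul h1 h2 (Real.sqrt_nonneg _) hu)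
  have h4 := (abs_le.1 h3).2
  have e : dot (a + b) (a + b) = dot a a + 2 * dot a b + dot b b := by
    rw [dot_add_left, dot_add_right, dot_add_right, dot_comm b a]; ring
  rw [e]
  nlinarith

/-- Normalisation gives a unit vector when `x ≠ 0`. -/
theorem dot_unitV {x : Fin n → ℝ} (hx : x ≠ 0) : dot (unitV x) (unitV x) = 1 := by
  have hpos : 0 < dot x x :=
    lt_of_le_of_ne (dot_self_nonneg x) (fun h => hx (eq_zero_of_dot_self h.symm))
  unfold unitV
  rw [dot_smul_left, dot_smul_right, ← mul_assoc, ← sq, inv_pow, Real.sq_sqrt hpos.le]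
  exact inv_mul_cancel₀ hpos.ne'

/-- `|x·p|` changes by at most `η` when `p` moves to a line-close `q` (for `x` unit). -/
theorem abs_dot_sub_le_of_LC {x p q : Fin n → ℝ} {η : ℝ} (hη : 0 ≤ η) (hx : dot x x = 1)
    (h : LC η p q) : |dot x p| ≤ |dot x q| + η := by
  have hsq : ∀ r : Fin n → ℝ, dot r r ≤ η ^ 2 → |dot x r| ≤ η := by
    intro r hr
    have h1 := abs_dot_le x r
    rw [hx, Real.sqrt_one, one_mul] at h1
    refine h1.trans ?_
    rw [← Real.sqrt_sq hη]
    exact Real.sqrt_le_sqrt hr
  rcases h with h | h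
  · have h1 := hsq _ h
    rw [dot_sub_right] at h1
    have e : dot x p = dot x q + (dot x p - dot x q) := by ring
    rw [e]
    exact (abs_add_le _ _).trans (by linarith)
  · have h1 := hsq _ h
    rw [dot_add_right] at h1
    have e : dot x p = - dot x q + (dot x p + dot x q) := by ring
    rw [e]
    refine (abs_add_le _ _).trans ?_
    rw [abs_neg]
    linarith

theorem LC_symm {x y : Fin n → ℝ} {η : ℝ} (h : LC η x y) : LC η y x := by
  rcases h with h | h
  · left
    have e : y - x = -(x - y) := by abel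
    rw [e, dot_neg_left, dot_neg_right, neg_neg]
    exact h
  · right
    rw [add_comm y x]
    exact h

/-- Triangle inequality for line closeness. -/
theorem LC_trans {x y z : Fin n → ℝ} {η ξ : ℝ} (hη : 0 ≤ η) (hξ : 0 ≤ ξ) (h : LC η x y)
    (h' : LC ξ y z) : LC (η + ξ) x z := by
  have hneg : ∀ a : Fin n → ℝ, dot (-a) (-a) = dot a a := fun a => by
    rw [dot_neg_left, dot_neg_right, neg_neg]
  rcases h with h | h <;> rcases h' with h' | h'
  · left
    have e : x - z = (x - y) + (y - z) := by abel
    rw [e]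
    exact dot_add_self_le hη hξ h h'
  · right
    have e : x + z = (x - y) + (y + z) := by abel
    rw [e]
    exact dot_add_self_le hη hξ h h'
  · right
    have e : x + z = (x + y) + (-(y - z)) := by abel
    rw [e]
    exact dot_add_self_le hη hξ h (by rw [hneg]; exact h')
  · left
    have e : x - z = (x + y) + (-(y + z)) := by abel
    rw [e]
    exact dot_add_self_le hη hξ h (by rw [hneg]; exact h')

/-- Given at most `n - k` vectors, there is an orthonormal `k`-frame orthogonal to all of them. -/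
theorem exists_frame_perp (k : ℕ) (s : Finset (Fin n → ℝ)) (hs : s.card + k ≤ n) :
    ∃ f : Fin k → Fin n → ℝ, Frame f ∧ ∀ i, ∀ x ∈ s, dot (f i) x = 0 := by
  induction k with
  | zero => exact ⟨Fin.elim0, fun i => i.elim0, fun i => i.elim0⟩
  | succ k ih =>
    obtain ⟨f, hf, hfs⟩ := ih (by omega)
    classical
    set t : Finset (Fin n → ℝ) := s ∪ Finset.univ.image f with ht
    have htc : t.card < n := by
      have h1 : t.card ≤ s.card + (Finset.univ.image f).card := Finset.card_union_le _ _
      have h2 : (Finset.univ.image f).card ≤ k := by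
        simpa using (Finset.card_image_le (s := (Finset.univ : Finset (Fin k))) (f := f))
      omega
    -- a nonzero vector orthogonal to `t`
    let L : (Fin n → ℝ) →ₗ[ℝ] (t → ℝ) :=
      { toFun := fun y x => dot y x.1
        map_add' := fun y z => by funext x; exact dot_add_left y z x.1
        map_smul' := fun a y => by funext x; exact dot_smul_left a y x.1 }
    have hker : LinearMap.ker L ≠ ⊥ := by
      apply LinearMap.ker_ne_bot_of_finrank_lt
      simpa using htc
    obtain ⟨y, hy, hy0⟩ := (Submodule.ne_bot_iff _).1 hker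
    have hperp : ∀ x ∈ t, dot y x = 0 := fun x hx => congrFun hy ⟨x, hx⟩
    have huu : dot (unitV y) (unitV y) = 1 := dot_unitV hy0
    have hup : ∀ x ∈ t, dot (unitV y) x = 0 := by
      intro x hx
      unfold unitV
      rw [dot_smul_left, hperp x hx, mul_zero]
    refine ⟨Fin.cons (unitV y) f, ?_, ?_⟩
    · intro i j
      refine Fin.cases ?_ (fun i' => ?_) i <;> refine Fin.cases ?_ (fun j' => ?_) j
      · simpa using huu
      · have : dot (unitV y) (f j') = 0 :=
          hup _ (Finset.mem_union_right _ (Finset.mem_image_of_mem _ (Finset.mem_univ _)))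
        simpa [(Fin.succ_ne_zero j').symm] using this
      · have : dot (f i') (unitV y) = 0 := by
          rw [dot_comm]
          exact hup _ (Finset.mem_union_right _ (Finset.mem_image_of_mem _ (Finset.mem_univ _)))
        simpa [Fin.succ_ne_zero i'] using this
      · simpa [Fin.succ_inj] using hf i' j'
    · intro i x hx
      refine Fin.cases ?_ (fun i' => ?_) i
      · simpa using hup x (Finset.mem_union_left _ hx)
      · simpa using hfs i' x hx

/-- P0: two clusters with an (almost) orthogonal pair have disjoint colours. -/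
theorem disjoint_of_nearOrth {c : (Fin n → ℝ) → Fin 10} {δ η : ℝ} (hc : Margin c δ) (hη : 0 ≤ η)
    (hηδ : 4 * η < δ) {P Q : Finset (Fin n → ℝ)} (hP : Cluster η P) (hQ : Cluster η Q)
    {p q : Fin n → ℝ} (hp : p ∈ P) (hq : q ∈ Q) (hpq : |dot p q| ≤ η) :
    Disjoint (P.image c) (Q.image c) := by
  classical
  rw [Finset.disjoint_left]
  intro a haP haQ
  obtain ⟨p', hp', rfl⟩ := Finset.mem_image.1 haP
  obtain ⟨q', hq', hqc⟩ := Finset.mem_image.1 haQ
  have hu1 : dot p' p' = 1 := hP.1 p' hp'
  have hu2 : dot q q = 1 := hQ.1 q hq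
  have hu3 : dot q' q' = 1 := hQ.1 q' hq'
  have h1 := hc.sep p' q' hu1 hu3 hqc.symm
  have h2 := abs_dot_sub_le_of_LC hη hu1 (hQ.2 q' hq' q hq)
  have h3 := abs_dot_sub_le_of_LC hη hu2 (hP.2 p' hp' p hp)
  rw [dot_comm q p'] at h3
  rw [dot_comm q p] at h3
  linarith

/-- From a (not necessarily even) margin colouring of the sphere to an even one. -/
theorem exists_even_margin (C : (Fin 4 → ℝ) → Fin 10) {d : ℝ} (hd : 0 < d)
    (hC : ∀ x y : Fin 4 → ℝ, ∑ i, x i ^ 2 = 1 → ∑ i, y i ^ 2 = 1 → C x = C y →
      d ≤ |∑ i, x i * y i|) :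
    ∃ c : (Fin 4 → ℝ) → Fin 10, Margin c d := by
  classical
  -- a representative of each antipodal pair
  let r : (Fin 4 → ℝ) → (Fin 4 → ℝ) := fun x => if toLex x ≤ toLex (-x) then x else -x
  have hr : ∀ x, r (-x) = r x := by
    intro x
    simp only [r, neg_neg]
    by_cases h : toLex x ≤ toLex (-x)
    · by_cases h' : toLex (-x) ≤ toLex x
      · have : toLex x = toLex (-x) := le_antisymm h h'
        have e : x = -x := toLex.injective this
        rw [if_pos h, if_pos h']
        exact e.symm
      · rw [if_pos h, if_neg h']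
    · have h' : toLex (-x) ≤ toLex x := le_of_not_ge h
      rw [if_neg h, if_pos h']
  have hr2 : ∀ x, r x = x ∨ r x = -x := by
    intro x
    simp only [r]
    split_ifs
    · exact Or.inl rfl
    · exact Or.inr rfl
  refine ⟨fun x => C (r x), hd, fun x => ?_, ?_⟩
  · show C (r (-x)) = C (r x)
    rw [hr]
  · intro x y hx hy hxy
    have hsum : ∀ z : Fin 4 → ℝ, dot z z = 1 → ∑ i, (r z) i ^ 2 = 1 := by
      intro z hz
      rcases hr2 z with h | h
      · rw [h]; simpa [dot, sq] using hz
      · rw [h]; simpa [dot, sq] using hz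
    have h1 := hC (r x) (r y) (hsum x hx) (hsum y hy) hxy
    have h2 : |∑ i, (r x) i * (r y) i| = |dot x y| := by
      rcases hr2 x with h | h <;> rcases hr2 y with h' | h' <;> rw [h, h'] <;>
        simp [dot, Finset.sum_neg_distrib]
    rwa [h2] at h1

end Crest.Agent.S0069Lib
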