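import Crest.Agent.S0069Lib.Sys
import Crest.Agent.S0069Lib.Vec

/-!
# S0069: barycentric coordinates on the subdivided octahedron, rounding

`β v x` are barycentric coordinates of (the `ℓ¹`-normalisation of) `x ∈ ℝ³ \ 0` wrt the vertices of the
level-`j` subdivision of the octahedron `O = c 2 + τ (c 2)`.
Base: `β (i, ±) x = max 0 (± x i) / ‖x‖₁`. Subdivision: `β' F x = |F| * max 0 (min_F β - max_{Fᶜ} β)`
(layer cake: `∑_{F ∋ v} max 0 (min_F β - max_{Fᶜ} β) = β v`).
-/

set_option autoImplicit false

namespace Crest.Agent.S0069Lib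

open Finset

/-- `ℝ³ ⊂ ℝ⁵` (first three coordinates). -/
def emb3 (x : Fin 3 → ℝ) : Fin 5 → ℝ := fun i => if h : (i : ℕ) < 3 then x ⟨i, h⟩ else 0

/-- Projection to the first three coordinates. -/
def proj3 (m : Fin 5 → ℝ) : Fin 3 → ℝ := fun i => m ⟨i, by omega⟩

/-- `ℓ¹` norm on `ℝ³`. -/
def l1n (x : Fin 3 → ℝ) : ℝ := ∑ i, |x i|

/-- Barycentric coordinates structure. -/
structure Sys.IsBary (S : Sys) (β : S.V → (Fin 3 → ℝ) → ℝ) : Prop where
  nonneg : ∀ v x, 0 ≤ β v x
  cont : ∀ v, ContinuousOn (β v) {x | x ≠ 0}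
  sum1 : ∀ x, x ≠ 0 → ∑ v, β v x = 1
  bary : ∀ x, x ≠ 0 → ∑ v, β v x • S.pos v = emb3 ((l1n x)⁻¹ • x)
  supp : ∀ x, x ≠ 0 → ∃ t, S.O t ≠ 0 ∧ ∀ v, 0 < β v x → v ∈ t
  anti : ∀ v x, β (S.τ v) x = β v (-x)

section LayerCake

variable {V : Type} [DecidableEq V]

/-- Layer-cake gap with universe `A` and floor `m`. -/
noncomputable def gapA (b : V → ℝ) (A : Finset V) (m : ℝ) (F : Finset V) : ℝ :=
  if h : F.Nonempty then max 0 (F.inf' h b - (A \ F).fold max m b) else 0

theorem gapA_nonneg (b : V → ℝ) (A : Finset V) (m : ℝ) (F : Finset V) : 0 ≤ gapA b A m F := by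
  unfold gapA; split_ifs
  · exact le_max_left _ _
  · exact le_rfl

theorem gapA_empty (b : V → ℝ) (A : Finset V) (m : ℝ) : gapA b A m ∅ = 0 := by
  simp [gapA]

theorem layer (b : V → ℝ) (n : ℕ) : ∀ (A : Finset V), A.card = n → ∀ (m : ℝ) (v : V), v ∈ A →
    ∑ F ∈ A.powerset, (if v ∈ F then gapA b A m F else 0) = max 0 (b v - m) := by
  induction n with
  | zero =>
    intro A hA m v hv
    rw [Finset.card_eq_zero] at hA
    simp [hA] at hv
  | succ n ih =>
    intro A hA m v hv
    have hne : A.Nonempty := ⟨v, hv⟩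
    obtain ⟨w, hwA, hw⟩ := Finset.exists_min_image A b hne
    have hwA' : w ∉ A.erase w := Finset.notMem_erase w A
    have hAi : insert w (A.erase w) = A := Finset.insert_erase hwA
    have hcard : (A.erase w).card = n := by rw [Finset.card_erase_of_mem hwA, hA]; rfl
    have htop : gapA b A m A = max 0 (b w - m) := by
      unfold gapA
      rw [dif_pos hne, Finset.sdiff_self, Finset.fold_empty]
      have : A.inf' hne b = b w :=
        le_antisymm (Finset.inf'_le b hwA) (Finset.le_inf' _ _ hw)
      rw [this]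
    have hins : ∀ F ∈ (A.erase w).powerset, F ≠ A.erase w → gapA b A m (insert w F) = 0 := by
      intro F hF hFne
      rw [Finset.mem_powerset] at hF
      have : ¬ (A.erase w ⊆ F) := fun h => hFne (Finset.Subset.antisymm hF h)
      obtain ⟨u, hu, huF⟩ := Finset.not_subset.1 this
      have huw : u ≠ w := fun h => hwA' (h ▸ hu)
      have huA : u ∈ A := Finset.mem_of_mem_erase hu
      unfold gapA
      rw [dif_pos (Finset.insert_nonempty w F)]
      apply max_eq_left
      have h1 : (insert w F).inf' (Finset.insert_nonempty w F) b ≤ b w :=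
        Finset.inf'_le b (Finset.mem_insert_self w F)
      have h2 : b u ≤ (A \ insert w F).fold max m b := by
        apply (Finset.le_fold_max _).2
        refine Or.inr ⟨u, ?_, le_rfl⟩
        simp [huA, huw, huF]
      have := hw u huA
      linarith
    have hlow : ∀ F ∈ (A.erase w).powerset, gapA b A m F = gapA b (A.erase w) (max m (b w)) F := by
      intro F hF
      rw [Finset.mem_powerset] at hF
      have hwF : w ∉ F := fun h => hwA' (hF h)
      unfold gapA
      by_cases hFn : F.Nonempty
      · rw [dif_pos hFn, dif_pos hFn]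
        have : (A \ F).fold max m b = (A.erase w \ F).fold max (max m (b w)) b := by
          apply le_antisymm
          · apply (Finset.fold_max_le _).2
            refine ⟨(Finset.le_fold_max _).2 (Or.inl (le_max_left _ _)), ?_⟩
            intro x hx
            rw [Finset.mem_sdiff] at hx
            by_cases hxw : x = w
            · subst hxw
              exact (Finset.le_fold_max _).2 (Or.inl (le_max_right _ _))
            · apply (Finset.le_fold_max _).2
              refine Or.inr ⟨x, ?_, le_rfl⟩
              simp [hx.1, hx.2, hxw]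
          · apply (Finset.fold_max_le _).2
            refine ⟨max_le ((Finset.le_fold_max _).2 (Or.inl le_rfl)) ?_, ?_⟩
            · apply (Finset.le_fold_max _).2
              refine Or.inr ⟨w, ?_, le_rfl⟩
              simp [hwA, hwF]
            · intro x hx
              rw [Finset.mem_sdiff, Finset.mem_erase] at hx
              apply (Finset.le_fold_max _).2
              refine Or.inr ⟨x, ?_, le_rfl⟩
              simp [hx.1.2, hx.2]
        rw [this]
      · rw [dif_neg hFn, dif_neg hFn]
    have hpow : A.powerset = (insert w (A.erase w)).powerset := by rw [hAi]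
    rw [hpow, Finset.sum_powerset_insert hwA']
    have hS2 : ∑ F ∈ (A.erase w).powerset, (if v ∈ insert w F then gapA b A m (insert w F) else 0)
        = max 0 (b w - m) := by
      rw [Finset.sum_eq_single (A.erase w)]
      · rw [hAi, if_pos hv, htop]
      · intro F hF hFne
        rw [hins F hF hFne]; simp
      · intro h; exact absurd (Finset.mem_powerset.2 (Finset.Subset.refl _)) h
    rw [hS2]
    by_cases hvw : v = w
    · subst hvw
      have : ∑ F ∈ (A.erase v).powerset, (if v ∈ F then gapA b A m F else 0) = 0 := by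
        apply Finset.sum_eq_zero
        intro F hF
        rw [Finset.mem_powerset] at hF
        rw [if_neg (fun h => hwA' (hF h))]
      rw [this, zero_add]
    · have hvA' : v ∈ A.erase w := Finset.mem_erase.2 ⟨hvw, hv⟩
      have : ∑ F ∈ (A.erase w).powerset, (if v ∈ F then gapA b A m F else 0)
          = ∑ F ∈ (A.erase w).powerset, (if v ∈ F then gapA b (A.erase w) (max m (b w)) F else 0) := by
        apply Finset.sum_congr rfl
        intro F hF
        rw [hlow F hF]
      rw [this, ih (A.erase w) hcard (max m (b w)) v hvA']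
      have hwv := hw v hv
      rcases le_total m (b w) with hmw | hmw
      · rw [max_eq_right hmw, max_eq_right (by linarith : (0:ℝ) ≤ b v - b w),
          max_eq_right (by linarith : (0:ℝ) ≤ b w - m), max_eq_right (by linarith : (0:ℝ) ≤ b v - m)]
        ring
      · rw [max_eq_left hmw, max_eq_left (by linarith : b w - m ≤ (0:ℝ))]
        ring

theorem gapA_pos {b : V → ℝ} {A : Finset V} {m : ℝ} {F : Finset V} (h : 0 < gapA b A m F) :
    F.Nonempty ∧ (∀ u ∈ F, m < b u) ∧ (∀ u ∈ F, ∀ w ∈ A, w ∉ F → b w < b u) := by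
  unfold gapA at h
  by_cases hF : F.Nonempty
  · rw [dif_pos hF] at h
    have h' : 0 < F.inf' hF b - (A \ F).fold max m b := by
      rcases lt_max_iff.1 h with h | h
      · exact absurd h (lt_irrefl _)
      · exact h
    have key : ∀ u ∈ F, (A \ F).fold max m b < b u := by
      intro u hu
      have := Finset.inf'_le b hu
      linarith
    refine ⟨hF, ?_, ?_⟩
    · intro u hu
      exact lt_of_le_of_lt ((Finset.le_fold_max _).2 (Or.inl le_rfl)) (key u hu)
    · intro u hu w hw hwF
      refine lt_of_le_of_lt ((Finset.le_fold_max _).2 (Or.inr ⟨w, ?_, le_rfl⟩)) (key u hu)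
      simp [hw, hwF]
  · rw [dif_neg hF] at h
    exact absurd h (lt_irrefl _)

theorem continuousOn_fold_max {X ι : Type} [TopologicalSpace X] [DecidableEq ι] {s : Set X}
    (S : Finset ι) (m : ℝ) (f : ι → X → ℝ) (hf : ∀ i, ContinuousOn (f i) s) :
    ContinuousOn (fun x => S.fold max m (fun i => f i x)) s := by
  induction S using Finset.induction_on with
  | empty => simpa using continuousOn_const
  | insert a S ha ih =>
    simp only [Finset.fold_insert ha]
    exact (hf a).sup ih

theorem continuousOn_gapA {X : Type} [TopologicalSpace X] {s : Set X}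
    (f : V → X → ℝ) (hf : ∀ i, ContinuousOn (f i) s) (A : Finset V) (m : ℝ) (F : Finset V) :
    ContinuousOn (fun x => gapA (fun v => f v x) A m F) s := by
  unfold gapA
  by_cases hF : F.Nonempty
  · simp only [dif_pos hF]
    refine ContinuousOn.sup continuousOn_const (ContinuousOn.sub ?_ ?_)
    · exact ContinuousOn.finset_inf'_apply hF (fun i _ => hf i)
    · exact continuousOn_fold_max _ _ _ hf
  · simp only [dif_neg hF]
    exact continuousOn_const

/-- Image under an involution. -/
theorem gapA_image [Fintype V] (τ : V → V) (hτ : ∀ v, τ (τ v) = v) (b : V → ℝ) (m : ℝ)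
    (F : Finset V) :
    gapA b univ m (F.image τ) = gapA (fun v => b (τ v)) univ m F := by
  have hinj : Function.Injective τ := fun a a' h => by
    have := congrArg τ h; rwa [hτ, hτ] at this
  unfold gapA
  by_cases hF : F.Nonempty
  · rw [dif_pos hF, dif_pos (hF.image τ)]
    have h1 : (F.image τ).inf' (hF.image τ) b = F.inf' hF (fun v => b (τ v)) := by
      apply le_antisymm
      · apply Finset.le_inf'
        intro v hv
        exact Finset.inf'_le b (Finset.mem_image_of_mem τ hv)
      · apply Finset.le_inf'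
        intro v hv
        obtain ⟨u, hu, rfl⟩ := Finset.mem_image.1 hv
        exact Finset.inf'_le (fun v => b (τ v)) hu
    have h2 : (univ \ F.image τ).fold max m b = (univ \ F).fold max m (fun v => b (τ v)) := by
      apply le_antisymm
      · apply (Finset.fold_max_le _).2
        refine ⟨(Finset.le_fold_max _).2 (Or.inl le_rfl), ?_⟩
        intro x hx
        apply (Finset.le_fold_max _).2
        refine Or.inr ⟨τ x, ?_, by simp [hτ]⟩
        simp only [Finset.mem_sdiff, Finset.mem_univ, true_and, Finset.mem_image, not_exists, not_and] at hx ⊢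
        intro hxF
        exact hx _ hxF (hτ x)
      · apply (Finset.fold_max_le _).2
        refine ⟨(Finset.le_fold_max _).2 (Or.inl le_rfl), ?_⟩
        intro x hx
        apply (Finset.le_fold_max _).2
        refine Or.inr ⟨τ x, ?_, le_rfl⟩
        simp only [Finset.mem_sdiff, Finset.mem_univ, true_and, Finset.mem_image, not_exists, not_and] at hx ⊢
        intro y hy hyx
        exact hx (hinj hyx ▸ hy)
    rw [h1, h2]
  · rw [dif_neg hF, dif_neg (by rwa [Finset.image_nonempty])]

/-- A full flag of `t` containing all nonempty `b`-upper subsets of `t`. -/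
theorem exists_flag (b : V → ℝ) (n : ℕ) : ∀ (t : Finset V), t.card = n →
    ∃ 𝔽 : Finset (Finset V), IsFullFlag 𝔽 ∧ 𝔽.biUnion id = t ∧
      ∀ F : Finset V, F.Nonempty → F ⊆ t → (∀ u ∈ F, ∀ w ∈ t, w ∉ F → b w < b u) → F ∈ 𝔽 := by
  induction n with
  | zero =>
    intro t ht
    rw [Finset.card_eq_zero] at ht
    subst ht
    refine ⟨∅, ⟨by simp, by simp, by simp⟩, by simp, ?_⟩
    intro F hF hFt
    rw [Finset.subset_empty] at hFt
    subst hFt
    exact absurd hF (by simp)
  | succ n ih =>
    intro t ht
    have hne : t.Nonempty := by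
      rw [← Finset.card_pos, ht]; omega
    obtain ⟨w, hwt, hw⟩ := Finset.exists_min_image t b hne
    have hcard : (t.erase w).card = n := by rw [Finset.card_erase_of_mem hwt, ht]; rfl
    obtain ⟨𝔽, ⟨h0, hch, hc⟩, hU, hup⟩ := ih (t.erase w) hcard
    have hsub : ∀ A ∈ 𝔽, A ⊆ t.erase w := by
      intro A hA
      rw [← hU]
      intro x hx
      exact Finset.mem_biUnion.2 ⟨A, hA, hx⟩
    have htF : t ∉ 𝔽 := by
      intro h
      have := hsub t h hwt
      exact Finset.notMem_erase w t this
    refine ⟨insert t 𝔽, ⟨?_, ?_, ?_⟩, ?_, ?_⟩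
    · rw [Finset.mem_insert, not_or]
      exact ⟨fun h => by rw [← h] at hne; simp at hne, h0⟩
    · intro A hA B hB
      rw [Finset.mem_insert] at hA hB
      rcases hA with rfl | hA
      · rcases hB with rfl | hB
        · exact Or.inl (Finset.Subset.refl _)
        · exact Or.inr ((hsub B hB).trans (Finset.erase_subset _ _))
      · rcases hB with rfl | hB
        · exact Or.inl ((hsub A hA).trans (Finset.erase_subset _ _))
        · exact hch A hA B hB
    · rw [Finset.card_insert_of_notMem htF, Finset.biUnion_insert]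
      have : id t ∪ 𝔽.biUnion id = t := by
        rw [hU]; simp [Finset.erase_subset]
      rw [this, hc, hU, hcard, ht]
    · rw [Finset.biUnion_insert, hU]; simp [Finset.erase_subset]
    · intro F hF hFt hFu
      rw [Finset.mem_insert]
      by_cases hwF : w ∈ F
      · left
        apply Finset.Subset.antisymm hFt
        intro x hx
        by_contra hxF
        have := hFu w hwF x hx hxF
        have := hw x hx
        linarith
      · right
        apply hup F hF
        · intro x hx
          exact Finset.mem_erase.2 ⟨fun h => hwF (h ▸ hx), hFt hx⟩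
        · intro u hu x hx hxF
          exact hFu u hu x (Finset.mem_of_mem_erase hx) hxF

end LayerCake

/-- `S.sd.O` on a full flag is `S.O` of its union. -/
theorem sd_O_apply {S : Sys} (hτ : ∀ v, S.τ (S.τ v) = v) {𝔽 : Finset (Finset S.V)}
    (h : IsFullFlag 𝔽) : S.sd.O 𝔽 = S.O (𝔽.biUnion id) := by
  have h1 : S.sd.O = sd (S.c 2) + tauC (fun F : Finset S.V => F.image S.τ) (sd (S.c 2)) := rfl
  rw [h1, ← sd_tauC hτ]
  simp only [Pi.add_apply, sd, if_pos h]
  rfl

/-- Barycentric coordinates after subdivision. -/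
noncomputable def sdBeta (S : Sys) (β : S.V → (Fin 3 → ℝ) → ℝ) :
    Finset S.V → (Fin 3 → ℝ) → ℝ :=
  fun F x => (F.card : ℝ) * gapA (fun v => β v x) univ 0 F

theorem layer_univ {V : Type} [DecidableEq V] [Fintype V] (b : V → ℝ) (hb : ∀ v, 0 ≤ b v) (v : V) :
    ∑ F : Finset V, (if v ∈ F then gapA b univ 0 F else 0) = b v := by
  have := layer b _ univ rfl 0 v (mem_univ v)
  rw [Finset.powerset_univ, sub_zero, max_eq_right (hb v)] at this
  exact this

theorem isBary_sd {S : Sys} (hτ : ∀ v, S.τ (S.τ v) = v) {β : S.V → (Fin 3 → ℝ) → ℝ}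
    (hβ : S.IsBary β) : S.sd.IsBary (sdBeta S β) where
  nonneg := fun F x => mul_nonneg (Nat.cast_nonneg _) (gapA_nonneg _ _ _ _)
  cont := fun F => ContinuousOn.mul continuousOn_const (continuousOn_gapA β hβ.cont univ 0 F)
  sum1 := by
    intro x hx
    change ∑ F : Finset S.V, sdBeta S β F x = 1
    have hb : ∀ v, 0 ≤ β v x := fun v => hβ.nonneg v x
    have h1 : ∀ F : Finset S.V, sdBeta S β F x =
        ∑ v : S.V, if v ∈ F then gapA (fun v => β v x) univ 0 F else 0 := by
      intro F
      simp [sdBeta, Finset.sum_ite_mem]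
    simp_rw [h1]
    rw [Finset.sum_comm]
    simp_rw [layer_univ _ hb]
    exact hβ.sum1 x hx
  bary := by
    intro x hx
    change ∑ F : Finset S.V, sdBeta S β F x • S.bary F = emb3 ((l1n x)⁻¹ • x)
    have hb : ∀ v, 0 ≤ β v x := fun v => hβ.nonneg v x
    have h1 : ∀ F : Finset S.V, sdBeta S β F x • S.bary F =
        ∑ v : S.V, (if v ∈ F then gapA (fun v => β v x) univ 0 F else 0) • S.pos v := by
      intro F
      have hr : ∑ v : S.V, (if v ∈ F then gapA (fun v => β v x) univ 0 F else 0) • S.pos v
          = gapA (fun v => β v x) univ 0 F • ∑ v ∈ F, S.pos v := by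
        simp only [ite_smul, zero_smul, Finset.sum_ite_mem, Finset.univ_inter, Finset.smul_sum]
      rw [hr]
      unfold sdBeta Sys.bary
      by_cases hF : F.Nonempty
      · have hc : (F.card : ℝ) ≠ 0 := by
          have := Finset.card_pos.2 hF
          positivity
        rw [smul_smul]
        congr 1
        field_simp
      · rw [Finset.not_nonempty_iff_eq_empty] at hF
        subst hF
        simp
    simp_rw [h1]
    rw [Finset.sum_comm]
    simp_rw [← Finset.sum_smul, layer_univ _ hb]
    exact hβ.bary x hx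
  supp := by
    intro x hx
    obtain ⟨t, ht, htv⟩ := hβ.supp x hx
    obtain ⟨𝔽, hfl, hU, hup⟩ := exists_flag (fun v => β v x) _ t rfl
    refine ⟨𝔽, ?_, ?_⟩
    · rw [sd_O_apply hτ hfl, hU]; exact ht
    · intro F hF
      have hg : 0 < gapA (fun v => β v x) univ 0 F := by
        change 0 < (Finset.card F : ℝ) * _ at hF
        by_contra hcon
        have h0 : gapA (fun v => β v x) univ 0 F = 0 :=
          le_antisymm (not_lt.1 hcon) (gapA_nonneg _ _ _ _)
        rw [h0, mul_zero] at hF
        exact lt_irrefl _ hF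
      obtain ⟨hne, hpos, hupper⟩ := gapA_pos hg
      exact hup F hne (fun u hu => htv u (hpos u hu))
        (fun u hu w _ hwF => hupper u hu w (mem_univ w) hwF)
  anti := by
    intro (F : Finset S.V) x
    change sdBeta S β (F.image S.τ) x = sdBeta S β F (-x)
    have hinj : Function.Injective S.τ := fun a a' h => by
      have := congrArg S.τ h; rwa [hτ, hτ] at this
    unfold sdBeta
    rw [Finset.card_image_of_injective _ hinj, gapA_image S.τ hτ]
    simp only [hβ.anti]

/-- Base barycentric coordinates. -/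
noncomputable def beta0 : Fin 5 × Bool → (Fin 3 → ℝ) → ℝ := fun v x =>
  if h : (v.1 : ℕ) < 3 then max 0 ((if v.2 then 1 else -1) * x ⟨v.1, h⟩) / l1n x else 0

theorem l1n_nonneg (x : Fin 3 → ℝ) : 0 ≤ l1n x := Finset.sum_nonneg fun i _ => abs_nonneg _

theorem l1n_pos {x : Fin 3 → ℝ} (hx : x ≠ 0) : 0 < l1n x := by
  obtain ⟨i, hi⟩ := Function.ne_iff.1 hx
  refine Finset.sum_pos' (fun i _ => abs_nonneg _) ⟨i, Finset.mem_univ i, ?_⟩
  exact abs_pos.2 hi

theorem l1n_neg (x : Fin 3 → ℝ) : l1n (-x) = l1n x := by
  simp [l1n]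

theorem continuous_l1n : Continuous l1n :=
  continuous_finsetSum _ (fun i _ => (continuous_apply i).abs)

theorem max_add_max_neg (t : ℝ) : max 0 t + max 0 (-t) = |t| := by
  rcases le_total 0 t with h | h
  · rw [max_eq_right h, max_eq_left (by linarith), abs_of_nonneg h]; ring
  · rw [max_eq_left h, max_eq_right (by linarith), abs_of_nonpos h]; ring

theorem max_sub_max_neg (t : ℝ) : max 0 t - max 0 (-t) = t := by
  rcases le_total 0 t with h | h
  · rw [max_eq_right h, max_eq_left (by linarith)]; ring
  · rw [max_eq_left h, max_eq_right (by linarith)]; ring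

instance baseHemi_dec (k : ℕ) (F : Finset (Fin 5 × Bool)) : Decidable (baseHemi k F) := by
  unfold baseHemi; infer_instance

theorem base_tri_key : ∀ a b c : Bool,
      (baseHemi 2 ({((0 : Fin 5), a), ((1 : Fin 5), b), ((2 : Fin 5), c)} : Finset (Fin 5 × Bool)) ∧
        ¬ baseHemi 2 (({((0 : Fin 5), a), ((1 : Fin 5), b), ((2 : Fin 5), c)} : Finset (Fin 5 × Bool)).image
          (fun v => (v.1, !v.2)))) ∨
      (¬ baseHemi 2 ({((0 : Fin 5), a), ((1 : Fin 5), b), ((2 : Fin 5), c)} : Finset (Fin 5 × Bool)) ∧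
        baseHemi 2 (({((0 : Fin 5), a), ((1 : Fin 5), b), ((2 : Fin 5), c)} : Finset (Fin 5 × Bool)).image
          (fun v => (v.1, !v.2)))) := by
  decide

theorem base_tri (a b c : Bool) :
    Sys.base.O (({((0 : Fin 5), a), ((1 : Fin 5), b), ((2 : Fin 5), c)} : Finset (Fin 5 × Bool))) ≠ 0 := by
  have hc1 : ∀ t, baseHemi 2 t → Sys.base.c 2 t = 1 := fun t h => if_pos h
  have hc0 : ∀ t, ¬ baseHemi 2 t → Sys.base.c 2 t = 0 := fun t h => if_neg h
  have h1 : ∀ t : Finset (Fin 5 × Bool), Sys.base.O t =
      Sys.base.c 2 t + Sys.base.c 2 (t.image (fun v => (v.1, !v.2))) := fun t => rfl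
  have hz : ∀ u v : ZMod 2, (u = 1 ∧ v = 0) ∨ (u = 0 ∧ v = 1) → u + v ≠ 0 := by decide
  rw [h1]
  apply hz
  rcases base_tri_key a b c with ⟨h, h'⟩ | ⟨h, h'⟩
  · exact Or.inl ⟨hc1 _ h, hc0 _ h'⟩
  · exact Or.inr ⟨hc0 _ h, hc1 _ h'⟩

theorem beta0_lt (i : Fin 3) (b : Bool) (x : Fin 3 → ℝ) :
    beta0 (⟨i, by omega⟩, b) x = max 0 ((if b then 1 else -1) * x i) / l1n x := by
  unfold beta0
  simp

theorem beta0_ge (i : Fin 5) (hi : 3 ≤ (i : ℕ)) (b : Bool) (x : Fin 3 → ℝ) : beta0 (i, b) x = 0 := by
  unfold beta0
  simp [not_lt.2 hi]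

theorem isBary_base : Sys.base.IsBary beta0 where
  nonneg := by
    rintro ⟨i, b⟩ x
    change 0 ≤ beta0 (i, b) x
    unfold beta0
    split_ifs <;> first | exact div_nonneg (le_max_left _ _) (l1n_nonneg x) | exact le_refl _
  cont := by
    rintro ⟨i, b⟩
    change ContinuousOn (beta0 (i, b)) _
    by_cases h : (i : ℕ) < 3
    · have : beta0 (i, b) = fun x => max 0 ((if b then 1 else -1) * x ⟨i, h⟩) / l1n x := by
        funext x
        simp [beta0, h]
      rw [this]
      apply ContinuousOn.div
      · exact (continuous_const.max (continuous_const.mul (continuous_apply _))).continuousOn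
      · exact continuous_l1n.continuousOn
      · intro x hx
        exact (l1n_pos hx).ne'
    · have : beta0 (i, b) = fun _ => 0 := by
        funext x
        simp [beta0, h]
      rw [this]
      exact continuousOn_const
  sum1 := by
    intro x hx
    change ∑ v : Fin 5 × Bool, beta0 v x = 1
    have hl := l1n_pos hx
    rw [Fintype.sum_prod_type, Fin.sum_univ_five]
    simp only [Fintype.sum_bool]
    have v0t := beta0_lt 0 true x
    have v0f := beta0_lt 0 false x
    have v1t := beta0_lt 1 true x
    have v1f := beta0_lt 1 false x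
    have v2t := beta0_lt 2 true x
    have v2f := beta0_lt 2 false x
    have v3t := beta0_ge 3 (by decide) true x
    have v3f := beta0_ge 3 (by decide) false x
    have v4t := beta0_ge 4 (by decide) true x
    have v4f := beta0_ge 4 (by decide) false x
    simp only [if_true, Bool.false_eq_true, if_false, one_mul, neg_mul] at v0t v0f v1t v1f v2t v2f
    change beta0 (0, true) x = _ at v0t
    change beta0 (0, false) x = _ at v0f
    change beta0 (1, true) x = _ at v1t
    change beta0 (1, false) x = _ at v1f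
    change beta0 (2, true) x = _ at v2t
    change beta0 (2, false) x = _ at v2f
    rw [v0t, v0f, v1t, v1f, v2t, v2f, v3t, v3f, v4t, v4f]
    have e0 := max_add_max_neg (x 0)
    have e1 := max_add_max_neg (x 1)
    have e2 := max_add_max_neg (x 2)
    have hl' : l1n x = |x 0| + |x 1| + |x 2| := by
      simp [l1n, Fin.sum_univ_three]
    field_simp
    rw [hl']
    linarith
  bary := by
    intro x hx
    change ∑ v : Fin 5 × Bool, beta0 v x •
      (fun i : Fin 5 => if i = v.1 then (if v.2 then (1:ℝ) else -1) else 0) = emb3 ((l1n x)⁻¹ • x)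
    have hl := l1n_pos hx
    rw [Fintype.sum_prod_type, Fin.sum_univ_five]
    simp only [Fintype.sum_bool]
    have v0t := beta0_lt 0 true x
    have v0f := beta0_lt 0 false x
    have v1t := beta0_lt 1 true x
    have v1f := beta0_lt 1 false x
    have v2t := beta0_lt 2 true x
    have v2f := beta0_lt 2 false x
    have v3t := beta0_ge 3 (by decide) true x
    have v3f := beta0_ge 3 (by decide) false x
    have v4t := beta0_ge 4 (by decide) true x
    have v4f := beta0_ge 4 (by decide) false x
    simp only [if_true, Bool.false_eq_true, if_false, one_mul, neg_mul] at v0t v0f v1t v1f v2t v2f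
    change beta0 (0, true) x = _ at v0t
    change beta0 (0, false) x = _ at v0f
    change beta0 (1, true) x = _ at v1t
    change beta0 (1, false) x = _ at v1f
    change beta0 (2, true) x = _ at v2t
    change beta0 (2, false) x = _ at v2f
    rw [v0t, v0f, v1t, v1f, v2t, v2f, v3t, v3f, v4t, v4f]
    funext k
    have e0 := max_sub_max_neg (x 0)
    have e1 := max_sub_max_neg (x 1)
    have e2 := max_sub_max_neg (x 2)
    fin_cases k
    · simp [emb3]
      field_simp
      linarith
    · simp [emb3]
      field_simp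
      linarith
    · simp [emb3]
      have e2' : max 0 (x ⟨2, by norm_num⟩) - max 0 (-x ⟨2, by norm_num⟩) = x ⟨2, by norm_num⟩ :=
        max_sub_max_neg _
      field_simp
      linarith
    · simp [emb3]
    · simp [emb3]
  supp := by
    intro x hx
    refine ⟨({((0 : Fin 5), decide (0 ≤ x 0)), ((1 : Fin 5), decide (0 ≤ x 1)), ((2 : Fin 5), decide (0 ≤ x 2))} :
      Finset (Fin 5 × Bool)), base_tri _ _ _, ?_⟩
    rintro ⟨i, b⟩ hv
    change 0 < beta0 (i, b) x at hv
    unfold beta0 at hv
    by_cases h : (i : ℕ) < 3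
    · simp only [h, dite_true] at hv
      have hm : 0 < max 0 ((if b then 1 else -1) * x ⟨i, h⟩) := by
        by_contra hcon
        have : max 0 ((if b then 1 else -1) * x ⟨i, h⟩) = 0 :=
          le_antisymm (not_lt.1 hcon) (le_max_left _ _)
        rw [this, zero_div] at hv
        exact lt_irrefl _ hv
      have hs : 0 < (if b then 1 else -1) * x ⟨i, h⟩ := by
        rcases lt_max_iff.1 hm with h' | h'
        · exact absurd h' (lt_irrefl _)
        · exact h'
      have hb : b = decide (0 ≤ x ⟨i, h⟩) := by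
        cases b
        · simp only [Bool.false_eq_true, if_false] at hs
          have : x ⟨i, h⟩ < 0 := by linarith
          simp [not_le.2 this]
        · simp only [if_true] at hs
          have : 0 ≤ x ⟨i, h⟩ := by linarith
          simp [this]
      subst hb
      have hi3 : i = 0 ∨ i = 1 ∨ i = 2 := by
        rcases i with ⟨i, hi⟩
        simp only at h
        interval_cases i <;> simp
      rcases hi3 with rfl | rfl | rfl
      · exact Finset.mem_insert_self _ _
      · exact Finset.mem_insert_of_mem (Finset.mem_insert_self _ _)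
      · exact Finset.mem_insert_of_mem (Finset.mem_insert_of_mem (Finset.mem_singleton_self _))
    · simp only [h, dite_false] at hv
      exact absurd hv (lt_irrefl _)
  anti := by
    rintro ⟨i, b⟩ x
    change beta0 (i, !b) x = beta0 (i, b) (-x)
    unfold beta0
    by_cases h : (i : ℕ) < 3
    · simp only [h, dite_true, l1n_neg, Pi.neg_apply]
      cases b <;> simp
    · simp [h]

/-- Barycentric coordinates exist at each level. -/
theorem exists_bary (j : ℕ) : ∃ β, (level j).IsBary β := by
  induction j with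
  | zero => exact ⟨beta0, isBary_base⟩
  | succ j ih =>
    obtain ⟨β, hβ⟩ := ih
    exact ⟨sdBeta (level j) β, isBary_sd (good_level j).τ_τ hβ⟩

/-- Lebesgue number: a rounding map to vertices. -/
theorem rounding {S : Sys} {β : S.V → (Fin 3 → ℝ) → ℝ} (hβ : S.IsBary β) :
    ∃ ρ > 0, ∃ φ : (Fin 3 → ℝ) → S.V, ∀ x y : Fin 3 → ℝ, dot x x = 1 → dot y y = 1 →
      dot (x - y) (x - y) < ρ ^ 2 → 0 < β (φ x) y := by
  classical
  let K : Set (Fin 3 → ℝ) := {x | dot x x = 1}
  have hne0 : ∀ x : Fin 3 → ℝ, dot x x = 1 → x ≠ 0 := by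
    rintro x hx rfl
    simp [dot] at hx
  have hKc : IsCompact K := by
    apply Metric.isCompact_of_isClosed_isBounded
    · have hcd : Continuous (fun x : Fin 3 → ℝ => dot x x) :=
        continuous_finsetSum _ (fun i _ => (continuous_apply i).mul (continuous_apply i))
      exact isClosed_singleton.preimage hcd
    · apply (Metric.isBounded_closedBall (x := (0 : Fin 3 → ℝ)) (r := 1)).subset
      intro x hx
      rw [mem_closedBall_zero_iff, pi_norm_le_iff_of_nonneg zero_le_one]
      intro i
      have hx' : dot x x = 1 := hx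
      have : x i * x i ≤ dot x x :=
        Finset.single_le_sum (f := fun i => x i * x i) (fun i _ => mul_self_nonneg _) (Finset.mem_univ i)
      rw [hx'] at this
      rw [Real.norm_eq_abs]
      exact abs_le_of_sq_le_sq' (by nlinarith) (by norm_num) |> fun h => abs_le.2 h
  let U : S.V → Set (Fin 3 → ℝ) := fun v => {x | x ≠ 0} ∩ β v ⁻¹' Set.Ioi 0
  have hU : ∀ v, IsOpen (U v) := fun v =>
    (hβ.cont v).isOpen_inter_preimage isOpen_ne isOpen_Ioi
  have hcov : K ⊆ ⋃ v, U v := by
    intro x hx
    have hx0 := hne0 x hx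
    have hs := hβ.sum1 x hx0
    by_contra hcon
    have hall : ∀ v, β v x = 0 := by
      intro v
      apply le_antisymm _ (hβ.nonneg v x)
      by_contra hv
      exact hcon (Set.mem_iUnion.2 ⟨v, hx0, not_le.1 hv⟩)
    rw [Finset.sum_eq_zero (fun v _ => hall v)] at hs
    exact zero_ne_one hs
  obtain ⟨δ, hδ, hball⟩ := lebesgue_number_lemma_of_metric hKc hU hcov
  refine ⟨δ, hδ, ?_⟩
  have hV : Nonempty S.V := by
    let e : Fin 3 → ℝ := fun i => if i = 0 then 1 else 0
    have he : e ∈ K := by
      change dot e e = 1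
      simp [dot, e, Fin.sum_univ_three]
    obtain ⟨v, _⟩ := hball e he
    exact ⟨v⟩
  let φ : (Fin 3 → ℝ) → S.V := fun x => if hx : x ∈ K then (hball x hx).choose else hV.some
  refine ⟨φ, ?_⟩
  intro x y hx hy hxy
  have hxK : x ∈ K := hx
  have hsub : Metric.ball x δ ⊆ U (φ x) := by
    have : φ x = (hball x hxK).choose := by
      simp only [φ, dif_pos hxK]
    rw [this]
    exact (hball x hxK).choose_spec
  have hyb : y ∈ Metric.ball x δ := by
    rw [Metric.mem_ball, dist_comm, dist_eq_norm, pi_norm_lt_iff hδ]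
    intro i
    have : (x - y) i * (x - y) i ≤ dot (x - y) (x - y) :=
      Finset.single_le_sum (f := fun i => (x - y) i * (x - y) i) (fun i _ => mul_self_nonneg _) (Finset.mem_univ i)
    rw [Real.norm_eq_abs]
    apply abs_lt_of_sq_lt_sq
    · nlinarith
    · exact hδ.le
  exact (hsub hyb).2

/-- A vertex in the support of `x` is close to `x` (sup norm, `ℓ¹`-normalised). -/
theorem bary_close {S : Sys} {μ : ℝ} {β : S.V → (Fin 3 → ℝ) → ℝ} (hG : S.Good μ) (hβ : S.IsBary β)
    {v : S.V} {x : Fin 3 → ℝ} (hx : x ≠ 0) (h : 0 < β v x) :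
    ‖S.pos v - emb3 ((l1n x)⁻¹ • x)‖ ≤ μ := by
  obtain ⟨t, ht, htv⟩ := hβ.supp x hx
  -- close within a face of `O`
  have hclose : ∀ u ∈ t, ∀ w ∈ t, ‖S.pos u - S.pos w‖ ≤ μ := by
    intro u hu w hw
    have hO : S.c 2 t ≠ 0 ∨ S.c 2 (t.image S.τ) ≠ 0 := by
      by_contra hcon
      push Not at hcon
      apply ht
      change S.c 2 t + S.c 2 (t.image S.τ) = 0
      rw [hcon.1, hcon.2]; simp
    rcases hO with hO | hO
    · exact (hG.c_face 2 (by norm_num) t hO).2.2 u hu w hw
    · have := (hG.c_face 2 (by norm_num) _ hO).2.2 (S.τ u) (Finset.mem_image_of_mem _ hu)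
        (S.τ w) (Finset.mem_image_of_mem _ hw)
      rw [hG.pos_τ, hG.pos_τ] at this
      have e : - S.pos u - - S.pos w = -(S.pos u - S.pos w) := by abel
      rwa [e, norm_neg] at this
  have hvt := htv v h
  rw [← hβ.bary x hx]
  have hs := hβ.sum1 x hx
  have e : S.pos v - ∑ u, β u x • S.pos u = ∑ u, β u x • (S.pos v - S.pos u) := by
    simp only [smul_sub, Finset.sum_sub_distrib]
    rw [← Finset.sum_smul, hs, one_smul]
  rw [e]
  calc ‖∑ u, β u x • (S.pos v - S.pos u)‖
      ≤ ∑ u, ‖β u x • (S.pos v - S.pos u)‖ := norm_sum_le _ _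
    _ ≤ ∑ u, β u x * μ := by
        apply Finset.sum_le_sum
        intro u _
        rw [norm_smul, Real.norm_eq_abs, abs_of_nonneg (hβ.nonneg u x)]
        by_cases hu : 0 < β u x
        · exact mul_le_mul_of_nonneg_left (hclose v hvt u (htv u hu)) (hβ.nonneg u x)
        · have : β u x = 0 := le_antisymm (not_lt.1 hu) (hβ.nonneg u x)
          rw [this]; simp
    _ = μ := by rw [← Finset.sum_mul, hs, one_mul]

/-- Unit vector of the projection to `ℝ³` of a vertex position. -/
noncomputable def u3 (S : Sys) (v : S.V) : Fin 3 → ℝ := unitV (proj3 (S.pos v))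


theorem dot_self_ge_of_l1n {a : Fin 3 → ℝ} (ha : l1n a = 1) : 1 / 3 ≤ dot a a := by
  have h : |a 0| + |a 1| + |a 2| = 1 := by
    simpa [l1n, Fin.sum_univ_three] using ha
  have e : dot a a = |a 0| ^ 2 + |a 1| ^ 2 + |a 2| ^ 2 := by
    simp [dot, Fin.sum_univ_three, sq_abs]
    ring
  rw [e]
  nlinarith [sq_nonneg (|a 0| - |a 1|), sq_nonneg (|a 0| - |a 2|), sq_nonneg (|a 1| - |a 2|)]

/-- Close in sup norm and on the `ℓ¹`-sphere implies line-close after normalisation (here even close):
with constant `20`. -/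
theorem unit_close {a b : Fin 3 → ℝ} {μ : ℝ} (ha : l1n a = 1) (hb : l1n b = 1)
    (h : ‖a - b‖ ≤ μ) : dot (unitV a - unitV b) (unitV a - unitV b) ≤ (20 * μ) ^ 2 := by
  have hμ : 0 ≤ μ := le_trans (norm_nonneg _) h
  have hA := dot_self_ge_of_l1n ha
  have hB := dot_self_ge_of_l1n hb
  set A := Real.sqrt (dot a a) with hAdef
  set B := Real.sqrt (dot b b) with hBdef
  have hA2 : A ^ 2 = dot a a := Real.sq_sqrt (by linarith)
  have hB2 : B ^ 2 = dot b b := Real.sq_sqrt (by linarith)
  have hA0 : 1 / 2 ≤ A := Real.le_sqrt_of_sq_le (by norm_num; linarith)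
  have hB0 : 1 / 2 ≤ B := Real.le_sqrt_of_sq_le (by norm_num; linarith)
  have hApos : 0 < A := by linarith
  have hBpos : 0 < B := by linarith
  have hdi : ∀ i, |a i - b i| ≤ μ := fun i => by
    have := norm_le_pi_norm (a - b) i
    rw [Real.norm_eq_abs, Pi.sub_apply] at this
    exact this.trans h
  have hd2 : dot (a - b) (a - b) ≤ 3 * μ ^ 2 := by
    have hsq : ∀ i, (a i - b i) ^ 2 ≤ μ ^ 2 := fun i => by
      rw [← sq_abs]
      exact pow_le_pow_left₀ (abs_nonneg _) (hdi i) 2
    have := hsq 0; have := hsq 1; have := hsq 2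
    simp only [dot, Fin.sum_univ_three, Pi.sub_apply]
    nlinarith
  have e1 : dot (unitV a - unitV b) (unitV a - unitV b) =
      A⁻¹ ^ 2 * dot a a - 2 * (A⁻¹ * B⁻¹) * dot a b + B⁻¹ ^ 2 * dot b b := by
    have hUa : unitV a = A⁻¹ • a := rfl
    have hUb : unitV b = B⁻¹ • b := rfl
    rw [hUa, hUb]
    simp only [dot, Fin.sum_univ_three, Pi.sub_apply, Pi.smul_apply, smul_eq_mul]
    ring
  have e2 : dot (a - b) (a - b) = dot a a - 2 * dot a b + dot b b := by
    simp only [dot, Fin.sum_univ_three, Pi.sub_apply]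
    ring
  have e3 : dot (unitV a - unitV b) (unitV a - unitV b) * (A * B) = dot (a - b) (a - b) - (A - B) ^ 2 := by
    rw [e1, e2, ← hA2, ← hB2]
    field_simp
    ring
  have hAB : 1 / 4 ≤ A * B := by nlinarith
  have hnn : 0 ≤ dot (unitV a - unitV b) (unitV a - unitV b) := dot_self_nonneg _
  have h5 : dot (unitV a - unitV b) (unitV a - unitV b) * (1 / 4) ≤ 3 * μ ^ 2 := by
    calc dot (unitV a - unitV b) (unitV a - unitV b) * (1 / 4)
        ≤ dot (unitV a - unitV b) (unitV a - unitV b) * (A * B) :=
          mul_le_mul_of_nonneg_left hAB hnn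
      _ = dot (a - b) (a - b) - (A - B) ^ 2 := e3
      _ ≤ 3 * μ ^ 2 := by nlinarith [sq_nonneg (A - B)]
  nlinarith [sq_nonneg μ]

end Crest.Agent.S0069Lib
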