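import Mathlib

/-!
# S0069: mod 2 chains on finite sets of vertices

A chain on `V` is any function `Finset V → ZMod 2` (graded implicitly by the card of the face).
`bd` is the simplicial boundary, `push` the simplicial pushforward (degenerate images are dropped),
`tauC` the relabelling along an involution, `sd` barycentric subdivision (vertices of the subdivision
are the faces of `V`, a simplex of the subdivision is a full flag).
-/

set_option autoImplicit false

namespace Crest.Agent.S0069Lib

open Finset

/-- Mod 2 chains. -/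
abbrev Chain (V : Type) := Finset V → ZMod 2

section Defs
variable {V W : Type} [DecidableEq V] [Fintype V] [DecidableEq W] [Fintype W]

/-- Boundary: `(bd c) F = ∑_{v ∉ F} c (insert v F)`. -/
def bd (c : Chain V) : Chain V := fun F => ∑ v ∈ Fᶜ, c (insert v F)

/-- Pushforward along a vertex map. Only faces on which `f` is injective contribute. -/
def push (f : V → W) (c : Chain V) : Chain W := fun G =>
  ∑ F ∈ (univ : Finset (Finset V)).filter (fun F => F.image f = G ∧ F.card = G.card), c F

/-- Pairing of a chain with a cochain. -/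
def pair (c : Chain V) (φ : Finset V → ZMod 2) : ZMod 2 := ∑ F, c F * φ F

/-- Relabelling along an involution: `(tauC τ c) F = c (τ F)`. -/
def tauC (τ : V → V) (c : Chain V) : Chain V := fun F => c (F.image τ)

/-- A full flag: a chain of nonempty subsets, one of each size `1..|⋃𝔽|`. -/
def IsFullFlag (𝔽 : Finset (Finset V)) : Prop :=
  ∅ ∉ 𝔽 ∧ (∀ A ∈ 𝔽, ∀ B ∈ 𝔽, A ⊆ B ∨ B ⊆ A) ∧ 𝔽.card = (𝔽.biUnion id).card

open Classical in
/-- Barycentric subdivision of a chain: the coefficient of a full flag is the coefficient of its union. -/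
noncomputable def sd (c : Chain V) : Chain (Finset V) := fun 𝔽 =>
  if IsFullFlag 𝔽 then c (𝔽.biUnion id) else 0

end Defs

section Thms
variable {V W : Type} [DecidableEq V] [Fintype V] [DecidableEq W] [Fintype W]

private theorem two_zero (x : ZMod 2) : x + x = 0 := CharTwo.add_self_eq_zero x

theorem bd_bd (c : Chain V) : bd (bd c) = 0 := by
  funext F
  simp only [bd, Pi.zero_apply]
  rw [Finset.sum_sigma']
  refine Finset.sum_involution (fun x _ => ⟨x.2, x.1⟩) ?_ ?_ ?_ ?_
  · rintro ⟨v, w⟩ hx
    have hx' := Finset.mem_sigma.mp hx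
    simp only [Finset.mem_compl, Finset.mem_insert, not_or] at hx'
    have : insert v (insert w F) = insert w (insert v F) := Finset.insert_comm _ _ _
    simp only [this]
    exact two_zero _
  · rintro ⟨v, w⟩ hx _ h
    have hx' := Finset.mem_sigma.mp hx
    simp only [Finset.mem_compl, Finset.mem_insert, not_or] at hx'
    simp only [Sigma.mk.injEq, heq_eq_eq] at h
    exact hx'.2.1 h.1
  · rintro ⟨v, w⟩ hx
    have hx' := Finset.mem_sigma.mp hx
    simp only [Finset.mem_compl, Finset.mem_insert, not_or] at hx'
    simp only [Finset.mem_sigma, Finset.mem_compl, Finset.mem_insert, not_or]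
    exact ⟨hx'.2.2, fun h => hx'.2.1 h.symm, hx'.1⟩
  · rintro ⟨v, w⟩ _
    rfl

omit [DecidableEq V] [Fintype V] [Fintype W] in
private theorem injOn_of_card {f : V → W} {F : Finset V} {G : Finset W}
    (h : F.image f = G ∧ F.card = G.card) : Set.InjOn f (F : Set V) := by
  have : (F.image f).card = F.card := by rw [h.1]; exact h.2.symm
  exact Finset.card_image_iff.mp this

/-- `push` is a chain map. -/
theorem bd_push (f : V → W) (c : Chain V) : bd (push f c) = push f (bd c) := by
  classical
  funext G
  simp only [bd, push]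
  -- the right hand side as a sum over pairs
  rw [Finset.sum_sigma' (s := Gᶜ), Finset.sum_sigma'
    (s := (univ : Finset (Finset V)).filter (fun F => F.image f = G ∧ F.card = G.card))]
  set T := (Gᶜ).sigma (fun w => (univ : Finset (Finset V)).filter
    (fun F => F.image f = insert w G ∧ F.card = (insert w G).card)) with hT
  set S := ((univ : Finset (Finset V)).filter (fun F => F.image f = G ∧ F.card = G.card)).sigma
    (fun F => Fᶜ) with hS
  -- split `S`
  rw [← Finset.sum_filter_add_sum_filter_not S (fun x => f x.2 ∈ G)]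
  have h0 : ∑ x ∈ S.filter (fun x => f x.2 ∈ G), c (insert x.2 x.1) = 0 := by
    -- the twin element
    have hex : ∀ x ∈ S.filter (fun x => f x.2 ∈ G), ∃ v' ∈ x.1, f v' = f x.2 := by
      intro x hx
      have hx' := Finset.mem_filter.mp hx
      have hx2 := (Finset.mem_sigma.mp hx'.1).1
      have hx3 := (Finset.mem_filter.mp hx2).2
      have : f x.2 ∈ x.1.image f := by rw [hx3.1]; exact hx'.2
      obtain ⟨v', hv', hv''⟩ := Finset.mem_image.mp this
      exact ⟨v', hv', hv''⟩
    let tw : (x : Σ _ : Finset V, V) → x ∈ S.filter (fun x => f x.2 ∈ G) → V :=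
      fun x hx => (hex x hx).choose
    have tw_mem : ∀ x hx, tw x hx ∈ x.1 := fun x hx => (hex x hx).choose_spec.1
    have tw_f : ∀ x hx, f (tw x hx) = f x.2 := fun x hx => (hex x hx).choose_spec.2
    have memS : ∀ x, x ∈ S.filter (fun x => f x.2 ∈ G) ↔
        ((x.1.image f = G ∧ x.1.card = G.card) ∧ x.2 ∉ x.1) ∧ f x.2 ∈ G := by
      intro x
      simp [hS, Finset.mem_filter, Finset.mem_sigma]
    -- the new pair
    let g : (x : Σ _ : Finset V, V) → x ∈ S.filter (fun x => f x.2 ∈ G) → (Σ _ : Finset V, V) :=
      fun x hx => ⟨insert x.2 (x.1.erase (tw x hx)), tw x hx⟩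
    have key : ∀ x hx, (g x hx).1.image f = G ∧ (g x hx).1.card = G.card ∧
        (g x hx).2 ∉ (g x hx).1 ∧ f (g x hx).2 ∈ G ∧ insert (g x hx).2 (g x hx).1 = insert x.2 x.1 := by
      intro x hx
      obtain ⟨⟨⟨h1, h2⟩, h3⟩, h4⟩ := (memS x).mp hx
      have hinj := injOn_of_card ⟨h1, h2⟩
      have hne : tw x hx ≠ x.2 := fun h => h3 (h ▸ tw_mem x hx)
      have hnot : x.2 ∉ x.1.erase (tw x hx) := fun h => h3 (Finset.mem_of_mem_erase h)
      refine ⟨?_, ?_, ?_, ?_, ?_⟩
      · ext y
        simp only [g, Finset.mem_image, Finset.mem_insert, Finset.mem_erase]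
        constructor
        · rintro ⟨a, rfl | ⟨_, ha⟩, rfl⟩
          · exact h4
          · rw [← h1]; exact Finset.mem_image_of_mem f ha
        · intro hy
          rw [← h1] at hy
          obtain ⟨a, ha, rfl⟩ := Finset.mem_image.mp hy
          by_cases hat : a = tw x hx
          · exact ⟨x.2, Or.inl rfl, by rw [hat, tw_f x hx]⟩
          · exact ⟨a, Or.inr ⟨hat, ha⟩, rfl⟩
      · simp only [g]
        rw [Finset.card_insert_of_notMem hnot, Finset.card_erase_of_mem (tw_mem x hx), ← h2]
        have : 0 < x.1.card := Finset.card_pos.mpr ⟨_, tw_mem x hx⟩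
        omega
      · simp only [g, Finset.mem_insert, Finset.mem_erase, not_or, not_and]
        exact ⟨hne, fun h => absurd rfl h⟩
      · simp only [g]
        rw [tw_f x hx]; exact h4
      · simp only [g]
        rw [Finset.insert_comm, Finset.insert_erase (tw_mem x hx)]
    refine Finset.sum_involution g ?_ ?_ ?_ ?_
    · intro x hx
      rw [(key x hx).2.2.2.2]
      exact two_zero _
    · intro x hx _ h
      obtain ⟨⟨⟨h1, h2⟩, h3⟩, h4⟩ := (memS x).mp hx
      have h5 : (g x hx).2 = x.2 := by rw [h]
      exact h3 (h5 ▸ tw_mem x hx)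
    · intro x hx
      obtain ⟨k1, k2, k3, k4, _⟩ := key x hx
      exact (memS _).mpr ⟨⟨⟨k1, k2⟩, k3⟩, k4⟩
    · intro x hx
      obtain ⟨⟨⟨h1, h2⟩, h3⟩, h4⟩ := (memS x).mp hx
      obtain ⟨k1, k2, k3, k4, k5⟩ := key x hx
      have hmem : g x hx ∈ S.filter (fun x => f x.2 ∈ G) := (memS _).mpr ⟨⟨⟨k1, k2⟩, k3⟩, k4⟩
      have hinj := injOn_of_card (F := (g x hx).1) ⟨k1, k2⟩
      -- the twin of the twin is the original element
      have htw : tw (g x hx) hmem = x.2 := by
        apply hinj (tw_mem _ hmem)
        · simp only [g, Finset.coe_insert, Set.mem_insert_iff, true_or]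
        · rw [tw_f (g x hx) hmem]
          simp only [g]
          exact tw_f x hx
      refine Sigma.ext ?_ ?_
      · simp only [g] at htw ⊢
        rw [htw]
        have hne : tw x hx ≠ x.2 := fun h => h3 (h ▸ tw_mem x hx)
        rw [Finset.erase_insert_eq_erase, Finset.erase_eq_of_notMem (by
          simp [Finset.mem_erase, h3])]
        exact Finset.insert_erase (tw_mem x hx)
      · simp only [g] at htw ⊢
        exact heq_of_eq htw
  rw [h0, zero_add]
  -- bijection
  symm
  refine Finset.sum_bij (fun x _ => (⟨f x.2, insert x.2 x.1⟩ : Σ _ : W, Finset V)) ?_ ?_ ?_ ?_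
  · intro x hx
    have hx' := Finset.mem_filter.mp hx
    have hx1 := Finset.mem_sigma.mp hx'.1
    have hx2 := (Finset.mem_filter.mp hx1.1).2
    have hx3 : x.2 ∉ x.1 := by simpa using hx1.2
    simp only [hT, Finset.mem_sigma, Finset.mem_compl, Finset.mem_filter, Finset.mem_univ, true_and]
    refine ⟨hx'.2, ?_, ?_⟩
    · rw [Finset.image_insert, hx2.1]
    · rw [Finset.card_insert_of_notMem hx3, Finset.card_insert_of_notMem hx'.2, hx2.2]
  · intro x hx y hy hxy
    have hx' := Finset.mem_filter.mp hx
    have hx1 := Finset.mem_sigma.mp hx'.1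
    have hx2 := (Finset.mem_filter.mp hx1.1).2
    have hx3 : x.2 ∉ x.1 := by simpa using hx1.2
    have hy' := Finset.mem_filter.mp hy
    have hy1 := Finset.mem_sigma.mp hy'.1
    have hy3 : y.2 ∉ y.1 := by simpa using hy1.2
    simp only [Sigma.mk.injEq, heq_eq_eq] at hxy
    obtain ⟨h1, h2⟩ := hxy
    have hcard : (insert x.2 x.1).card = (insert (f x.2) G).card := by
      rw [Finset.card_insert_of_notMem hx3, Finset.card_insert_of_notMem hx'.2, hx2.2]
    have himg : (insert x.2 x.1).image f = insert (f x.2) G := by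
      rw [Finset.image_insert, hx2.1]
    have hinj := injOn_of_card ⟨himg, hcard⟩
    have h3 : x.2 = y.2 := by
      apply hinj (by simp)
      · rw [Finset.mem_coe, h2]; simp
      · exact h1
    refine Sigma.ext ?_ (heq_of_eq h3)
    have := congrArg (fun s => s.erase x.2) h2
    simp only [Finset.erase_insert hx3] at this
    rw [this, h3, Finset.erase_insert hy3]
  · intro y hy
    have hy1 := Finset.mem_sigma.mp hy
    have hy2 : y.1 ∉ G := by simpa using hy1.1
    have hy3 := (Finset.mem_filter.mp hy1.2).2
    have hinj := injOn_of_card hy3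
    have : y.1 ∈ y.2.image f := by rw [hy3.1]; simp
    obtain ⟨v, hv, hfv⟩ := Finset.mem_image.mp this
    refine ⟨⟨y.2.erase v, v⟩, ?_, ?_⟩
    · simp only [hS, Finset.mem_filter, Finset.mem_sigma, Finset.mem_univ, true_and,
        Finset.mem_compl, Finset.mem_erase, ne_eq, not_true_eq_false, false_and, not_false_eq_true,
        and_true]
      refine ⟨?_, by rw [hfv]; exact hy2⟩
      constructor
      · ext w
        simp only [Finset.mem_image, Finset.mem_erase]
        constructor
        · rintro ⟨a, ⟨hav, ha⟩, rfl⟩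
          have h1 : f a ∈ y.2.image f := Finset.mem_image_of_mem f ha
          rw [hy3.1] at h1
          rcases Finset.mem_insert.mp h1 with h1 | h1
          · exact absurd (hinj ha hv (h1.trans hfv.symm)) hav
          · exact h1
        · intro hw
          have h1 : w ∈ y.2.image f := by rw [hy3.1]; exact Finset.mem_insert_of_mem hw
          obtain ⟨a, ha, rfl⟩ := Finset.mem_image.mp h1
          refine ⟨a, ⟨?_, ha⟩, rfl⟩
          rintro rfl
          exact hy2 (hfv ▸ hw)
      · rw [Finset.card_erase_of_mem hv, hy3.2, Finset.card_insert_of_notMem hy2]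
        simp
    · refine Sigma.ext hfv ?_
      simp only [heq_eq_eq]
      exact Finset.insert_erase hv
  · intro x _
    rfl

/-- Duality for `bd`: `⟨bd c, φ⟩ = ∑_F c F * ∑_{v ∈ F} φ (F \ v)`. -/
theorem pair_bd (c : Chain V) (φ : Finset V → ZMod 2) :
    pair (bd c) φ = ∑ F, c F * ∑ v ∈ F, φ (F.erase v) := by
  simp only [pair, bd, Finset.sum_mul, Finset.mul_sum]
  rw [Finset.sum_sigma', Finset.sum_sigma']
  refine Finset.sum_bij' (fun x _ => ⟨insert x.2 x.1, x.2⟩) (fun x _ => ⟨x.1.erase x.2, x.2⟩)
    ?_ ?_ ?_ ?_ ?_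
  · intro x _; simp
  · intro x _; simp
  · rintro ⟨F, v⟩ hx
    have hv : v ∉ F := by simpa using hx
    simp [Finset.erase_insert hv]
  · rintro ⟨F, v⟩ hx
    have hv : v ∈ F := by simpa using hx
    simp [Finset.insert_erase hv]
  · rintro ⟨F, v⟩ hx
    have hv : v ∉ F := by simpa using hx
    simp [Finset.erase_insert hv]

/-- Duality for `push`, for a cochain which vanishes when pulled back to non-injective faces. -/
theorem pair_push (f : V → W) (c : Chain V) (φ : Finset W → ZMod 2) (ψ : Finset V → ZMod 2)
    (h1 : ∀ F : Finset V, Set.InjOn f (F : Set V) → ψ F = φ (F.image f))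
    (h2 : ∀ F : Finset V, ¬ Set.InjOn f (F : Set V) → ψ F = 0) :
    pair c ψ = pair (push f c) φ := by
  classical
  simp only [pair, push, Finset.sum_mul]
  have : ∀ G : Finset W, ∑ F ∈ (univ : Finset (Finset V)).filter
      (fun F => F.image f = G ∧ F.card = G.card), c F * φ G
      = ∑ F : Finset V, if F.image f = G ∧ F.card = G.card then c F * φ G else 0 := by
    intro G
    rw [Finset.sum_filter]
  simp only [this]
  rw [Finset.sum_comm]
  refine Finset.sum_congr rfl fun F _ => ?_
  by_cases hF : Set.InjOn f (F : Set V)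
  · rw [h1 F hF, Finset.sum_eq_single (F.image f)]
    · have : (F.image f).card = F.card := Finset.card_image_iff.mpr hF
      simp [this]
    · intro G _ hG
      rw [if_neg]
      rintro ⟨h, _⟩
      exact hG h.symm
    · intro h; exact absurd (Finset.mem_univ _) h
  · rw [h2 F hF, mul_zero, Finset.sum_eq_zero]
    intro G _
    rw [if_neg]
    intro h
    exact hF (injOn_of_card h)

theorem tauC_tauC {τ : V → V} (hτ : ∀ v, τ (τ v) = v) (c : Chain V) : tauC τ (tauC τ c) = c := by
  funext F
  simp only [tauC, Finset.image_image]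
  have : τ ∘ τ = id := funext hτ
  rw [this, Finset.image_id]

theorem bd_tauC {τ : V → V} (hτ : ∀ v, τ (τ v) = v) (c : Chain V) :
    bd (tauC τ c) = tauC τ (bd c) := by
  funext F
  simp only [bd, tauC]
  have hinj : Function.Injective τ := fun a b h => by rw [← hτ a, ← hτ b, h]
  refine Finset.sum_nbij' τ τ ?_ ?_ ?_ ?_ ?_
  · intro v hv
    simp only [Finset.mem_compl, Finset.mem_image, not_exists, not_and] at hv ⊢
    intro x hx h
    exact hv (hinj h ▸ hx)
  · intro v hv
    simp only [Finset.mem_compl] at hv ⊢
    intro h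
    exact hv (Finset.mem_image.mpr ⟨τ v, h, hτ v⟩)
  · intro v _; exact hτ v
  · intro v _; exact hτ v
  · intro v _
    rw [Finset.image_insert]

/-! ### Flags -/

private theorem flag_eq_of_card {𝔽 : Finset (Finset V)} (h : IsFullFlag 𝔽) {A B : Finset V}
    (hA : A ∈ 𝔽) (hB : B ∈ 𝔽) (hc : A.card = B.card) : A = B := by
  rcases h.2.1 A hA B hB with h1 | h1
  · exact Finset.eq_of_subset_of_card_le h1 hc.ge
  · exact (Finset.eq_of_subset_of_card_le h1 hc.le).symm

private theorem flag_sub {𝔽 : Finset (Finset V)} {A : Finset V} (hA : A ∈ 𝔽) :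
    A ⊆ 𝔽.biUnion id := fun x hx => Finset.mem_biUnion.mpr ⟨A, hA, hx⟩

private theorem flag_level {𝔽 : Finset (Finset V)} (h : IsFullFlag 𝔽) {i : ℕ} (h1 : 1 ≤ i)
    (h2 : i ≤ (𝔽.biUnion id).card) : ∃ X ∈ 𝔽, X.card = i := by
  have hsub : 𝔽.image Finset.card ⊆ Finset.Icc 1 (𝔽.biUnion id).card := by
    intro n hn
    obtain ⟨A, hA, rfl⟩ := Finset.mem_image.mp hn
    refine Finset.mem_Icc.mpr ⟨?_, Finset.card_le_card (flag_sub hA)⟩
    refine Finset.card_pos.mpr (Finset.nonempty_iff_ne_empty.mpr ?_)
    rintro rfl
    exact h.1 hA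
  have hcard : (𝔽.image Finset.card).card = 𝔽.card :=
    Finset.card_image_of_injOn (fun A hA B hB hc => flag_eq_of_card h hA hB hc)
  have heq : 𝔽.image Finset.card = Finset.Icc 1 (𝔽.biUnion id).card := by
    apply Finset.eq_of_subset_of_card_le hsub
    rw [hcard, h.2.2]; simp
  have : i ∈ 𝔽.image Finset.card := by rw [heq]; exact Finset.mem_Icc.mpr ⟨h1, h2⟩
  obtain ⟨X, hX, rfl⟩ := Finset.mem_image.mp this
  exact ⟨X, hX, rfl⟩

private theorem biUnion_insert_id (H : Finset V) (𝔾 : Finset (Finset V)) :
    (insert H 𝔾).biUnion id = H ∪ 𝔾.biUnion id := by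
  rw [Finset.biUnion_insert]; rfl

open Classical in
/-- The non-full case of `bd_sd`: gap fillers come in pairs. -/
private theorem bd_sd_not_full (c : Chain V) (𝔾 : Finset (Finset V)) (hG : ¬ IsFullFlag 𝔾) :
    ∑ H ∈ 𝔾ᶜ, sd c (insert H 𝔾) = 0 := by
  rw [← Finset.sum_filter_add_sum_filter_not (𝔾ᶜ) (fun H => IsFullFlag (insert H 𝔾))]
  have h2 : ∑ H ∈ (𝔾ᶜ).filter (fun H => ¬ IsFullFlag (insert H 𝔾)), sd c (insert H 𝔾) = 0 := by
    apply Finset.sum_eq_zero
    intro H hH
    simp only [sd, if_neg (Finset.mem_filter.mp hH).2]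
  rw [h2, add_zero]
  -- the involution
  let A : Finset V → Finset V := fun H =>
    (𝔾.filter (fun X => X.card + 1 = H.card)).biUnion id
  let B : Finset V → Finset V := fun H =>
    (𝔾.filter (fun X => X.card = H.card + 1)).biUnion id
  let g : Finset V → Finset V := fun H => A H ∪ (B H \ H)
  -- structure of a gap filler
  have key : ∀ H ∈ (𝔾ᶜ).filter (fun H => IsFullFlag (insert H 𝔾)),
      H.Nonempty ∧ B H ∈ 𝔾 ∧ (B H).card = H.card + 1 ∧ H ⊆ B H ∧ A H ⊆ H ∧ (A H).card + 1 = H.card ∧
      (∀ X ∈ 𝔾, X.card ≠ H.card) ∧ (∀ X ∈ 𝔾, X.card < H.card → X ⊆ A H) ∧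
      (∀ X ∈ 𝔾, H.card < X.card → B H ⊆ X) := by
    intro H hH
    obtain ⟨hH1, hF⟩ := Finset.mem_filter.mp hH
    have hH1' : H ∉ 𝔾 := by simpa using hH1
    have hHne : H.Nonempty :=
      Finset.nonempty_iff_ne_empty.mpr (fun h => hF.1 (by rw [h]; exact Finset.mem_insert_self _ _))
    have hmem : ∀ X ∈ 𝔾, X ∈ insert H 𝔾 := fun X hX => Finset.mem_insert_of_mem hX
    have hHmem : H ∈ insert H 𝔾 := Finset.mem_insert_self _ _
    have hno : ∀ X ∈ 𝔾, X.card ≠ H.card := by
      intro X hX hc
      exact hH1' (flag_eq_of_card hF (hmem X hX) hHmem hc ▸ hX)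
    -- `H` is not the top
    have hnottop : H.card < ((insert H 𝔾).biUnion id).card := by
      refine lt_of_le_of_ne (Finset.card_le_card (flag_sub hHmem)) ?_
      intro hc
      apply hG
      have hHtop : (insert H 𝔾).biUnion id = H :=
        (Finset.eq_of_subset_of_card_le (flag_sub hHmem) hc.ge).symm
      have hsubs : ∀ X ∈ 𝔾, X ⊂ H := by
        intro X hX
        have hsub : X ⊆ H := by
          have := flag_sub (hmem X hX)
          rwa [hHtop] at this
        exact Finset.ssubset_iff_subset_ne.mpr ⟨hsub, fun h => hH1' (h ▸ hX)⟩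
      have hcardG : 𝔾.card + 1 = H.card := by
        have := hF.2.2
        rw [Finset.card_insert_of_notMem hH1', hHtop] at this
        exact this
      refine ⟨fun h => hF.1 (Finset.mem_insert_of_mem h), ?_, ?_⟩
      · intro X hX Y hY
        exact hF.2.1 X (hmem X hX) Y (hmem Y hY)
      · -- the union of the rest is the element of level `card H - 1`
        by_cases hk : H.card = 1
        · have h0 : 𝔾.card = 0 := by omega
          have : 𝔾 = ∅ := Finset.card_eq_zero.mp h0
          simp [this]
        · have hk2 : 1 ≤ H.card - 1 := by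
            have := Finset.card_pos.mpr hHne
            omega
          obtain ⟨Y, hY, hYc⟩ := flag_level hF hk2 (by rw [hc]; omega)
          have hYG : Y ∈ 𝔾 := by
            rcases Finset.mem_insert.mp hY with h | h
            · subst h
              have := Finset.card_pos.mpr hHne
              omega
            · exact h
          have hU : 𝔾.biUnion id = Y := by
            apply Finset.Subset.antisymm
            · apply Finset.biUnion_subset.mpr
              intro X hX
              rcases hF.2.1 X (hmem X hX) Y (hmem Y hYG) with h | h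
              · exact h
              · have h1 : X.card ≤ Y.card := by
                  have h3 := Finset.card_lt_card (hsubs X hX)
                  omega
                have := Finset.eq_of_subset_of_card_le h h1
                simp only [id, this]
                exact Finset.Subset.refl _
            · exact flag_sub hYG
          rw [hU, hYc]
          omega
    obtain ⟨Bx, hBx, hBc⟩ := flag_level hF (i := H.card + 1) (by omega) (by omega)
    have hBxG : Bx ∈ 𝔾 := by
      rcases Finset.mem_insert.mp hBx with h | h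
      · subst h; omega
      · exact h
    have hBfilter : 𝔾.filter (fun X => X.card = H.card + 1) = {Bx} := by
      ext X
      simp only [Finset.mem_filter, Finset.mem_singleton]
      constructor
      · rintro ⟨hX, hXc⟩
        exact flag_eq_of_card hF (hmem X hX) hBx (hXc.trans hBc.symm)
      · rintro rfl
        exact ⟨hBxG, hBc⟩
    have hBeq : B H = Bx := by
      simp only [B, hBfilter, Finset.singleton_biUnion, id]
    have hHB : H ⊆ Bx := by
      rcases hF.2.1 H hHmem Bx hBx with h | h
      · exact h
      · have := Finset.card_le_card h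
        omega
    -- the lower neighbour
    have hAprop : A H ⊆ H ∧ (A H).card + 1 = H.card ∧ (∀ X ∈ 𝔾, X.card < H.card → X ⊆ A H) := by
      by_cases hk : H.card = 1
      · have hfilt : 𝔾.filter (fun X => X.card + 1 = H.card) = ∅ := by
          ext X
          simp only [Finset.mem_filter, Finset.notMem_empty, iff_false, not_and]
          intro hX hXc
          have : X.card = 0 := by omega
          exact hF.1 (by
            rw [← Finset.card_eq_zero.mp this]
            exact hmem X hX)
        have hA0 : A H = ∅ := by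
          simp only [A, hfilt, Finset.biUnion_empty]
        rw [hA0]
        refine ⟨Finset.empty_subset _, by simp [hk], ?_⟩
        intro X hX hXc
        have : X.card = 0 := by omega
        exact absurd (by rw [← Finset.card_eq_zero.mp this]; exact hmem X hX) hF.1
      · have hpos := Finset.card_pos.mpr hHne
        obtain ⟨Ax, hAx, hAc⟩ := flag_level hF (i := H.card - 1) (by omega) (by omega)
        have hAxG : Ax ∈ 𝔾 := by
          rcases Finset.mem_insert.mp hAx with h | h
          · subst h; omega
          · exact h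
        have hAfilter : 𝔾.filter (fun X => X.card + 1 = H.card) = {Ax} := by
          ext X
          simp only [Finset.mem_filter, Finset.mem_singleton]
          constructor
          · rintro ⟨hX, hXc⟩
            exact flag_eq_of_card hF (hmem X hX) hAx (by omega)
          · rintro rfl
            exact ⟨hAxG, by omega⟩
        have hAeq : A H = Ax := by
          simp only [A, hAfilter, Finset.singleton_biUnion, id]
        rw [hAeq]
        refine ⟨?_, by omega, ?_⟩
        · rcases hF.2.1 Ax hAx H hHmem with h | h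
          · exact h
          · have := Finset.card_le_card h
            omega
        · intro X hX hXc
          rcases hF.2.1 X (hmem X hX) Ax hAx with h | h
          · exact h
          · have h1 : X.card ≤ Ax.card := by omega
            exact (Finset.eq_of_subset_of_card_le h h1).symm ▸ Finset.Subset.refl _
    refine ⟨hHne, hBeq ▸ hBxG, hBeq ▸ hBc, hBeq ▸ hHB, hAprop.1, hAprop.2.1, hno, hAprop.2.2, ?_⟩
    intro X hX hXc
    rw [hBeq]
    rcases hF.2.1 X (hmem X hX) Bx hBx with h | h
    · have h1 := Finset.card_le_card h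
      have : X.card = Bx.card := by omega
      exact (flag_eq_of_card hF (hmem X hX) hBx this) ▸ Finset.Subset.refl _
    · exact h
  -- properties of `g H`
  have gcard : ∀ H ∈ (𝔾ᶜ).filter (fun H => IsFullFlag (insert H 𝔾)), (g H).card = H.card := by
    intro H hH
    obtain ⟨_, _, hBc, hHB, hAH, hAc, _⟩ := key H hH
    have hdisj : Disjoint (A H) (B H \ H) :=
      Finset.disjoint_left.mpr (fun x hx hx' => (Finset.mem_sdiff.mp hx').2 (hAH hx))
    simp only [g]
    rw [Finset.card_union_of_disjoint hdisj, Finset.card_sdiff_of_subset hHB]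
    omega
  have gA : ∀ H ∈ (𝔾ᶜ).filter (fun H => IsFullFlag (insert H 𝔾)), A (g H) = A H ∧ B (g H) = B H := by
    intro H hH
    have := gcard H hH
    simp only [A, B, this, and_self]
  have gU : ∀ H ∈ (𝔾ᶜ).filter (fun H => IsFullFlag (insert H 𝔾)),
      (insert H 𝔾).biUnion id = 𝔾.biUnion id ∧ (insert (g H) 𝔾).biUnion id = 𝔾.biUnion id := by
    intro H hH
    obtain ⟨_, hBG, _, hHB, hAH, _⟩ := key H hH
    have hBU := flag_sub hBG
    rw [biUnion_insert_id, biUnion_insert_id]
    constructor
    · exact Finset.union_eq_right.mpr (hHB.trans hBU)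
    · refine Finset.union_eq_right.mpr ?_
      apply Finset.union_subset (hAH.trans (hHB.trans hBU))
      exact Finset.sdiff_subset.trans hBU
  have gmem : ∀ H (hH : H ∈ (𝔾ᶜ).filter (fun H => IsFullFlag (insert H 𝔾))),
      g H ∈ (𝔾ᶜ).filter (fun H => IsFullFlag (insert H 𝔾)) := by
    intro H hH
    obtain ⟨hHne, hBG, hBc, hHB, hAH, hAc, hno, hlow, hhigh⟩ := key H hH
    obtain ⟨hH1, hF⟩ := Finset.mem_filter.mp hH
    have hH1' : H ∉ 𝔾 := by simpa using hH1
    have hgc := gcard H hH
    have hgnot : g H ∉ 𝔾 := fun h => hno _ h hgc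
    refine Finset.mem_filter.mpr ⟨by simpa using hgnot, ?_, ?_, ?_⟩
    · rw [Finset.mem_insert, not_or]
      refine ⟨?_, fun h => hF.1 (Finset.mem_insert_of_mem h)⟩
      intro h
      have : (g H).card = 0 := by rw [← h]; simp
      have := Finset.card_pos.mpr hHne
      omega
    · have hcomp : ∀ X ∈ 𝔾, X ⊆ g H ∨ g H ⊆ X := by
        intro X hX
        rcases lt_trichotomy X.card H.card with h | h | h
        · left
          exact (hlow X hX h).trans Finset.subset_union_left
        · exact absurd h (hno X hX)
        · right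
          apply Finset.union_subset (hAH.trans (hHB.trans (hhigh X hX h)))
          exact Finset.sdiff_subset.trans (hhigh X hX h)
      intro X hX Y hY
      rcases Finset.mem_insert.mp hX with rfl | hX'
      · rcases Finset.mem_insert.mp hY with rfl | hY'
        · exact Or.inl (Finset.Subset.refl _)
        · exact (hcomp Y hY').symm
      · rcases Finset.mem_insert.mp hY with rfl | hY'
        · exact hcomp X hX'
        · exact hF.2.1 X (Finset.mem_insert_of_mem hX') Y (Finset.mem_insert_of_mem hY')
    · rw [(gU H hH).2, Finset.card_insert_of_notMem hgnot]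
      have := hF.2.2
      rw [(gU H hH).1, Finset.card_insert_of_notMem hH1'] at this
      exact this
  refine Finset.sum_involution (fun H _ => g H) ?_ ?_ ?_ ?_
  · intro H hH
    have hF := (Finset.mem_filter.mp hH).2
    have hF' := (Finset.mem_filter.mp (gmem H hH)).2
    simp only [sd, if_pos hF, if_pos hF', (gU H hH).1, (gU H hH).2]
    exact two_zero _
  · intro H hH _ h
    obtain ⟨_, _, hBc, hHB, hAH, hAc, _⟩ := key H hH
    -- `B \ H` is nonempty and disjoint from `H`
    have hlt : H ⊂ B H := Finset.ssubset_iff_subset_ne.mpr ⟨hHB, fun h' => by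
      have := congrArg Finset.card h'; omega⟩
    obtain ⟨x, hx, hx'⟩ := Finset.exists_of_ssubset hlt
    have : x ∈ g H := Finset.mem_union_right _ (Finset.mem_sdiff.mpr ⟨hx, hx'⟩)
    rw [h] at this
    exact hx' this
  · exact gmem
  · intro H hH
    obtain ⟨_, _, hBc, hHB, hAH, hAc, _⟩ := key H hH
    obtain ⟨hA', hB'⟩ := gA H hH
    show A (g H) ∪ (B (g H) \ g H) = H
    rw [hA', hB']
    simp only [g]
    ext x
    simp only [Finset.mem_union, Finset.mem_sdiff, not_or, not_and, not_not]
    constructor
    · rintro (h | ⟨h1, h2, h3⟩)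
      · exact hAH h
      · exact h3 h1
    · intro h
      by_cases hxA : x ∈ A H
      · exact Or.inl hxA
      · exact Or.inr ⟨hHB h, hxA, fun _ => h⟩

open Classical in
/-- The full case of `bd_sd`. -/
private theorem bd_sd_full (c : Chain V) (𝔾 : Finset (Finset V)) (hG : IsFullFlag 𝔾) :
    ∑ H ∈ 𝔾ᶜ, sd c (insert H 𝔾) = ∑ v ∈ (𝔾.biUnion id)ᶜ, c (insert v (𝔾.biUnion id)) := by
  set U := 𝔾.biUnion id with hU
  rw [← Finset.sum_filter_add_sum_filter_not (𝔾ᶜ) (fun H => IsFullFlag (insert H 𝔾))]
  have h2 : ∑ H ∈ (𝔾ᶜ).filter (fun H => ¬ IsFullFlag (insert H 𝔾)), sd c (insert H 𝔾) = 0 := by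
    apply Finset.sum_eq_zero
    intro H hH
    simp only [sd, if_neg (Finset.mem_filter.mp hH).2]
  rw [h2, add_zero]
  symm
  -- facts for `insert v U`
  have hmemG : ∀ X ∈ 𝔾, X ⊆ U := fun X hX => flag_sub hX
  have hnew : ∀ v, v ∉ U → insert v U ∉ 𝔾 ∧ IsFullFlag (insert (insert v U) 𝔾) ∧
      (insert (insert v U) 𝔾).biUnion id = insert v U := by
    intro v hv
    have hnot : insert v U ∉ 𝔾 := fun h => hv (hmemG _ h (Finset.mem_insert_self _ _))
    have hun : (insert (insert v U) 𝔾).biUnion id = insert v U := by
      rw [biUnion_insert_id]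
      exact Finset.union_eq_left.mpr (Finset.subset_insert _ _)
    refine ⟨hnot, ⟨?_, ?_, ?_⟩, hun⟩
    · rw [Finset.mem_insert, not_or]
      exact ⟨fun h => by
        have : v ∈ (∅ : Finset V) := by rw [h]; exact Finset.mem_insert_self _ _
        simp at this, hG.1⟩
    · intro X hX Y hY
      rcases Finset.mem_insert.mp hX with rfl | hX'
      · rcases Finset.mem_insert.mp hY with rfl | hY'
        · exact Or.inl (Finset.Subset.refl _)
        · exact Or.inr ((hmemG Y hY').trans (Finset.subset_insert _ _))
      · rcases Finset.mem_insert.mp hY with rfl | hY'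
        · exact Or.inl ((hmemG X hX').trans (Finset.subset_insert _ _))
        · exact hG.2.1 X hX' Y hY'
    · rw [hun, Finset.card_insert_of_notMem hnot, Finset.card_insert_of_notMem hv, hG.2.2]
  refine Finset.sum_bij (fun v _ => insert v U) ?_ ?_ ?_ ?_
  · intro v hv
    have hv' : v ∉ U := by simpa using hv
    obtain ⟨h1, h2, _⟩ := hnew v hv'
    exact Finset.mem_filter.mpr ⟨by simpa using h1, h2⟩
  · intro v hv w hw h
    have hv' : v ∉ U := by simpa using hv
    have hw' : w ∉ U := by simpa using hw
    have := congrArg (fun s => s \ U) h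
    have h1 : v ∈ insert w U := by rw [← h]; exact Finset.mem_insert_self _ _
    rcases Finset.mem_insert.mp h1 with h1 | h1
    · exact h1
    · exact absurd h1 hv'
  · intro H hH
    obtain ⟨hH1, hF⟩ := Finset.mem_filter.mp hH
    have hH1' : H ∉ 𝔾 := by simpa using hH1
    have hc : 𝔾.card + 1 = (H ∪ U).card := by
      have := hF.2.2
      rwa [Finset.card_insert_of_notMem hH1', biUnion_insert_id] at this
    have hUc : U.card = 𝔾.card := hG.2.2.symm
    -- `H` must be of top level
    have htop : H.card = 𝔾.card + 1 := by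
      have hle : H.card ≤ (H ∪ U).card := Finset.card_le_card Finset.subset_union_left
      have hne : H.Nonempty := Finset.nonempty_iff_ne_empty.mpr
        (fun h => hF.1 (by rw [h]; exact Finset.mem_insert_self _ _))
      have hpos := Finset.card_pos.mpr hne
      by_contra hne2
      have hle2 : H.card ≤ U.card := by omega
      obtain ⟨X, hX, hXc⟩ := flag_level hG (i := H.card) hpos hle2
      have := flag_eq_of_card hF (Finset.mem_insert_of_mem hX) (Finset.mem_insert_self _ _) hXc
      exact hH1' (this ▸ hX)
    have hUH : U ⊆ H := by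
      have h1 : (H ∪ U) = H :=
        (Finset.eq_of_subset_of_card_le Finset.subset_union_left (by omega)).symm
      exact Finset.union_eq_left.mp h1
    have hdiff : (H \ U).card = 1 := by
      rw [Finset.card_sdiff_of_subset hUH, htop, hUc]
      omega
    obtain ⟨v, hv⟩ := Finset.card_eq_one.mp hdiff
    have hvH : v ∈ H \ U := by rw [hv]; simp
    obtain ⟨hv1, hv2⟩ := Finset.mem_sdiff.mp hvH
    refine ⟨v, by simpa using hv2, ?_⟩
    ext x
    simp only [Finset.mem_insert]
    constructor
    · rintro (rfl | h)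
      · exact hv1
      · exact hUH h
    · intro hx
      by_cases hxU : x ∈ U
      · exact Or.inr hxU
      · left
        have : x ∈ H \ U := Finset.mem_sdiff.mpr ⟨hx, hxU⟩
        rw [hv] at this
        simpa using this
  · intro v hv
    have hv' : v ∉ U := by simpa using hv
    obtain ⟨_, h2, h3⟩ := hnew v hv'
    simp only [sd, if_pos h2, h3]

/-- `sd` is a chain map. -/
theorem bd_sd (c : Chain V) : bd (sd c) = sd (bd c) := by
  classical
  funext 𝔾
  by_cases hG : IsFullFlag 𝔾
  · have : sd (bd c) 𝔾 = bd c (𝔾.biUnion id) := by simp only [sd, if_pos hG]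
    rw [this]
    simp only [bd]
    convert bd_sd_full c 𝔾 hG
  · have : sd (bd c) 𝔾 = 0 := by simp only [sd, if_neg hG]
    rw [this]
    simp only [bd]
    convert bd_sd_not_full c 𝔾 hG

private theorem isFullFlag_image {τ : V → V} (hτ : ∀ v, τ (τ v) = v) {𝔽 : Finset (Finset V)}
    (h : IsFullFlag 𝔽) : IsFullFlag (𝔽.image (fun F : Finset V => F.image τ)) := by
  have hinj : Function.Injective τ := fun a b h => by rw [← hτ a, ← hτ b, h]
  have hinj2 : Function.Injective (fun F : Finset V => F.image τ) :=
    Finset.image_injective hinj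
  have hun : (𝔽.image (fun F : Finset V => F.image τ)).biUnion id = (𝔽.biUnion id).image τ := by
    ext x
    simp only [Finset.mem_biUnion, Finset.mem_image, id]
    constructor
    · rintro ⟨_, ⟨F, hF, rfl⟩, hx⟩
      obtain ⟨y, hy, rfl⟩ := Finset.mem_image.mp hx
      exact ⟨y, ⟨F, hF, hy⟩, rfl⟩
    · rintro ⟨y, ⟨F, hF, hy⟩, rfl⟩
      exact ⟨_, ⟨F, hF, rfl⟩, Finset.mem_image_of_mem τ hy⟩
  refine ⟨?_, ?_, ?_⟩
  · intro h0
    obtain ⟨F, hF, hF0⟩ := Finset.mem_image.mp h0
    have : F = ∅ := Finset.image_eq_empty.mp hF0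
    exact h.1 (this ▸ hF)
  · intro A hA B hB
    obtain ⟨F, hF, rfl⟩ := Finset.mem_image.mp hA
    obtain ⟨F', hF', rfl⟩ := Finset.mem_image.mp hB
    rcases h.2.1 F hF F' hF' with h1 | h1
    · exact Or.inl (Finset.image_subset_image h1)
    · exact Or.inr (Finset.image_subset_image h1)
  · rw [hun, Finset.card_image_of_injective _ hinj2, Finset.card_image_of_injective _ hinj]
    exact h.2.2

/-- `sd` commutes with an involution. -/
theorem sd_tauC {τ : V → V} (hτ : ∀ v, τ (τ v) = v) (c : Chain V) :
    sd (tauC τ c) = tauC (fun F : Finset V => F.image τ) (sd c) := by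
  classical
  funext 𝔽
  simp only [sd, tauC]
  have hun : (𝔽.image (fun F : Finset V => F.image τ)).biUnion id = (𝔽.biUnion id).image τ := by
    ext x
    simp only [Finset.mem_biUnion, Finset.mem_image, id]
    constructor
    · rintro ⟨_, ⟨F, hF, rfl⟩, hx⟩
      obtain ⟨y, hy, rfl⟩ := Finset.mem_image.mp hx
      exact ⟨y, ⟨F, hF, hy⟩, rfl⟩
    · rintro ⟨y, ⟨F, hF, hy⟩, rfl⟩
      exact ⟨_, ⟨F, hF, rfl⟩, Finset.mem_image_of_mem τ hy⟩
  by_cases h : IsFullFlag 𝔽
  · rw [if_pos h, if_pos (isFullFlag_image hτ h), hun]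
  · rw [if_neg h, if_neg]
    intro h'
    apply h
    have := isFullFlag_image hτ h'
    have himg : (𝔽.image (fun F : Finset V => F.image τ)).image (fun F : Finset V => F.image τ) = 𝔽 := by
      rw [Finset.image_image]
      have hid : (fun F : Finset V => F.image τ) ∘ (fun F : Finset V => F.image τ) = id := by
        funext F
        simp only [Function.comp, Finset.image_image, id]
        have : τ ∘ τ = id := funext hτ
        rw [this, Finset.image_id]
      rw [hid, Finset.image_id]
    rwa [himg] at this

/-- Every face in the support of `sd c` is a full flag of a face in the support of `c`. -/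
theorem sd_support {c : Chain V} {𝔽 : Finset (Finset V)} (h : sd c 𝔽 ≠ 0) :
    IsFullFlag 𝔽 ∧ c (𝔽.biUnion id) ≠ 0 := by
  classical
  by_cases hF : IsFullFlag 𝔽
  · refine ⟨hF, ?_⟩
    simpa only [sd, if_pos hF] using h
  · exact absurd (by simp only [sd, if_neg hF]) h

end Thms

end Crest.Agent.S0069Lib
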