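import Crest.Agent.S0069Lib.ChainFrames

/-!
# The lune between two planes of a frame

`lune u K K'` is a chain of `4`-tuples of unit vectors in the frame `u` (orthonormal on `0,1,2,3`) which, for
every even cochain `f`, has `ev (delta f) (lune u K K') = ev f (fc u 4 K 2) + ev f (fc (swp u) 4 K 2)`
(`lune_St`), where `swp u` exchanges `u 2` and `u 3`.  The points of a tuple are close (`lune_close`).
-/

set_option autoImplicit false

namespace Crest.Agent.S0069Lib.Chains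

open Finset

noncomputable section

/-- The homotopy fixing coordinates `0,1` and moving coordinate `2` to coordinate `3`. -/
def lun (K j : ℕ) (x : Pt) : Pt := fun i =>
  if i = 2 then (1 - (j : ℝ) / K) * x 2 else if i = 3 then x 3 + ((j : ℝ) / K) * x 2 else x i

theorem lun_zero (K : ℕ) (x : Pt) : lun K 0 x = x := by
  funext i
  unfold lun
  split_ifs with h h'
  · subst h; simp
  · subst h'; simp
  · rfl

theorem lun_neg (K j : ℕ) (x : Pt) : lun K j (-x) = - lun K j x := by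
  funext i
  by_cases h2 : i = 2
  · subst h2; simp [lun]
  · by_cases h3 : i = 3
    · subst h3; simp [lun]; ring
    · simp [lun, h2, h3]

theorem l1_four (x : Pt) : l1 4 x = |x 0| + |x 1| + |x 2| + |x 3| := by
  simp [l1, Finset.sum_range_succ]

theorem lun_l1 {K j : ℕ} (hK : 0 < K) (hj : j ≤ K) {x : Pt} (h3 : x 3 = 0) :
    l1 4 (lun K j x) = l1 4 x := by
  have hKr : (0 : ℝ) < K := by exact_mod_cast hK
  set s : ℝ := (j : ℝ) / K with hs
  have hs0 : 0 ≤ s := by positivity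
  have hs1 : s ≤ 1 := by
    rw [hs, div_le_one hKr]; exact_mod_cast hj
  rw [l1_four, l1_four]
  simp only [lun, ← hs, h3]
  norm_num
  rw [abs_of_nonneg hs0, abs_of_nonneg (by linarith : (0 : ℝ) ≤ 1 - s)]
  ring

theorem lun_mesh {K a b : ℕ} (hK : 0 < K) (ha : a ≤ K) (_hb : b ≤ K) (hab : a ≤ b + 1)
    (hba : b ≤ a + 1) {q r : Pt} (hq3 : q 3 = 0) (hr3 : r 3 = 0) (hr : l1 4 r = 1) :
    l1 4 (lun K a q - lun K b r) ≤ l1 4 (q - r) + 2 / K := by
  have hKr : (0 : ℝ) < K := by exact_mod_cast hK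
  set s : ℝ := (a : ℝ) / K with hs
  set t : ℝ := (b : ℝ) / K with ht
  have hs0 : 0 ≤ s := by positivity
  have hs1 : s ≤ 1 := by
    rw [hs, div_le_one hKr]; exact_mod_cast ha
  have hst : |s - t| ≤ 1 / K := by
    rw [hs, ht, ← sub_div, abs_div, abs_of_pos hKr]
    apply div_le_div_of_nonneg_right _ hKr.le
    rw [abs_le]
    have h1 : (a : ℝ) ≤ b + 1 := by exact_mod_cast hab
    have h2 : (b : ℝ) ≤ a + 1 := by exact_mod_cast hba
    constructor <;> linarith
  have hr2 : |r 2| ≤ 1 := by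
    rw [l1_four] at hr
    have := abs_nonneg (r 0); have := abs_nonneg (r 1); have := abs_nonneg (r 3)
    linarith
  rw [l1_four, l1_four]
  simp only [Pi.sub_apply, lun, ← hs, ← ht, hq3, hr3]
  norm_num
  have e2 : (1 - s) * q 2 - (1 - t) * r 2 = (1 - s) * (q 2 - r 2) + (t - s) * r 2 := by ring
  have e3 : s * q 2 - t * r 2 = s * (q 2 - r 2) + (s - t) * r 2 := by ring
  rw [e2, e3]
  have h1 : |(1 - s) * (q 2 - r 2) + (t - s) * r 2| ≤ (1 - s) * |q 2 - r 2| + 1 / K := by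
    refine (abs_add_le _ _).trans ?_
    rw [abs_mul, abs_of_nonneg (by linarith : (0 : ℝ) ≤ 1 - s), abs_mul, abs_sub_comm t s]
    have : |s - t| * |r 2| ≤ 1 / K * 1 := mul_le_mul hst hr2 (abs_nonneg _) (by positivity)
    linarith
  have h2 : |s * (q 2 - r 2) + (s - t) * r 2| ≤ s * |q 2 - r 2| + 1 / K := by
    refine (abs_add_le _ _).trans ?_
    rw [abs_mul, abs_of_nonneg hs0, abs_mul]
    have : |s - t| * |r 2| ≤ 1 / K * 1 := mul_le_mul hst hr2 (abs_nonneg _) (by positivity)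
    linarith
  have e4 : (2 : ℝ) / K = 1 / K + 1 / K := by ring
  rw [e4]
  linarith

/-- The frame with `u 2` and `u 3` exchanged. -/
def swp {n : ℕ} (u : ℕ → Fin n → ℝ) : ℕ → Fin n → ℝ := fun m =>
  if m = 2 then u 3 else if m = 3 then u 2 else u m

theorem swp_isFrame {n : ℕ} {u : ℕ → Fin n → ℝ} (hu : IsFrame u 4) : IsFrame (swp u) 4 := by
  have hsw : ∀ i, i < 4 → ∃ i', i' < 4 ∧ swp u i = u i' ∧ ∀ j, j < 4 → ∀ j', swp u j = u j' →
      (j' = if j = 2 then 3 else if j = 3 then 2 else j) → (i = j ↔ i' = j') := by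
    intro i hi
    refine ⟨if i = 2 then 3 else if i = 3 then 2 else i, ?_, ?_, ?_⟩
    · split_ifs <;> omega
    · unfold swp; split_ifs <;> rfl
    · intro j _ j' _ hj'
      subst hj'
      split_ifs <;> omega
  intro i j hi hj
  obtain ⟨i', hi', hui, hiff⟩ := hsw i hi
  have huj : swp u j = u (if j = 2 then 3 else if j = 3 then 2 else j) := by
    unfold swp; split_ifs <;> rfl
  have hj' : (if j = 2 then 3 else if j = 3 then 2 else j) < 4 := by
    split_ifs <;> omega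
  rw [hui, huj, hu i' _ hi' hj']
  have := hiff j hj _ huj rfl
  by_cases h : i = j
  · rw [if_pos h, if_pos (this.1 h)]
  · rw [if_neg h, if_neg (fun h' => h (this.2 h'))]

/-- The lune chain in the frame `u`. -/
def lune {n : ℕ} (u : ℕ → Fin n → ℝ) (K K' : ℕ) : List (List (Fin n → ℝ)) :=
  (prismC (lun K') K' (cL1 K 2)).map (List.map (ph u 4))

variable {n : ℕ} {u : ℕ → Fin n → ℝ} {K K' : ℕ}

/-- Points on level `2` have vanishing third coordinate. -/
theorem cL1_two_three (hK : 0 < K) {σ : List Pt} (hσ : σ ∈ cL1 K 2) {q : Pt} (hq : q ∈ σ) :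
    q 3 = 0 :=
  (cL1_inv (N := 4) hK 2 (by omega) σ hσ).supp q hq 3 (by omega)

theorem ph_lun_end (hK' : K' ≠ 0) {q : Pt} (h3 : q 3 = 0) :
    ph u 4 (lun K' K' q) = ph (swp u) 4 q := by
  have hKr : (K' : ℝ) ≠ 0 := by exact_mod_cast hK'
  have : lin u 4 (lun K' K' q) = lin (swp u) 4 q := by
    funext i
    simp only [lin, Finset.sum_range_succ, Finset.sum_range_zero, lun, swp]
    norm_num
    rw [div_self hKr, h3]
    ring
  simp [ph, this]

/-- **The lune identity in the frame.** -/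
theorem lune_St (hK : 0 < K) (hK' : K' ≠ 0) (f : List (Fin n → ℝ) → ZMod 2)
    (heven : ∀ τ, f (τ.map Neg.neg) = f τ) :
    ev (delta f) (lune u K K') = ev f (fc u 4 K 2) + ev f (fc (swp u) 4 K 2) := by
  unfold lune fc
  rw [ev_map_het, ev_map_het, ev_map_het]
  have h1 : ev (delta f ∘ List.map (ph u 4)) (prismC (lun K') K' (cL1 K 2))
      = ev (delta (fun l => f (l.map (ph u 4)))) (prismC (lun K') K' (cL1 K 2)) := by
    apply ev_congr
    intro τ _
    simp only [Function.comp_apply, delta_map_het]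
  rw [h1]
  have heven' : ∀ τ : List Pt, (fun l : List Pt => f (l.map (ph u 4))) (τ.map Neg.neg)
      = (fun l : List Pt => f (l.map (ph u 4))) τ := by
    intro τ
    simp only [map_ph_neg, heven]
  have key := lune_identity (neg := Neg.neg) (G := coneMap K) (K := K) (eb 0)
    (fun p : Pt => neg_neg p) (coneMap_zero K) (fun k => eb (k + 1))
    (coneMap_K hK.ne') (Gl := lun K') K' (lun_neg K') (lun_zero K')
    (fun l : List Pt => f (l.map (ph u 4))) heven' 1
  have hcL : smith (Neg.neg : Pt → Pt) (eb 0) (coneMap K) K 2 = cL1 K 2 := rfl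
  simp only [show (1 + 1 : ℕ) = 2 from rfl, hcL] at key
  rw [key]
  congr 1
  apply ev_congr
  intro σ hσ
  simp only [Function.comp_apply, List.map_map]
  congr 1
  apply List.map_congr_left
  intro q hq
  exact ph_lun_end hK' (cL1_two_three hK hσ hq)

/-- Structure of a tuple of the lune. -/
theorem lune_mem {τ : List (Fin n → ℝ)} (h : τ ∈ lune u K K') :
    ∃ σ ∈ cL1 K 2, ∃ j < K', ∃ τ' ∈ prs (lun K' j) (lun K' (j + 1)) σ, τ = τ'.map (ph u 4) := by
  obtain ⟨τ', hτ', rfl⟩ := List.mem_map.1 h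
  obtain ⟨σ, hσ, j, hj, hm⟩ := mem_prismC hτ'
  exact ⟨σ, hσ, j, hj, τ', hm, rfl⟩

theorem lune_length (hK : 0 < K) {τ : List (Fin n → ℝ)} (h : τ ∈ lune u K K') : τ.length = 4 := by
  obtain ⟨σ, hσ, j, _, τ', hτ', rfl⟩ := lune_mem h
  rw [List.length_map, length_of_mem_prs hτ', (cL1_inv (N := 4) hK 2 (by omega) σ hσ).len]

/-- Each model point of a lune tuple. -/
theorem lune_pt {σ : List Pt} {j : ℕ} (hj : j < K')
    {τ' : List Pt} (hτ' : τ' ∈ prs (lun K' j) (lun K' (j + 1)) σ) {x : Pt} (hx : x ∈ τ') :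
    ∃ q ∈ σ, ∃ a, (a = j ∨ a = j + 1) ∧ a ≤ K' ∧ x = lun K' a q := by
  rcases mem_prs hτ' hx with ⟨q, hq, rfl⟩ | ⟨q, hq, rfl⟩
  · exact ⟨q, hq, j, Or.inl rfl, by omega, rfl⟩
  · exact ⟨q, hq, j + 1, Or.inr rfl, by omega, rfl⟩

/-- Points of the lune are unit vectors. -/
theorem lune_unit (hu : IsFrame u 4) (hK : 0 < K) (hK' : 0 < K') {τ : List (Fin n → ℝ)}
    (h : τ ∈ lune u K K') {p : Fin n → ℝ} (hp : p ∈ τ) : ∑ i, p i ^ 2 = 1 := by
  obtain ⟨σ, hσ, j, hj, τ', hτ', rfl⟩ := lune_mem h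
  obtain ⟨x, hx, rfl⟩ := List.mem_map.1 hp
  obtain ⟨q, hq, a, _, haK, rfl⟩ := lune_pt hj hτ' hx
  apply ph_unit hu
  rw [lun_l1 hK' haK (cL1_two_three hK hσ hq)]
  exact (cL1_inv hK 2 (by omega) σ hσ).norm q hq

/-- Points of a tuple of the lune are close. -/
theorem lune_close (hu : IsFrame u 4) (hK : 0 < K) (hK' : 0 < K') {τ : List (Fin n → ℝ)}
    (h : τ ∈ lune u K K') {p p' : Fin n → ℝ} (hp : p ∈ τ) (hp' : p' ∈ τ) :
    ∑ i, (p i - p' i) ^ 2 ≤ 4 * (4 / (K : ℝ) + 2 / K') ^ 2 := by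
  obtain ⟨σ, hσ, j, hj, τ', hτ', rfl⟩ := lune_mem h
  obtain ⟨x, hx, rfl⟩ := List.mem_map.1 hp
  obtain ⟨x', hx', rfl⟩ := List.mem_map.1 hp'
  obtain ⟨q, hq, a, ha, haK, rfl⟩ := lune_pt hj hτ' hx
  obtain ⟨r, hr, b, hb, hbK, rfl⟩ := lune_pt hj hτ' hx'
  have hinv := cL1_inv (N := 4) hK 2 (by omega) σ hσ
  have hq3 := cL1_two_three hK hσ hq
  have hr3 := cL1_two_three hK hσ hr
  have hu1 : l1 4 (lun K' a q) = 1 := by rw [lun_l1 hK' haK hq3]; exact hinv.norm q hq
  have hu2 : l1 4 (lun K' b r) = 1 := by rw [lun_l1 hK' hbK hr3]; exact hinv.norm r hr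
  have hmesh := lun_mesh (K := K') (a := a) (b := b) hK' haK hbK
    (by rcases ha with rfl | rfl <;> rcases hb with rfl | rfl <;> omega)
    (by rcases ha with rfl | rfl <;> rcases hb with rfl | rfl <;> omega)
    hq3 hr3 (hinv.norm r hr)
  have hm := hinv.mesh q hq r hr
  have hbound : l1 4 (lun K' a q - lun K' b r) ≤ 4 / (K : ℝ) + 2 / K' := by
    have : (2 : ℝ) * ((2 : ℕ) : ℝ) / K = 4 / K := by push_cast; ring
    rw [this] at hm
    linarith
  have hclose := ph_close hu hu1 hu2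
  refine hclose.trans ?_
  push_cast
  apply mul_le_mul_of_nonneg_left _ (by norm_num)
  exact pow_le_pow_left₀ (l1_nonneg _ _) hbound 2

end

end Crest.Agent.S0069Lib.Chains
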