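import Crest.Agent.S0069Lib.Fan

/-!
# Prism chains on tuples (mod 2)

Everything is an identity between sums of an arbitrary function `f : List P → ZMod 2`,
degenerate tuples included; no topology.

* `prs g h σ`: the standard triangulation of the prism between `σ.map g` and `σ.map h`;
  `prs_identity`: `Σ_{τ ∈ prs g h σ} δ f τ = f (σ.map g) + f (σ.map h) + Σ_{d ∈ dels σ} Σ_{τ ∈ prs g h d} f τ`.
* `prism G K σ`: concatenation of `K` steps; `prism_identity`.
* `smith neg p₀ G K k`: Smith chains; `smith_St`: `Σ_{τ ∈ c (k+1)} δ f τ = Σ_{σ ∈ c k} (f σ + f (-σ))`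
  (the format of `Fan.fan_parity`).
* `lune_identity`: prism of `c (k+1)` along odd maps `G j`, `G 0 = id`, for even `f`:
  `Σ_{τ ∈ lune} δ f τ = Σ_{σ ∈ c (k+1)} (f σ + f (σ.map (G K)))`.
-/

set_option autoImplicit false

namespace Crest.Agent.S0069Lib.Chains

open Fan

variable {P : Type*}

/-- Value of a cochain on a chain. -/
def ev (f : List P → ZMod 2) (c : List (List P)) : ZMod 2 := (c.map f).sum

/-- Coboundary. -/
def delta (f : List P → ZMod 2) (τ : List P) : ZMod 2 := ((dels τ).map f).sum

@[simp] theorem ev_nil (f : List P → ZMod 2) : ev f [] = 0 := rfl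
@[simp] theorem ev_cons (f : List P → ZMod 2) (a : List P) (c : List (List P)) :
    ev f (a :: c) = f a + ev f c := by simp [ev]
@[simp] theorem ev_append (f : List P → ZMod 2) (a b : List (List P)) :
    ev f (a ++ b) = ev f a + ev f b := by simp [ev]
theorem ev_map (f : List P → ZMod 2) (φ : List P → List P) (c : List (List P)) :
    ev f (c.map φ) = ev (f ∘ φ) c := by simp [ev]
theorem ev_add (f g : List P → ZMod 2) (c : List (List P)) :
    ev (fun x => f x + g x) c = ev f c + ev g c := by
  induction c with
  | nil => simp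
  | cons a c ih => simp only [ev_cons, ih]; abel
theorem ev_flatMap (f : List P → ZMod 2) (φ : List P → List (List P)) (c : List (List P)) :
    ev f (c.flatMap φ) = ev (fun σ => ev f (φ σ)) c := by
  induction c with
  | nil => simp
  | cons a c ih => simp [List.flatMap_cons, ih]
theorem ev_congr {f g : List P → ZMod 2} {c : List (List P)} (h : ∀ x ∈ c, f x = g x) :
    ev f c = ev g c := by
  unfold ev; rw [List.map_congr_left h]
theorem ev_zero {f : List P → ZMod 2} {c : List (List P)} (h : ∀ x ∈ c, f x = 0) :
    ev f c = 0 := by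
  unfold ev; rw [List.map_congr_left h]; simp

theorem two_zero : (2 : ZMod 2) = 0 := by decide

theorem delta_cons (f : List P → ZMod 2) (x : P) (τ : List P) :
    delta f (x :: τ) = f τ + delta (fun l => f (x :: l)) τ := by
  simp [delta, dels, Function.comp_def]

theorem delta_map (f : List P → ZMod 2) (h : P → P) (τ : List P) :
    delta f (τ.map h) = delta (fun l => f (l.map h)) τ := by
  simp [delta, dels_map, Function.comp_def]

/-- The standard triangulation of the prism between `σ.map g` and `σ.map h`. -/
def prs (g h : P → P) : List P → List (List P)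
  | [] => []
  | x :: xs => (g x :: h x :: xs.map h) :: (prs g h xs).map (g x :: ·)

/-- The prism identity for one step. -/
theorem prs_identity (g h : P → P) (σ : List P) (f : List P → ZMod 2) :
    ev (delta f) (prs g h σ)
      = f (σ.map g) + f (σ.map h) + ev (fun d => ev f (prs g h d)) (dels σ) := by
  induction σ generalizing f with
  | nil =>
    simp only [prs, ev_nil, List.map_nil, dels, add_zero]
    exact (CharTwo.add_self_eq_zero _).symm
  | cons x xs ih =>
    set f' : List P → ZMod 2 := fun l => f (g x :: l) with hf'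
    have hih := ih f'
    have h1 : ev (delta f) ((prs g h xs).map (g x :: ·))
        = ev f (prs g h xs) + ev (delta f') (prs g h xs) := by
      rw [ev_map, ← ev_add]
      apply ev_congr
      intro τ _
      simp only [Function.comp_apply]
      rw [delta_cons]
    have h2 : delta f (g x :: h x :: xs.map h)
        = f (h x :: xs.map h) + (f' (xs.map h)
            + ev (fun d => f (g x :: h x :: d.map h)) (dels xs)) := by
      rw [delta_cons, delta_cons, delta_map]
      rfl
    have h3 : ev (fun d => ev f (prs g h d)) (dels (x :: xs))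
        = ev f (prs g h xs) + (ev (fun d => f (g x :: h x :: d.map h)) (dels xs)
            + ev (fun d => ev f' (prs g h d)) (dels xs)) := by
      simp only [dels, ev_cons, ev_map]
      congr 1
      rw [← ev_add]
      apply ev_congr
      intro d _
      simp only [Function.comp_apply, prs, ev_cons, ev_map]
      rfl
    simp only [prs, ev_cons]
    rw [h1, h2, h3, hih]
    simp only [List.map_cons]
    linear_combination (f' (xs.map h)) * two_zero

/-- `K` steps of prisms along the family `G`. -/
def prism (G : ℕ → P → P) : ℕ → List P → List (List P)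
  | 0, _ => []
  | K + 1, σ => prism G K σ ++ prs (G K) (G (K + 1)) σ

/-- The prism identity for `K` steps. -/
theorem prism_identity (G : ℕ → P → P) (K : ℕ) (σ : List P) (f : List P → ZMod 2) :
    ev (delta f) (prism G K σ)
      = f (σ.map (G 0)) + f (σ.map (G K)) + ev (fun d => ev f (prism G K d)) (dels σ) := by
  induction K with
  | zero =>
    simp only [prism, ev_nil]
    rw [CharTwo.add_self_eq_zero, zero_add]
    exact (ev_zero (fun _ _ => rfl)).symm
  | succ K ih =>
    have h : ev (fun d => ev f (prism G (K + 1) d)) (dels σ)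
        = ev (fun d => ev f (prism G K d)) (dels σ)
          + ev (fun d => ev f (prs (G K) (G (K + 1)) d)) (dels σ) := by
      rw [← ev_add]
      apply ev_congr
      intro d _
      simp [prism]
    have h0 : ev (delta f) (prism G (K + 1) σ)
        = ev (delta f) (prism G K σ) + ev (delta f) (prs (G K) (G (K + 1)) σ) := by
      simp [prism]
    rw [h0, ih, prs_identity, h]
    linear_combination (f (σ.map (G K))) * two_zero

/-- Prism of a chain. -/
def prismC (G : ℕ → P → P) (K : ℕ) (c : List (List P)) : List (List P) :=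
  c.flatMap (prism G K)

theorem prismC_identity (G : ℕ → P → P) (K : ℕ) (c : List (List P)) (f : List P → ZMod 2) :
    ev (delta f) (prismC G K c)
      = ev (fun σ => f (σ.map (G 0)) + f (σ.map (G K))) c
        + ev (delta (fun d => ev f (prism G K d))) c := by
  unfold prismC
  rw [ev_flatMap, ← ev_add]
  apply ev_congr
  intro σ _
  rw [prism_identity]
  rfl

/-- A chain with zero boundary (in the free module on all tuples). -/
def IsCycle (c : List (List P)) : Prop := ∀ f : List P → ZMod 2, ev (delta f) c = 0

/-- Symmetrised chain. -/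
def sym (neg : P → P) (c : List (List P)) : List (List P) := c ++ c.map (List.map neg)

section Smith

variable (neg : P → P) (p₀ : P) (G : ℕ → ℕ → P → P) (K : ℕ)

/-- Smith chains: `c 0 = [[p₀]]`, `c (k+1) = prism of c k + (-c k)` along the homotopy `G k`. -/
def smith : ℕ → List (List P)
  | 0 => [[p₀]]
  | k + 1 => prismC (G k) K (sym neg (smith k))

variable {neg G K}

theorem map_neg_neg (hneg : ∀ p, neg (neg p) = p) (σ : List P) : (σ.map neg).map neg = σ := by
  simp only [List.map_map]
  conv_rhs => rw [← List.map_id σ]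
  apply List.map_congr_left
  intro p _
  exact hneg p

/-- A symmetrised chain whose members are cycles gives the Smith step. -/
theorem smith_St_of_cycle (hG0 : ∀ k p, G k 0 p = p)
    (a : ℕ → P) (hGK : ∀ k p, G k K p = a k) (k : ℕ)
    (hc : IsCycle (sym neg (smith neg p₀ G K k))) (f : List P → ZMod 2) :
    ev (delta f) (smith neg p₀ G K (k + 1))
      = ev (fun σ => f σ + f (σ.map neg)) (smith neg p₀ G K k) := by
  simp only [smith]
  rw [prismC_identity, hc, add_zero]
  simp only [sym, ev_append, ev_map]
  rw [← ev_add]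
  apply ev_congr
  intro σ _
  have h0 : ∀ τ : List P, τ.map (G k 0) = τ := by
    intro τ
    conv_rhs => rw [← List.map_id τ]
    exact List.map_congr_left (fun p _ => hG0 k p)
  have hK : ∀ τ : List P, τ.map (G k K) = τ.map (fun _ => a k) :=
    fun τ => List.map_congr_left (fun p _ => hGK k p)
  have hK' : (σ.map neg).map (fun _ => a k) = σ.map (fun _ => a k) := by
    simp [List.map_map, Function.comp_def]
  simp only [Function.comp_apply, h0, hK, hK']
  linear_combination (f (σ.map (fun _ => a k))) * two_zero

theorem smith_cycle_succ (hneg : ∀ p, neg (neg p) = p) (k : ℕ)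
    (hSt : ∀ f : List P → ZMod 2, ev (delta f) (smith neg p₀ G K (k + 1))
      = ev (fun σ => f σ + f (σ.map neg)) (smith neg p₀ G K k)) :
    IsCycle (sym neg (smith neg p₀ G K (k + 1))) := by
  intro f
  simp only [sym, ev_append, ev_map]
  have h1 : ev (delta f ∘ List.map neg) (smith neg p₀ G K (k + 1))
      = ev (delta (fun l => f (l.map neg))) (smith neg p₀ G K (k + 1)) := by
    apply ev_congr
    intro τ _
    simp only [Function.comp_apply, delta_map]
  rw [h1, hSt f, hSt, ← ev_add]
  apply ev_zero
  intro σ _
  simp only [map_neg_neg hneg]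
  linear_combination (f σ + f (σ.map neg)) * two_zero

theorem smith_cycle_zero : IsCycle (sym neg (smith neg p₀ G K 0)) := by
  intro f
  simp [sym, smith, delta, dels]
  exact CharTwo.add_self_eq_zero _

/-- The Smith chain identity (all `f`): the format of `Fan.fan_parity`. -/
theorem smith_St (hneg : ∀ p, neg (neg p) = p) (hG0 : ∀ k p, G k 0 p = p)
    (a : ℕ → P) (hGK : ∀ k p, G k K p = a k) (k : ℕ) (f : List P → ZMod 2) :
    ev (delta f) (smith neg p₀ G K (k + 1))
      = ev (fun σ => f σ + f (σ.map neg)) (smith neg p₀ G K k) := by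
  have hcyc : ∀ k, IsCycle (sym neg (smith neg p₀ G K k)) := by
    intro k
    induction k with
    | zero => exact smith_cycle_zero p₀
    | succ k ih =>
      exact smith_cycle_succ p₀ hneg k (fun f => smith_St_of_cycle p₀ hG0 a hGK k ih f)
  exact smith_St_of_cycle p₀ hG0 a hGK k (hcyc k) f

theorem prs_map_odd {g h : P → P} (hg : ∀ p, g (neg p) = neg (g p)) (hh : ∀ p, h (neg p) = neg (h p))
    (σ : List P) : prs g h (σ.map neg) = (prs g h σ).map (List.map neg) := by
  induction σ with
  | nil => rfl
  | cons x xs ih =>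
    simp only [List.map_cons, prs, ih, hg, hh, List.map_map, List.cons.injEq]
    refine ⟨?_, ?_⟩
    · simp [Function.comp_def, hh]
    · simp [Function.comp_def]

theorem prism_map_odd {Gl : ℕ → P → P} (hodd : ∀ j p, Gl j (neg p) = neg (Gl j p)) (K' : ℕ)
    (σ : List P) : prism Gl K' (σ.map neg) = (prism Gl K' σ).map (List.map neg) := by
  induction K' with
  | zero => rfl
  | succ K' ih =>
    simp only [prism, ih, prs_map_odd (hodd K') (hodd (K' + 1)), List.map_append]

/-- **Lune identity.** Prism of `c (k+1)` along odd maps with `Gl 0 = id`, for an even cochain `f`. -/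
theorem lune_identity (hneg : ∀ p, neg (neg p) = p) (hG0 : ∀ k p, G k 0 p = p)
    (a : ℕ → P) (hGK : ∀ k p, G k K p = a k)
    {Gl : ℕ → P → P} (K' : ℕ) (hodd : ∀ j p, Gl j (neg p) = neg (Gl j p)) (h0 : ∀ p, Gl 0 p = p)
    (f : List P → ZMod 2) (heven : ∀ τ, f (τ.map neg) = f τ) (k : ℕ) :
    ev (delta f) (prismC Gl K' (smith neg p₀ G K (k + 1)))
      = ev f (smith neg p₀ G K (k + 1))
        + ev (fun σ => f (σ.map (Gl K'))) (smith neg p₀ G K (k + 1)) := by
  rw [prismC_identity]
  have h1 : ev (delta (fun d => ev f (prism Gl K' d))) (smith neg p₀ G K (k + 1)) = 0 := by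
    rw [smith_St p₀ hneg hG0 a hGK]
    apply ev_zero
    intro σ _
    have : ev f (prism Gl K' (σ.map neg)) = ev f (prism Gl K' σ) := by
      rw [prism_map_odd hodd, ev_map]
      apply ev_congr
      intro τ _
      exact heven τ
    simp only [this]
    exact CharTwo.add_self_eq_zero _
  rw [h1, add_zero, ← ev_add]
  apply ev_congr
  intro σ _
  have h00 : σ.map (Gl 0) = σ := by
    conv_rhs => rw [← List.map_id σ]
    exact List.map_congr_left (fun p _ => h0 p)
  simp only [h00]

end Smith

/-! ### Membership in prisms -/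

theorem mem_prs {g h : P → P} {σ τ : List P} (hτ : τ ∈ prs g h σ) {x : P} (hx : x ∈ τ) :
    (∃ q ∈ σ, x = g q) ∨ (∃ q ∈ σ, x = h q) := by
  induction σ generalizing τ with
  | nil => simp [prs] at hτ
  | cons y ys ih =>
    simp only [prs, List.mem_cons, List.mem_map] at hτ
    rcases hτ with rfl | ⟨τ', hτ', rfl⟩
    · simp only [List.mem_cons, List.mem_map] at hx
      rcases hx with rfl | rfl | ⟨q, hq, rfl⟩
      · exact Or.inl ⟨y, by simp, rfl⟩
      · exact Or.inr ⟨y, by simp, rfl⟩
      · exact Or.inr ⟨q, by simp [hq], rfl⟩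
    · simp only [List.mem_cons] at hx
      rcases hx with rfl | hx
      · exact Or.inl ⟨y, by simp, rfl⟩
      · rcases ih hτ' hx with ⟨q, hq, rfl⟩ | ⟨q, hq, rfl⟩
        · exact Or.inl ⟨q, by simp [hq], rfl⟩
        · exact Or.inr ⟨q, by simp [hq], rfl⟩

theorem length_of_mem_prs {g h : P → P} {σ τ : List P} (hτ : τ ∈ prs g h σ) :
    τ.length = σ.length + 1 := by
  induction σ generalizing τ with
  | nil => simp [prs] at hτ
  | cons y ys ih =>
    simp only [prs, List.mem_cons, List.mem_map] at hτ
    rcases hτ with rfl | ⟨τ', hτ', rfl⟩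
    · simp
    · simp [ih hτ']

theorem mem_prism {G : ℕ → P → P} {K : ℕ} {σ τ : List P} (hτ : τ ∈ prism G K σ) :
    ∃ j < K, τ ∈ prs (G j) (G (j + 1)) σ := by
  induction K with
  | zero => simp [prism] at hτ
  | succ K ih =>
    simp only [prism, List.mem_append] at hτ
    rcases hτ with h | h
    · obtain ⟨j, hj, hm⟩ := ih h
      exact ⟨j, by omega, hm⟩
    · exact ⟨K, by omega, h⟩

theorem mem_prismC {G : ℕ → P → P} {K : ℕ} {c : List (List P)} {τ : List P}
    (hτ : τ ∈ prismC G K c) : ∃ σ ∈ c, ∃ j < K, τ ∈ prs (G j) (G (j + 1)) σ := by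
  simp only [prismC, List.mem_flatMap] at hτ
  obtain ⟨σ, hσ, hm⟩ := hτ
  exact ⟨σ, hσ, mem_prism hm⟩

end Crest.Agent.S0069Lib.Chains
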