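import Crest.Agent.S0069Lib.Chains

/-!
# The Smith chains on the `ℓ¹`-sphere

Points are functions `ℕ → ℝ`; `cL1 K k` is the Smith chain built with the straight homotopies
`coneMap K k j x = (1 - j/K) x + (j/K) e_{k+1}`.  For `k < N`:
`Inv`: tuples of length `k + 1`, points supported on `[0,k]`, of `ℓ¹`-norm `1`, and mesh `≤ 2k/K`.
-/

set_option autoImplicit false

namespace Crest.Agent.S0069Lib.Chains

open Finset

noncomputable section

/-- Point type of the model. -/
abbrev Pt := ℕ → ℝ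

/-- Standard basis vector. -/
def eb (i : ℕ) : Pt := fun j => if j = i then 1 else 0

/-- The straight homotopy to `e_{k+1}`. -/
def coneMap (K k j : ℕ) (x : Pt) : Pt := fun i => (1 - (j : ℝ) / K) * x i + ((j : ℝ) / K) * eb (k + 1) i

/-- The Smith chains in the `ℓ¹` model. -/
def cL1 (K : ℕ) : ℕ → List (List Pt) := smith (Neg.neg) (eb 0) (coneMap K) K

theorem coneMap_zero (K k : ℕ) (x : Pt) : coneMap K k 0 x = x := by
  funext i; simp [coneMap]

theorem coneMap_K {K : ℕ} (hK : K ≠ 0) (k : ℕ) (x : Pt) : coneMap K k K x = eb (k + 1) := by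
  funext i
  have : (K : ℝ) ≠ 0 := by exact_mod_cast hK
  simp [coneMap, this]

/-- The Smith identity for the `ℓ¹` chains, for every cochain `f`. -/
theorem cL1_St {K : ℕ} (hK : K ≠ 0) (k : ℕ) (f : List Pt → ZMod 2) :
    ev (delta f) (cL1 K (k + 1)) = ev (fun σ => f σ + f (σ.map Neg.neg)) (cL1 K k) :=
  smith_St (eb 0) (fun p => neg_neg p) (coneMap_zero K) (fun k => eb (k + 1)) (coneMap_K hK) k f

/-- `ℓ¹` norm on the first `N` coordinates. -/
def l1 (N : ℕ) (x : Pt) : ℝ := ∑ i ∈ range N, |x i|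

theorem l1_nonneg (N : ℕ) (x : Pt) : 0 ≤ l1 N x := sum_nonneg fun _ _ => abs_nonneg _

theorem l1_neg (N : ℕ) (x : Pt) : l1 N (-x) = l1 N x := by simp [l1]

theorem l1_eb {N i : ℕ} (h : i < N) : l1 N (eb i) = 1 := by
  unfold l1 eb
  rw [Finset.sum_eq_single i]
  · simp
  · intro j _ hj; simp [hj]
  · intro hh; exact absurd (mem_range.2 h) hh

/-- The invariant of a tuple on level `k`. -/
structure Inv (N K k : ℕ) (τ : List Pt) : Prop where
  len : τ.length = k + 1
  supp : ∀ p ∈ τ, ∀ i, k < i → p i = 0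
  norm : ∀ p ∈ τ, l1 N p = 1
  mesh : ∀ x ∈ τ, ∀ y ∈ τ, l1 N (x - y) ≤ 2 * (k : ℝ) / K

theorem Inv.neg {N K k : ℕ} {τ : List Pt} (h : Inv N K k τ) : Inv N K k (τ.map Neg.neg) := by
  refine ⟨by simpa using h.len, ?_, ?_, ?_⟩
  · intro p hp i hi
    obtain ⟨q, hq, rfl⟩ := List.mem_map.1 hp
    simp [h.supp q hq i hi]
  · intro p hp
    obtain ⟨q, hq, rfl⟩ := List.mem_map.1 hp
    rw [l1_neg]; exact h.norm q hq
  · intro x hx y hy
    obtain ⟨q, hq, rfl⟩ := List.mem_map.1 hx
    obtain ⟨r, hr, rfl⟩ := List.mem_map.1 hy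
    have : -q - -r = -(q - r) := by abel
    rw [this, l1_neg]
    exact h.mesh q hq r hr

theorem coneMap_supp {K k j : ℕ} {q : Pt} (hq : ∀ i, k < i → q i = 0) :
    ∀ i, k + 1 < i → coneMap K k j q i = 0 := by
  intro i hi
  have h1 : q i = 0 := hq i (by omega)
  have h2 : eb (k + 1) i = 0 := by simp [eb]; omega
  simp [coneMap, h1, h2]

theorem coneMap_l1 {N K k j : ℕ} (hK : 0 < K) (hj : j ≤ K) (hk : k + 1 < N) {q : Pt}
    (hq : ∀ i, k < i → q i = 0) (hn : l1 N q = 1) : l1 N (coneMap K k j q) = 1 := by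
  have hKr : (0 : ℝ) < K := by exact_mod_cast hK
  set s : ℝ := (j : ℝ) / K with hs
  have hs0 : 0 ≤ s := by positivity
  have hs1 : s ≤ 1 := by
    rw [hs, div_le_one hKr]; exact_mod_cast hj
  have hterm : ∀ i, |coneMap K k j q i| = (1 - s) * |q i| + s * |eb (k + 1) i| := by
    intro i
    unfold coneMap
    rw [← hs]
    by_cases hi : i = k + 1
    · subst hi
      have : q (k + 1) = 0 := hq _ (by omega)
      simp [this, eb, abs_of_nonneg hs0]
    · have : eb (k + 1) i = 0 := by simp [eb, hi]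
      simp only [this, mul_zero, add_zero, abs_zero]
      rw [abs_mul, abs_of_nonneg (by linarith : (0 : ℝ) ≤ 1 - s)]
  unfold l1 at hn ⊢
  simp only [hterm]
  rw [Finset.sum_add_distrib, ← Finset.mul_sum, ← Finset.mul_sum, hn]
  have := l1_eb hk
  unfold l1 at this
  rw [this]
  ring

theorem coneMap_mesh {N K k a b : ℕ} (hK : 0 < K) (ha : a ≤ K) (hb : b ≤ K) (hab : a ≤ b + 1)
    (hba : b ≤ a + 1) (hk : k + 1 < N) {q r : Pt} (hr : l1 N r = 1) {m : ℝ} (hm : l1 N (q - r) ≤ m) :
    l1 N (coneMap K k a q - coneMap K k b r) ≤ m + 2 / K := by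
  have hKr : (0 : ℝ) < K := by exact_mod_cast hK
  set s : ℝ := (a : ℝ) / K with hs
  set t : ℝ := (b : ℝ) / K with ht
  have hs0 : 0 ≤ s := by positivity
  have hs1 : s ≤ 1 := by
    rw [hs, div_le_one hKr]; exact_mod_cast ha
  have hst : |s - t| ≤ 1 / K := by
    rw [hs, ht, ← sub_div, abs_div, abs_of_pos hKr]
    apply div_le_div_of_nonneg_right _ hKr.le
    rw [abs_le]
    have h1 : (a : ℝ) ≤ b + 1 := by exact_mod_cast hab
    have h2 : (b : ℝ) ≤ a + 1 := by exact_mod_cast hba
    constructor <;> linarith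
  have hterm : ∀ i, |(coneMap K k a q - coneMap K k b r) i|
      ≤ |(q - r) i| + (1 / K) * |r i| + (1 / K) * |eb (k + 1) i| := by
    intro i
    have hexp : (coneMap K k a q - coneMap K k b r) i
        = (1 - s) * (q - r) i + (t - s) * r i + (s - t) * eb (k + 1) i := by
      simp only [coneMap, Pi.sub_apply, ← hs, ← ht]; ring
    rw [hexp]
    have h1 : |(1 - s) * (q - r) i| ≤ |(q - r) i| := by
      rw [abs_mul, abs_of_nonneg (by linarith : (0 : ℝ) ≤ 1 - s)]
      have := abs_nonneg ((q - r) i)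
      nlinarith
    have h2 : |(t - s) * r i| ≤ (1 / K) * |r i| := by
      rw [abs_mul, abs_sub_comm]
      exact mul_le_mul_of_nonneg_right hst (abs_nonneg _)
    have h3 : |(s - t) * eb (k + 1) i| ≤ (1 / K) * |eb (k + 1) i| := by
      rw [abs_mul]
      exact mul_le_mul_of_nonneg_right hst (abs_nonneg _)
    calc _ ≤ |(1 - s) * (q - r) i + (t - s) * r i| + |(s - t) * eb (k + 1) i| := abs_add_le _ _
      _ ≤ |(1 - s) * (q - r) i| + |(t - s) * r i| + |(s - t) * eb (k + 1) i| := by
          gcongr; exact abs_add_le _ _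
      _ ≤ _ := by linarith
  have hsum : l1 N (coneMap K k a q - coneMap K k b r)
      ≤ l1 N (q - r) + (1 / K) * l1 N r + (1 / K) * l1 N (eb (k + 1)) := by
    unfold l1
    calc _ ≤ ∑ i ∈ range N, (|(q - r) i| + (1 / K) * |r i| + (1 / K) * |eb (k + 1) i|) :=
          sum_le_sum fun i _ => hterm i
      _ = _ := by
          rw [Finset.sum_add_distrib, Finset.sum_add_distrib, Finset.mul_sum, Finset.mul_sum]
  rw [hr, l1_eb hk] at hsum
  have : (1 : ℝ) / K + 1 / K = 2 / K := by ring
  linarith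

/-- The invariant holds on all levels below `N`. -/
theorem cL1_inv {N K : ℕ} (hK : 0 < K) :
    ∀ k, k < N → ∀ τ ∈ cL1 K k, Inv N K k τ := by
  intro k
  have hKr : (0 : ℝ) < K := by exact_mod_cast hK
  induction k with
  | zero =>
    intro hN τ hτ
    simp only [cL1, smith, List.mem_singleton] at hτ
    subst hτ
    refine ⟨rfl, ?_, ?_, ?_⟩
    · intro p hp i hi
      simp only [List.mem_singleton] at hp
      subst hp
      simp [eb]; omega
    · intro p hp
      simp only [List.mem_singleton] at hp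
      subst hp
      exact l1_eb hN
    · intro x hx y hy
      simp only [List.mem_singleton] at hx hy
      subst hx; subst hy
      simp [l1]
  | succ k ih =>
    intro hN τ hτ
    have hk : k < N := by omega
    simp only [cL1, smith] at hτ
    obtain ⟨σ, hσ, j, hj, hm⟩ := mem_prismC hτ
    have hσinv : Inv N K k σ := by
      simp only [sym, List.mem_append, List.mem_map] at hσ
      rcases hσ with h | ⟨σ₀, h₀, rfl⟩
      · exact ih hk σ h
      · exact (ih hk σ₀ h₀).neg
    have hpt : ∀ p ∈ τ, ∃ q ∈ σ, ∃ a, (a = j ∨ a = j + 1) ∧ p = coneMap K k a q := by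
      intro p hp
      rcases mem_prs hm hp with ⟨q, hq, rfl⟩ | ⟨q, hq, rfl⟩
      · exact ⟨q, hq, j, Or.inl rfl, rfl⟩
      · exact ⟨q, hq, j + 1, Or.inr rfl, rfl⟩
    refine ⟨?_, ?_, ?_, ?_⟩
    · rw [length_of_mem_prs hm, hσinv.len]
    · intro p hp i hi
      obtain ⟨q, hq, a, _, rfl⟩ := hpt p hp
      exact coneMap_supp (hσinv.supp q hq) i hi
    · intro p hp
      obtain ⟨q, hq, a, ha, rfl⟩ := hpt p hp
      refine coneMap_l1 hK ?_ (by omega) (hσinv.supp q hq) (hσinv.norm q hq)
      rcases ha with rfl | rfl <;> omega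
    · intro x hx y hy
      obtain ⟨q, hq, a, ha, rfl⟩ := hpt x hx
      obtain ⟨r, hr, b, hb, rfl⟩ := hpt y hy
      have := coneMap_mesh (N := N) (K := K) (k := k) (a := a) (b := b) hK
        (by rcases ha with rfl | rfl <;> omega) (by rcases hb with rfl | rfl <;> omega)
        (by rcases ha with rfl | rfl <;> rcases hb with rfl | rfl <;> omega)
        (by rcases ha with rfl | rfl <;> rcases hb with rfl | rfl <;> omega)
        (by omega) (hσinv.norm r hr) (hσinv.mesh q hq r hr)
      refine this.trans (le_of_eq ?_)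
      push_cast
      field_simp

/-! ### The lune in the `ℓ¹` model -/

/-- The homotopy fixing coordinates `0,1` and moving coordinate `2` to coordinate `3`. -/
def luneMap (K j : ℕ) (x : Pt) : Pt := fun i =>
  if i = 2 then (1 - (j : ℝ) / K) * x 2 else if i = 3 then ((j : ℝ) / K) * x 2 else x i

theorem luneMap_zero (K : ℕ) (x : Pt) (h3 : x 3 = 0) : luneMap K 0 x = x := by
  funext i
  unfold luneMap
  split_ifs with h h'
  · subst h; simp
  · subst h'; simp [h3]
  · rfl

end

end Crest.Agent.S0069Lib.Chains
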