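import Crest.Agent.S0069Lib.CoreDataRp
import Crest.Agent.S0069Lib.CoreDataOther

/-!
# S0069: the finite combinatorial core

No families `F4` (tetrahedra) and `F3` (triples) on ten points with the following properties.
After a relabelling of the colours the tetrahedron is `0123` and the selection on `456789` is one of two patterns;
each of the two cases is refuted by the kernel-checked RUP replay of `CoreRup.lean` (data `CoreDataRp`, `CoreDataOther`).
-/

set_option autoImplicit false

namespace Crest.Agent.S0069Lib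

open Finset

namespace CoreBridge

open Rup

/-- The subset of `Fin 10` with mask `m`. -/
def setOf (m : ℕ) : Finset (Fin 10) := univ.filter (fun i => m.testBit i.val = true)

theorem mem_setOf {m : ℕ} {i : Fin 10} : i ∈ setOf m ↔ m.testBit i.val = true := by
  simp [setOf]

theorem tb_eq (x i : ℕ) : tb x i = x.testBit i := by
  have h1 : Nat.land (Nat.shiftRight x i) 1 = (x / 2 ^ i) % 2 := by
    show (x >>> i) &&& 1 = _
    rw [Nat.and_one_is_mod, Nat.shiftRight_eq_div_pow]
  show Nat.beq (Nat.land (Nat.shiftRight x i) 1) 1 = _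
  rw [h1, Nat.testBit_eq_decide_div_mod_eq]
  cases h : decide (x / 2 ^ i % 2 = 1) with
  | true =>
    have := of_decide_eq_true h
    rw [this]; rfl
  | false =>
    have := of_decide_eq_false h
    cases hb : Nat.beq (x / 2 ^ i % 2) 1 with
    | false => rfl
    | true => exact absurd (Nat.eq_of_beq_eq_true hb) this

theorem lt_of_tb {t : ℕ} (ht : t < 2 ^ 1024) {i : ℕ} (h : tb t i = true) : i < 1024 := by
  by_contra hi
  rw [tb_eq] at h
  have : t.testBit i = false :=
    Nat.testBit_eq_false_of_lt (lt_of_lt_of_le ht (Nat.pow_le_pow_right (by norm_num) (by omega)))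
  rw [this] at h
  exact absurd h (by simp)

theorem quad_small : quadTable < 2 ^ 1024 := by decide +kernel
theorem tri_small : triTable < 2 ^ 1024 := by decide +kernel
theorem pair_small : pairTable < 2 ^ 1024 := by decide +kernel

theorem quad_card0 : ∀ m, m < 1024 → tb quadTable m = true → (setOf m).card = 4 := by decide +kernel
theorem tri_card0 : ∀ m, m < 1024 → tb triTable m = true → (setOf m).card = 3 := by decide +kernel
theorem pair_card0 : ∀ m, m < 1024 → tb pairTable m = true → (setOf m).card = 2 := by decide +kernel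

theorem quad_card {m : ℕ} (h : tb quadTable m = true) : (setOf m).card = 4 :=
  quad_card0 m (lt_of_tb quad_small h) h
theorem tri_card {m : ℕ} (h : tb triTable m = true) : (setOf m).card = 3 :=
  tri_card0 m (lt_of_tb tri_small h) h
theorem pair_card {m : ℕ} (h : tb pairTable m = true) : (setOf m).card = 2 :=
  pair_card0 m (lt_of_tb pair_small h) h

theorem setOf_lor (a b : ℕ) : setOf (Nat.lor a b) = setOf a ∪ setOf b := by
  ext i
  simp only [mem_setOf, mem_union, testBit_lor, Bool.or_eq_true]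

theorem setOf_disjoint {a b : ℕ} (h : Nat.land a b = 0) : Disjoint (setOf a) (setOf b) := by
  rw [Finset.disjoint_left]
  intro i hi hj
  rw [mem_setOf] at hi hj
  have : (Nat.land a b).testBit i.val = true := by rw [testBit_land, hi, hj]; rfl
  rw [h] at this
  simp at this

theorem testBit_pw_iff (a i : ℕ) : (pw a).testBit i = true ↔ a = i := by
  have : pw a = 2 ^ a := by
    show 1 <<< a = 2 ^ a
    rw [Nat.one_shiftLeft]
  rw [this, Nat.testBit_two_pow]
  simp

theorem setOf_pw {a : ℕ} (ha : a < 10) : setOf (pw a) = {⟨a, ha⟩} := by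
  ext i
  rw [mem_setOf, testBit_pw_iff, mem_singleton]
  constructor
  · intro h; ext; exact h.symm
  · intro h; rw [h]

theorem setOf_1023 : setOf 1023 = univ := by decide +kernel

theorem bit1023 : ∀ i : Fin 10, Nat.testBit 1023 i.val = true := by decide

theorem setOf_cmp {Q x : ℕ} (h : Nat.land Q x = 0) : setOf (cmp Q x) = (setOf Q)ᶜ \ setOf x := by
  ext i
  have hd := setOf_disjoint h
  rw [Finset.disjoint_left] at hd
  have h1 := hd (a := i)
  simp only [mem_sdiff, mem_compl, mem_setOf] at h1 ⊢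
  show (Nat.xor (Nat.xor 1023 Q) x).testBit i.val = true ↔ _
  rw [testBit_xor, testBit_xor, bit1023 i]
  cases hq : Q.testBit i.val <;> cases hx : x.testBit i.val <;> simp_all

theorem lt10_of_lor {x a : ℕ} (h : x.testBit a = true) (hx : x < 1024) : a < 10 := by
  by_contra ha
  have : x.testBit a = false :=
    Nat.testBit_eq_false_of_lt (lt_of_lt_of_le hx
      (by
        calc 1024 = 2 ^ 10 := by norm_num
          _ ≤ 2 ^ a := Nat.pow_le_pow_right (by norm_num) (by omega)))
  rw [this] at h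
  exact absurd h (by simp)

/-- The assignment of the variables (masks) induced by a relabelling `σ`. -/
noncomputable def vv (F4 F3 : Finset (Fin 10) → Prop) (σ : Equiv.Perm (Fin 10)) (m : ℕ) : Bool :=
  open Classical in
  decide (if (setOf m).card = 4 then F4 ((setOf m).map σ.toEmbedding)
    else F3 ((setOf m).map σ.toEmbedding))

variable {F4 F3 : Finset (Fin 10) → Prop} {σ : Equiv.Perm (Fin 10)}

theorem vv_quad {m : ℕ} (h : (setOf m).card = 4) :
    vv F4 F3 σ m = true ↔ F4 ((setOf m).map σ.toEmbedding) := by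
  simp [vv, h]

theorem vv_tri {m : ℕ} (h : (setOf m).card ≠ 4) :
    vv F4 F3 σ m = true ↔ F3 ((setOf m).map σ.toEmbedding) := by
  simp [vv, h]

/-- The hypotheses of the core, for a tetrahedron: the selection is what is in `F3`. -/
theorem mem_Z_iff
    (hP2 : ∀ Q T T', Q.card = 4 → T.card = 3 → T'.card = 3 → F4 Q → F3 T → F3 T' →
      Q ∪ T ∪ T' = univ → False)
    {Q : Finset (Fin 10)} (hQ : Q.card = 4) (hFQ : F4 Q) {Z : Finset (Finset (Fin 10))}
    (hZ1 : ∀ T ∈ Z, T.card = 3 ∧ Disjoint T Q ∧ F3 T ∧ ∃ m ∈ Q, F4 (insert m T))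
    (hZ2 : ∀ T, T.card = 3 → Disjoint T Q → (T ∈ Z ↔ (Qᶜ \ T) ∉ Z))
    {T : Finset (Fin 10)} (hT : T.card = 3) (hTQ : Disjoint T Q) : F3 T ↔ T ∈ Z := by
  constructor
  · intro hF
    by_contra hn
    have h' : (Qᶜ \ T) ∈ Z := by
      by_contra h''
      exact hn ((hZ2 T hT hTQ).mpr h'')
    obtain ⟨h1, _, h3, _⟩ := hZ1 _ h'
    refine hP2 Q T _ hQ hT h1 hFQ hF h3 ?_
    ext i
    simp only [mem_union, mem_sdiff, mem_compl, mem_univ, iff_true]
    tauto
  · intro h
    exact (hZ1 T h).2.2.1

/-- parity of four membership tests -/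
theorem even_four {Q e : Finset (Fin 10)} {A B C D : Fin 10} (hQ : Q.card = 4) (he : e.card = 2)
    (hd : Disjoint e Q) (hU : Q ∪ e ∪ {A, B, C, D} = univ) {Z : Finset (Finset (Fin 10))}
    (hZc : ∀ T ∈ Z, T.card = 3 ∧ Disjoint T Q)
    (hEven : Even (Z.filter (fun T => e ⊆ T)).card) [∀ T, Decidable (T ∈ Z)] :
    (decide (insert A e ∈ Z) ^^ decide (insert B e ∈ Z) ^^ decide (insert C e ∈ Z) ^^
      decide (insert D e ∈ Z)) = false := by
  classical
  set U : Finset (Fin 10) := {A, B, C, D} with hUdef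
  have hQe : (Q ∪ e).card = 6 := by
    rw [Finset.card_union_of_disjoint hd.symm, hQ, he]
  have hUle : U.card ≤ 4 := Finset.card_le_four
  have hcard := Finset.card_union_add_card_inter (Q ∪ e) U
  rw [hU, hQe, Finset.card_univ, Fintype.card_fin] at hcard
  have hU4 : U.card = 4 := by omega
  have hinter : ((Q ∪ e) ∩ U).card = 0 := by omega
  have hdisj : Disjoint (Q ∪ e) U := by
    rw [Finset.disjoint_iff_inter_eq_empty]
    exact Finset.card_eq_zero.mp hinter
  have hAB : A ≠ B := by
    rintro rfl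
    have : U.card ≤ 3 := by
      rw [hUdef, show ({A, A, C, D} : Finset (Fin 10)) = {A, C, D} by simp]
      exact Finset.card_le_three
    omega
  have hAC : A ≠ C := by
    rintro rfl
    have : U.card ≤ 3 := by
      rw [hUdef, show ({A, B, A, D} : Finset (Fin 10)) = {A, B, D} by
        ext x; simp only [mem_insert, mem_singleton]; tauto]
      exact Finset.card_le_three
    omega
  have hAD : A ≠ D := by
    rintro rfl
    have : U.card ≤ 3 := by
      rw [hUdef, show ({A, B, C, A} : Finset (Fin 10)) = {A, B, C} by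
        ext x; simp only [mem_insert, mem_singleton]; tauto]
      exact Finset.card_le_three
    omega
  have hBC : B ≠ C := by
    rintro rfl
    have : U.card ≤ 3 := by
      rw [hUdef, show ({A, B, B, D} : Finset (Fin 10)) = {A, B, D} by
        ext x; simp only [mem_insert, mem_singleton]; tauto]
      exact Finset.card_le_three
    omega
  have hBD : B ≠ D := by
    rintro rfl
    have : U.card ≤ 3 := by
      rw [hUdef, show ({A, B, C, B} : Finset (Fin 10)) = {A, B, C} by
        ext x; simp only [mem_insert, mem_singleton]; tauto]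
      exact Finset.card_le_three
    omega
  have hCD : C ≠ D := by
    rintro rfl
    have : U.card ≤ 3 := by
      rw [hUdef, show ({A, B, C, C} : Finset (Fin 10)) = {A, B, C} by
        ext x; simp only [mem_insert, mem_singleton]; tauto]
      exact Finset.card_le_three
    omega
  have hUe : ∀ j ∈ U, j ∉ e := by
    intro j hj hje
    exact (Finset.disjoint_left.mp hdisj (mem_union_right _ hje)) hj
  -- the filter is parametrised by U
  have hfil : Z.filter (fun T => e ⊆ T) =
      (U.filter (fun j => insert j e ∈ Z)).image (fun j => insert j e) := by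
    ext T
    simp only [mem_filter, mem_image]
    constructor
    · rintro ⟨hTZ, heT⟩
      obtain ⟨hT3, hTQ⟩ := hZc T hTZ
      have hsd : (T \ e).card = 1 := by
        rw [Finset.card_sdiff_of_subset heT, hT3, he]
      obtain ⟨j, hj⟩ := Finset.card_eq_one.mp hsd
      have hjT : j ∈ T \ e := by rw [hj]; exact mem_singleton_self j
      have hjT' := mem_sdiff.mp hjT
      have hTeq : T = insert j e := by
        ext x
        simp only [mem_insert]
        constructor
        · intro hx
          by_cases hxe : x ∈ e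
          · exact Or.inr hxe
          · left
            have : x ∈ T \ e := mem_sdiff.mpr ⟨hx, hxe⟩
            rw [hj] at this
            exact mem_singleton.mp this
        · rintro (rfl | hx)
          · exact hjT'.1
          · exact heT hx
      refine ⟨j, ⟨?_, hTeq ▸ hTZ⟩, hTeq.symm⟩
      have hjQ : j ∉ Q := Finset.disjoint_left.mp hTQ hjT'.1
      have : j ∈ Q ∪ e ∪ U := by rw [hU]; exact mem_univ j
      rcases mem_union.mp this with h | h
      · rcases mem_union.mp h with h | h
        · exact absurd h hjQ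
        · exact absurd h hjT'.2
      · exact h
    · rintro ⟨j, ⟨_, hjZ⟩, rfl⟩
      exact ⟨hjZ, Finset.subset_insert _ _⟩
  have hinj : Set.InjOn (fun j => insert j e) ((U.filter (fun j => insert j e ∈ Z) : Finset _) : Set (Fin 10)) := by
    intro a ha b hb hab
    have ha' := (mem_filter.mp (Finset.mem_coe.mp ha)).1
    have hb' := (mem_filter.mp (Finset.mem_coe.mp hb)).1
    have : a ∈ insert b e := by
      have h := mem_insert_self a e
      simp only at hab
      rwa [hab] at h
    rcases mem_insert.mp this with h | h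
    · exact h
    · exact absurd h (hUe a ha')
  rw [hfil, Finset.card_image_of_injOn hinj, Finset.card_filter] at hEven
  have hsum : ∑ j ∈ U, (if insert j e ∈ Z then 1 else 0) =
      (decide (insert A e ∈ Z)).toNat + (decide (insert B e ∈ Z)).toNat +
        (decide (insert C e ∈ Z)).toNat + (decide (insert D e ∈ Z)).toNat := by
    rw [hUdef, Finset.sum_insert (by simp [hAB, hAC, hAD]), Finset.sum_insert (by simp [hBC, hBD]),
      Finset.sum_insert (by simp [hCD]), Finset.sum_singleton]
    by_cases h1 : insert A e ∈ Z <;> by_cases h2 : insert B e ∈ Z <;> by_cases h3 : insert C e ∈ Z <;>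
      by_cases h4 : insert D e ∈ Z <;> simp [h1, h2, h3, h4]
  rw [hsum] at hEven
  generalize decide (insert A e ∈ Z) = a at hEven ⊢
  generalize decide (insert B e ∈ Z) = b at hEven ⊢
  generalize decide (insert C e ∈ Z) = c at hEven ⊢
  generalize decide (insert D e ∈ Z) = d at hEven ⊢
  revert a b c d
  decide

section Core

variable
    (hP1 : ∀ Q Q', Q.card = 4 → Q'.card = 4 → F4 Q → F4 Q' → ¬ Disjoint Q Q')
    (hP2 : ∀ Q T T', Q.card = 4 → T.card = 3 → T'.card = 3 → F4 Q → F3 T → F3 T' →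
      Q ∪ T ∪ T' = univ → False)
    (hZ : ∀ Q, Q.card = 4 → F4 Q → ∃ Z : Finset (Finset (Fin 10)),
      (∀ T ∈ Z, T.card = 3 ∧ Disjoint T Q ∧ F3 T ∧ ∃ m ∈ Q, F4 (insert m T)) ∧
      (∀ T, T.card = 3 → Disjoint T Q → (T ∈ Z ↔ (Qᶜ \ T) ∉ Z)) ∧
      (∀ e : Finset (Fin 10), e.card = 2 → Disjoint e Q → Even (Z.filter (fun T => e ⊆ T)).card))

include hP1 in
theorem v_p1 (Q x : ℕ) (h1 : tb quadTable Q = true) (h2 : tb quadTable x = true)
    (h3 : Nat.land Q x = 0) (hQ : vv F4 F3 σ Q = true) (hx : vv F4 F3 σ x = true) : False := by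
  have hc1 := quad_card h1
  have hc2 := quad_card h2
  rw [vv_quad hc1] at hQ
  rw [vv_quad hc2] at hx
  refine hP1 _ _ (by rw [card_map, hc1]) (by rw [card_map, hc2]) hQ hx ?_
  rw [Finset.disjoint_map]
  exact setOf_disjoint h3

theorem map_cmp {Q x : ℕ} (h3 : Nat.land Q x = 0) :
    (setOf (cmp Q x)).map σ.toEmbedding =
      ((setOf Q).map σ.toEmbedding)ᶜ \ (setOf x).map σ.toEmbedding := by
  rw [setOf_cmp h3]
  ext i
  simp only [Finset.mem_map_equiv, mem_sdiff, mem_compl]

theorem card_cmp {Q x : ℕ} (h1 : (setOf Q).card = 4) (h2 : (setOf x).card = 3)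
    (h3 : Nat.land Q x = 0) : (setOf (cmp Q x)).card = 3 := by
  rw [setOf_cmp h3]
  have hd := setOf_disjoint h3
  have hsub : setOf x ⊆ (setOf Q)ᶜ := by
    intro i hi
    rw [mem_compl]
    exact fun hq => (Finset.disjoint_left.mp hd hq) hi
  rw [Finset.card_sdiff_of_subset hsub, Finset.card_compl, h1, h2, Fintype.card_fin]

include hP2 hZ in
theorem v_tri_iff (Q x : ℕ) (h1 : tb quadTable Q = true) (h2 : tb triTable x = true)
    (h3 : Nat.land Q x = 0) (hQ : vv F4 F3 σ Q = true) :
    vv F4 F3 σ x = true ∨ vv F4 F3 σ (cmp Q x) = true := by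
  have hc1 := quad_card h1
  have hc2 := tri_card h2
  have hc3 := card_cmp hc1 hc2 h3
  rw [vv_quad hc1] at hQ
  rw [vv_tri (by omega), vv_tri (by omega), map_cmp h3]
  obtain ⟨Z, hZ1, hZ2, _⟩ := hZ _ (by rw [card_map, hc1]) hQ
  have hd : Disjoint ((setOf x).map σ.toEmbedding) ((setOf Q).map σ.toEmbedding) := by
    rw [Finset.disjoint_map]
    exact (setOf_disjoint h3).symm
  have hT : ((setOf x).map σ.toEmbedding).card = 3 := by rw [card_map, hc2]
  by_cases hm : (setOf x).map σ.toEmbedding ∈ Z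
  · exact Or.inl (hZ1 _ hm).2.2.1
  · have : ((setOf Q).map σ.toEmbedding)ᶜ \ (setOf x).map σ.toEmbedding ∈ Z := by
      by_contra hn
      exact hm ((hZ2 _ hT hd).mpr hn)
    exact Or.inr (hZ1 _ this).2.2.1

include hP2 in
theorem v_nand (Q x : ℕ) (h1 : tb quadTable Q = true) (h2 : tb triTable x = true)
    (h3 : Nat.land Q x = 0) (hQ : vv F4 F3 σ Q = true) (hx : vv F4 F3 σ x = true)
    (hy : vv F4 F3 σ (cmp Q x) = true) : False := by
  have hc1 := quad_card h1
  have hc2 := tri_card h2
  have hc3 := card_cmp hc1 hc2 h3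
  rw [vv_quad hc1] at hQ
  rw [vv_tri (by omega)] at hx hy
  refine hP2 _ _ _ (by rw [card_map, hc1]) (by rw [card_map, hc2]) (by rw [card_map, hc3]) hQ hx hy ?_
  rw [map_cmp h3]
  ext i
  simp only [mem_union, mem_sdiff, mem_compl, mem_univ, iff_true]
  tauto

include hP2 hZ in
theorem v_even (Q x a b c d : ℕ) (h1 : tb quadTable Q = true) (h2 : tb pairTable x = true)
    (h3 : Nat.land Q x = 0)
    (h4 : Nat.lor (Nat.lor Q x) (Nat.lor (Nat.lor (pw a) (pw b)) (Nat.lor (pw c) (pw d))) = 1023)
    (hQ : vv F4 F3 σ Q = true) :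
    (vv F4 F3 σ (Nat.lor x (pw a)) ^^ vv F4 F3 σ (Nat.lor x (pw b)) ^^ vv F4 F3 σ (Nat.lor x (pw c)) ^^
      vv F4 F3 σ (Nat.lor x (pw d))) = false := by
  classical
  have hc1 := quad_card h1
  have hc2 := pair_card h2
  rw [vv_quad hc1] at hQ
  -- bounds
  have hbit : ∀ j, (pw j).testBit j = true → (Nat.lor (Nat.lor Q x)
      (Nat.lor (Nat.lor (pw a) (pw b)) (Nat.lor (pw c) (pw d)))).testBit j = true →
      j < 10 := by
    intro j _ h
    rw [h4] at h
    exact lt10_of_lor h (by norm_num)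
  have ha : a < 10 := hbit a (testBit_pw a) (tb_or_r (tb_or_l (tb_or_l (testBit_pw a))))
  have hb : b < 10 := hbit b (testBit_pw b) (tb_or_r (tb_or_l (tb_or_r (testBit_pw b))))
  have hc : c < 10 := hbit c (testBit_pw c) (tb_or_r (tb_or_r (tb_or_l (testBit_pw c))))
  have hd : d < 10 := hbit d (testBit_pw d) (tb_or_r (tb_or_r (tb_or_r (testBit_pw d))))
  have hdis := setOf_disjoint h3
  set A : Fin 10 := ⟨a, ha⟩
  set B : Fin 10 := ⟨b, hb⟩
  set C : Fin 10 := ⟨c, hc⟩
  set D : Fin 10 := ⟨d, hd⟩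
  have hU0 : setOf Q ∪ setOf x ∪ ({A, B, C, D} : Finset (Fin 10)) = univ := by
    rw [← setOf_1023, ← h4, setOf_lor, setOf_lor, setOf_lor, setOf_lor, setOf_lor, setOf_pw ha,
      setOf_pw hb, setOf_pw hc, setOf_pw hd]
    ext i
    simp only [mem_union, mem_insert, mem_singleton]
    tauto
  -- the images
  set Qh := (setOf Q).map σ.toEmbedding with hQh
  set e := (setOf x).map σ.toEmbedding with he
  have hQhc : Qh.card = 4 := by rw [hQh, card_map, hc1]
  have hec : e.card = 2 := by rw [he, card_map, hc2]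
  have hde : Disjoint e Qh := by
    rw [he, hQh, Finset.disjoint_map]
    exact hdis.symm
  have hUh : Qh ∪ e ∪ {σ A, σ B, σ C, σ D} = univ := by
    have := congrArg (Finset.map σ.toEmbedding) hU0
    rw [Finset.map_union, Finset.map_union, Finset.map_univ_equiv] at this
    rw [← this]
    congr 1
    ext i
    simp [Finset.mem_map_equiv, Equiv.symm_apply_eq]
  obtain ⟨Z, hZ1, hZ2, hZ3⟩ := hZ _ hQhc hQ
  have hev := hZ3 e hec hde
  have key := even_four hQhc hec hde hUh (fun T hT => ⟨(hZ1 T hT).1, (hZ1 T hT).2.1⟩) hev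
  -- each variable is the membership
  have hv : ∀ j, ∀ hj : j < 10, vv F4 F3 σ (Nat.lor x (pw j)) =
      decide (insert (σ ⟨j, hj⟩) e ∈ Z) ∨ (⟨j, hj⟩ : Fin 10) ∈ setOf Q ∪ setOf x := by
    intro j hj
    by_cases hin : (⟨j, hj⟩ : Fin 10) ∈ setOf Q ∪ setOf x
    · exact Or.inr hin
    left
    have hnot : (⟨j, hj⟩ : Fin 10) ∉ setOf x := fun h => hin (mem_union_right _ h)
    have hnotQ : (⟨j, hj⟩ : Fin 10) ∉ setOf Q := fun h => hin (mem_union_left _ h)
    have hset : setOf (Nat.lor x (pw j)) = insert ⟨j, hj⟩ (setOf x) := by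
      rw [setOf_lor, setOf_pw hj]
      ext i
      simp only [mem_union, mem_insert, mem_singleton]
      tauto
    have hcard3 : (setOf (Nat.lor x (pw j))).card = 3 := by
      rw [hset, Finset.card_insert_of_notMem hnot, hc2]
    have hmap : (setOf (Nat.lor x (pw j))).map σ.toEmbedding = insert (σ ⟨j, hj⟩) e := by
      rw [hset, Finset.map_insert]
      rfl
    have hiff := vv_tri (F4 := F4) (F3 := F3) (σ := σ) (m := Nat.lor x (pw j)) (by omega)
    rw [hmap] at hiff
    have hT3 : (insert (σ ⟨j, hj⟩) e).card = 3 := by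
      rw [← hmap, card_map, hcard3]
    have hTd : Disjoint (insert (σ ⟨j, hj⟩) e) Qh := by
      rw [← hmap, hQh, Finset.disjoint_map, hset, Finset.disjoint_insert_left]
      exact ⟨hnotQ, hdis.symm⟩
    have hZiff := mem_Z_iff hP2 hQhc hQ hZ1 hZ2 hT3 hTd
    rw [Bool.eq_iff_iff, decide_eq_true_iff, hiff, hZiff]
  -- distinctness and disjointness from counting, as in `even_four`
  have hcardQe : (setOf Q ∪ setOf x).card = 6 := by
    rw [Finset.card_union_of_disjoint hdis, hc1, hc2]
  have hUle : ({A, B, C, D} : Finset (Fin 10)).card ≤ 4 := Finset.card_le_four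
  have hcard := Finset.card_union_add_card_inter (setOf Q ∪ setOf x) ({A, B, C, D} : Finset (Fin 10))
  rw [hU0, hcardQe, Finset.card_univ, Fintype.card_fin] at hcard
  have hinter : ((setOf Q ∪ setOf x) ∩ ({A, B, C, D} : Finset (Fin 10))).card = 0 := by omega
  have hnotin : ∀ j ∈ ({A, B, C, D} : Finset (Fin 10)), j ∉ setOf Q ∪ setOf x := by
    intro j hj hj'
    have : j ∈ (setOf Q ∪ setOf x) ∩ ({A, B, C, D} : Finset (Fin 10)) := mem_inter.mpr ⟨hj', hj⟩
    rw [Finset.card_eq_zero.mp hinter] at this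
    simp at this
  have h_a := (hv a ha).resolve_right (hnotin A (by simp))
  have h_b := (hv b hb).resolve_right (hnotin B (by simp))
  have h_c := (hv c hc).resolve_right (hnotin C (by simp))
  have h_d := (hv d hd).resolve_right (hnotin D (by simp))
  rw [h_a, h_b, h_c, h_d]
  exact key

include hP2 hZ in
theorem v_ext (Q x a b c d : ℕ) (h1 : tb quadTable Q = true) (h2 : tb triTable x = true)
    (h3 : Nat.land Q x = 0)
    (h4 : Nat.lor (Nat.lor (pw a) (pw b)) (Nat.lor (pw c) (pw d)) = Q)
    (hQ : vv F4 F3 σ Q = true) (hx : vv F4 F3 σ x = true) :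
    vv F4 F3 σ (Nat.lor x (pw a)) = true ∨ vv F4 F3 σ (Nat.lor x (pw b)) = true ∨
      vv F4 F3 σ (Nat.lor x (pw c)) = true ∨ vv F4 F3 σ (Nat.lor x (pw d)) = true := by
  classical
  have hc1 := quad_card h1
  have hc2 := tri_card h2
  have hQlt := lt_of_tb quad_small h1
  rw [vv_quad hc1] at hQ
  rw [vv_tri (by omega)] at hx
  have hdis := setOf_disjoint h3
  have ha : a < 10 := by
    refine lt10_of_lor (x := Q) ?_ hQlt
    rw [← h4]; exact tb_or_l (tb_or_l (testBit_pw a))
  have hb : b < 10 := by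
    refine lt10_of_lor (x := Q) ?_ hQlt
    rw [← h4]; exact tb_or_l (tb_or_r (testBit_pw b))
  have hc : c < 10 := by
    refine lt10_of_lor (x := Q) ?_ hQlt
    rw [← h4]; exact tb_or_r (tb_or_l (testBit_pw c))
  have hd : d < 10 := by
    refine lt10_of_lor (x := Q) ?_ hQlt
    rw [← h4]; exact tb_or_r (tb_or_r (testBit_pw d))
  have hQset : setOf Q = {⟨a, ha⟩, ⟨b, hb⟩, ⟨c, hc⟩, ⟨d, hd⟩} := by
    rw [← h4, setOf_lor, setOf_lor, setOf_lor, setOf_pw ha, setOf_pw hb, setOf_pw hc, setOf_pw hd]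
    ext i
    simp only [mem_union, mem_insert, mem_singleton]
    tauto
  have hQhc : ((setOf Q).map σ.toEmbedding).card = 4 := by rw [card_map, hc1]
  have hde : Disjoint ((setOf x).map σ.toEmbedding) ((setOf Q).map σ.toEmbedding) := by
    rw [Finset.disjoint_map]
    exact hdis.symm
  have hT3 : ((setOf x).map σ.toEmbedding).card = 3 := by rw [card_map, hc2]
  obtain ⟨Z, hZ1, hZ2, _⟩ := hZ _ hQhc hQ
  have hmem := (mem_Z_iff hP2 hQhc hQ hZ1 hZ2 hT3 hde).mp hx
  obtain ⟨_, _, _, m, hm, hF⟩ := hZ1 _ hmem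
  rw [Finset.mem_map_equiv] at hm
  -- the general step
  have hstep : ∀ j, ∀ hj : j < 10, (⟨j, hj⟩ : Fin 10) ∈ setOf Q → σ ⟨j, hj⟩ = m →
      vv F4 F3 σ (Nat.lor x (pw j)) = true := by
    intro j hj hjQ hjm
    have hnot : (⟨j, hj⟩ : Fin 10) ∉ setOf x := fun h => (Finset.disjoint_left.mp hdis hjQ) h
    have hset : setOf (Nat.lor x (pw j)) = insert ⟨j, hj⟩ (setOf x) := by
      rw [setOf_lor, setOf_pw hj]
      ext i
      simp only [mem_union, mem_insert, mem_singleton]
      tauto
    have hcard4 : (setOf (Nat.lor x (pw j))).card = 4 := by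
      rw [hset, Finset.card_insert_of_notMem hnot, hc2]
    rw [vv_quad hcard4, hset, Finset.map_insert]
    have : σ.toEmbedding ⟨j, hj⟩ = m := hjm
    rw [this]
    exact hF
  have hsymm := hm
  have hmem2 := hsymm
  rw [hQset] at hmem2
  simp only [mem_insert, mem_singleton] at hmem2
  rcases hmem2 with h | h | h | h
  · left
    exact hstep a ha (by rw [hQset]; simp) (by rw [← h]; simp)
  · right; left
    exact hstep b hb (by rw [hQset]; simp) (by rw [← h]; simp)
  · right; right; left
    exact hstep c hc (by rw [hQset]; simp) (by rw [← h]; simp)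
  · right; right; right
    exact hstep d hd (by rw [hQset]; simp) (by rw [← h]; simp)

include hP1 hP2 hZ in
/-- The assignment induced by `σ` is valid, provided it is right on the unit tables. -/
theorem valid_vv {tp tn : ℕ} (hp : ∀ i, tb tp i = true → vv F4 F3 σ i = true)
    (hn : ∀ i, tb tn i = true → vv F4 F3 σ i = false) : Valid tp tn (vv F4 F3 σ) where
  top_pos := hp
  top_neg := hn
  p1 := v_p1 hP1
  cov := v_tri_iff hP2 hZ
  nand := v_nand hP2
  even := v_even hP2 hZ
  ext := v_ext hP2 hZ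

end Core

/-! ### The patterns on `456789` -/

/-- The twenty triples in `456789`. -/
def triB : List ℕ := [112, 176, 304, 560, 208, 336, 592, 400, 656, 784, 224, 352, 608, 416, 672, 800, 448, 704, 832, 896]

/-- The ten triples in `456789` containing `4`. -/
def T10 : List ℕ := [112, 176, 304, 560, 208, 336, 592, 400, 656, 784]

/-- The pairs in `456789` with the other four points. -/
def pairsB : List (ℕ × ℕ × ℕ × ℕ × ℕ) := [(48,6,7,8,9), (80,5,7,8,9), (144,5,6,8,9), (272,5,6,7,9), (528,5,6,7,8), (96,4,7,8,9), (160,4,6,8,9), (288,4,6,7,9), (544,4,6,7,8), (192,4,5,8,9), (320,4,5,7,9), (576,4,5,7,8), (384,4,5,6,9), (640,4,5,6,8), (768,4,5,6,7)]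

/-- Value on triples from the values on `T10`. -/
def W (bs : List Bool) (m : ℕ) : Bool :=
  if m.testBit 4 then bs.getD (T10.idxOf m) false else !(bs.getD (T10.idxOf (Rup.cmp 15 m)) false)

/-- The even conditions. -/
def evenOK (bs : List Bool) : Bool :=
  pairsB.all fun p =>
    (W bs (Nat.lor p.1 (pw p.2.1)) ^^ W bs (Nat.lor p.1 (pw p.2.2.1)) ^^
      W bs (Nat.lor p.1 (pw p.2.2.2.1)) ^^ W bs (Nat.lor p.1 (pw p.2.2.2.2))) == false

/-- A permutation of `Fin 10` fixing `0,1,2,3`, by the images of `4,…,9`. -/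
def fn (L : List (Fin 10)) (x : Fin 10) : Fin 10 :=
  if x.val < 4 then x else L.getD (x.val - 4) x

/-- The table of relabellings. -/
def permList : List (List (Fin 10)) := [[4, 5, 6, 7, 8, 9], [4, 5, 7, 6, 8, 9], [4, 5, 8, 6, 7, 9], [4, 5, 9, 6, 7, 8], [4, 6, 7, 5, 8, 9], [5, 6, 7, 4, 8, 9], [4, 5, 6, 7, 8, 9], [4, 5, 6, 7, 9, 8], [4, 6, 8, 5, 7, 9], [4, 5, 6, 8, 7, 9], [5, 6, 8, 4, 7, 9], [4, 5, 6, 8, 9, 7], [4, 6, 9, 5, 7, 8], [4, 5, 6, 9, 7, 8], [4, 5, 6, 9, 8, 7], [5, 6, 9, 4, 7, 8], [4, 7, 8, 5, 6, 9], [4, 5, 7, 8, 6, 9], [4, 5, 7, 8, 9, 6], [5, 7, 8, 4, 6, 9], [4, 5, 7, 9, 6, 8], [4, 7, 9, 5, 6, 8], [4, 5, 7, 9, 8, 6], [5, 7, 9, 4, 6, 8], [4, 5, 8, 9, 6, 7], [4, 5, 8, 9, 7, 6], [4, 8, 9, 5, 6, 7], [5, 8, 9, 4, 6, 7], [6, 7, 8, 4, 5, 9], [6, 7, 9, 4, 5, 8], [6, 8, 9, 4, 5, 7], [7, 8, 9, 4, 5, 6]]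

theorem fn_bij : ∀ L ∈ permList, Function.Bijective (fn L) := by decide +kernel

/-- The image of a mask under `fn L`. -/
def pmL (L : List (Fin 10)) (m : ℕ) : ℕ :=
  (List.finRange 10).foldr (fun i acc => if m.testBit i.val then acc ||| 2 ^ (fn L i).val else acc) 0

theorem pmL_spec : ∀ L ∈ permList, ∀ m ∈ 15 :: triB, (setOf m).image (fn L) = setOf (pmL L m) := by
  decide +kernel

theorem pmL_15 : ∀ L ∈ permList, pmL L 15 = 15 := by decide +kernel

theorem pmL_tri : ∀ L ∈ permList, ∀ m ∈ triB, pmL L m ∈ triB := by decide +kernel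

/-- The classification of the patterns. -/
theorem classify : ∀ b0 b1 b2 b3 b4 b5 b6 b7 b8 b9 : Bool,
    evenOK [b0, b1, b2, b3, b4, b5, b6, b7, b8, b9] = true →
    ∃ L ∈ permList,
      (∀ m ∈ triB, W [b0, b1, b2, b3, b4, b5, b6, b7, b8, b9] (pmL L m) = tb DataRp.tp m) ∨
      (∀ m ∈ triB, W [b0, b1, b2, b3, b4, b5, b6, b7, b8, b9] (pmL L m) = tb DataOther.tp m) := by
  decide +kernel

theorem T10_spec : ∀ T ∈ T10, tb triTable T = true ∧ Nat.land 15 T = 0 := by decide +kernel

theorem pairsB_spec : ∀ p ∈ pairsB, tb pairTable p.1 = true ∧ Nat.land 15 p.1 = 0 ∧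
    Nat.lor (Nat.lor 15 p.1) (Nat.lor (Nat.lor (pw p.2.1) (pw p.2.2.1))
      (Nat.lor (pw p.2.2.2.1) (pw p.2.2.2.2))) = 1023 ∧
    Nat.lor p.1 (pw p.2.1) ∈ triB ∧ Nat.lor p.1 (pw p.2.2.1) ∈ triB ∧
    Nat.lor p.1 (pw p.2.2.2.1) ∈ triB ∧ Nat.lor p.1 (pw p.2.2.2.2) ∈ triB := by decide +kernel

theorem quad15 : tb quadTable 15 = true := by decide +kernel

theorem W_eq (w : ℕ → Bool) (hx : ∀ T ∈ T10, w (Rup.cmp 15 T) = !(w T)) :
    ∀ m ∈ triB, w m = W (T10.map w) m := by
  intro m hm
  by_cases hm4 : m ∈ T10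
  · have hbit : m.testBit 4 = true := by
      revert m
      decide +kernel
    have h1 : W (T10.map w) m = (T10.map w).getD (T10.idxOf m) false := by
      simp only [W, hbit, if_true]
    rw [h1]
    have hlt : T10.idxOf m < T10.length := List.idxOf_lt_length_iff.mpr hm4
    rw [List.getD_eq_getElem _ _ (by simpa using hlt)]
    simp only [List.getElem_map, List.getElem_idxOf]
  · have hbit : m.testBit 4 = false := by
      revert m
      decide +kernel
    have hc : Rup.cmp 15 m ∈ T10 := by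
      revert m
      decide +kernel
    have hcc : Rup.cmp 15 (Rup.cmp 15 m) = m := by
      revert m hc hm4 hbit
      intro m hm
      revert m
      decide +kernel
    have h1 : W (T10.map w) m = !(T10.map w).getD (T10.idxOf (Rup.cmp 15 m)) false := by
      simp only [W, hbit]
      rfl
    rw [h1]
    have hlt : T10.idxOf (Rup.cmp 15 m) < T10.length := List.idxOf_lt_length_iff.mpr hc
    rw [List.getD_eq_getElem _ _ (by simpa using hlt)]
    simp only [List.getElem_map, List.getElem_idxOf]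
    have := hx _ hc
    rw [hcc] at this
    exact this

theorem tpR_spec : ∀ i, i < 1024 → tb DataRp.tp i = true → i = 15 ∨ i ∈ triB := by decide +kernel
theorem tnR_spec : ∀ i, i < 1024 → tb DataRp.tn i = true → i ∈ triB ∧ tb DataRp.tp i = false := by
  decide +kernel
theorem tpO_spec : ∀ i, i < 1024 → tb DataOther.tp i = true → i = 15 ∨ i ∈ triB := by decide +kernel
theorem tnO_spec : ∀ i, i < 1024 → tb DataOther.tn i = true → i ∈ triB ∧ tb DataOther.tp i = false := by
  decide +kernel
theorem tpR_small : DataRp.tp < 2 ^ 1024 := by decide +kernel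
theorem tnR_small : DataRp.tn < 2 ^ 1024 := by decide +kernel
theorem tpO_small : DataOther.tp < 2 ^ 1024 := by decide +kernel
theorem tnO_small : DataOther.tn < 2 ^ 1024 := by decide +kernel

end CoreBridge

end Crest.Agent.S0069Lib
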