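import Mathlib

/-!
# A small RUP proof checker that runs inside the kernel

Clauses are pairs of bit masks over variables `0,1,2,...` (here a variable is itself a 10 bit mask, a subset of
`Fin 10`).  `run` replays a proof: a list of `Nat`-encoded steps, each either a clause of the original problem
(validated against a side condition) or a RUP clause with hints.  It is written with the raw recursors and raw `Nat`
operations, so that the kernel's GMP acceleration does the work.  `run_sound` is its soundness.
-/

set_option autoImplicit false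

namespace Crest.Agent.S0069Lib.Rup

/-- A clause: `p` the positive variables, `n` the negative ones. -/
structure Cl where
  p : Nat
  n : Nat

/-- The clause database: a binary trie. -/
inductive DB
  | empty
  | leaf (c : Cl)
  | node (l r : DB)

/-- The tautology `x₀ ∨ ¬ x₀`. -/
def taut : Cl := ⟨1, 1⟩

/-- Lookup, along the bits of the key. -/
noncomputable def DB.get (t : DB) : Nat → Cl :=
  DB.rec (motive := fun _ => Nat → Cl) (fun _ => taut) (fun c _ => c)
    (fun _ _ ihl ihr k =>
      Bool.rec (ihr (Nat.shiftRight k 1)) (ihl (Nat.shiftRight k 1)) (Nat.beq (Nat.land k 1) 0)) t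

/-- Insert at a key of `d` bits. -/
noncomputable def DB.ins (d : Nat) : DB → Nat → Cl → DB :=
  Nat.rec (motive := fun _ => DB → Nat → Cl → DB) (fun _ _ c => DB.leaf c)
    (fun _ ih t k c =>
      DB.rec (motive := fun _ => DB)
        (Bool.rec (DB.node DB.empty (ih DB.empty (Nat.shiftRight k 1) c))
          (DB.node (ih DB.empty (Nat.shiftRight k 1) c) DB.empty) (Nat.beq (Nat.land k 1) 0))
        (fun _ =>
          Bool.rec (DB.node DB.empty (ih DB.empty (Nat.shiftRight k 1) c))
          (DB.node (ih DB.empty (Nat.shiftRight k 1) c) DB.empty) (Nat.beq (Nat.land k 1) 0))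
        (fun l r _ _ =>
          Bool.rec (DB.node l (ih r (Nat.shiftRight k 1) c))
            (DB.node (ih l (Nat.shiftRight k 1) c) r) (Nat.beq (Nat.land k 1) 0)) t) d

/-- `x` has at most one bit. -/
@[inline] def single (x : Nat) : Bool := Nat.beq (Nat.land x (Nat.sub x 1)) 0

/-- The RUP loop. `T`,`F`: variables assigned true/false. -/
noncomputable def rup (db : DB) (f : Nat) : Nat → Nat → Nat → Bool :=
  Nat.rec (motive := fun _ => Nat → Nat → Nat → Bool) (fun _ _ _ => false)
    (fun _ ih h T F =>
      (fun c : Cl =>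
        (fun rp : Nat => (fun rn : Nat =>
          Bool.rec
            -- rp ≠ 0
            (Bool.rec false
              (Bool.rec false (ih (Nat.shiftRight h 16) (Nat.lor T rp) F) (single rp))
              (Nat.beq rn 0))
            -- rp = 0
            (Bool.rec
              (Bool.rec false (ih (Nat.shiftRight h 16) T (Nat.lor F rn)) (single rn))
              true
              (Nat.beq rn 0))
            (Nat.beq rp 0))
          (Nat.xor c.n (Nat.land c.n T)))
          (Nat.xor c.p (Nat.land c.p F)))
        (db.get (Nat.land h 65535))) f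

/-- `2^x`. -/
@[inline] def pw (x : Nat) : Nat := Nat.shiftLeft 1 x

/-- Add a literal to a clause: positive if `sg = 0`, else negative. -/
@[inline] def addLit (c : Cl) (x sg : Nat) : Cl :=
  Bool.rec (Cl.mk c.p (Nat.lor c.n (pw x))) (Cl.mk (Nat.lor c.p (pw x)) c.n) (Nat.beq sg 0)

/-- Decode `f` literals of 11 bits each. -/
noncomputable def lits (f : Nat) : Nat → Cl → Cl :=
  Nat.rec (motive := fun _ => Nat → Cl → Cl) (fun _ c => c)
    (fun _ ih L c =>
      ih (Nat.shiftRight L 11) (addLit c (Nat.land L 1023) (Nat.land L 1024))) f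

/-- Table of the 4-subsets of `Fin 10` as masks. -/
def quadTable : Nat := 0x1000000010001011600000001000101160001011601161668000000010001011600010116011616680001011601161668011616681668688000000001000101160001011601161668000101160116166801161668166868800001011601161668011616681668688001161668166868801668688068808000

/-- Table of the 3-subsets of `Fin 10` as masks. -/
def triTable : Nat := 0x100000000000000010000000100010116000000000000000100000001000101160000000100010116000101160116166800000000000000010000000100010116000000010001011600010116011616680000000100010116000101160116166800010116011616680116166816686880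

/-- Table of the 2-subsets of `Fin 10` as masks. -/
def pairTable : Nat := 0x1000000000000000000000000000000010000000000000001000000010001011600000000000000000000000000000001000000000000000100000001000101160000000000000001000000010001011600000001000101160001011601161668

/-- `Nat.testBit` in raw form. -/
@[inline] def tb (x i : Nat) : Bool := Nat.beq (Nat.land (Nat.shiftRight x i) 1) 1

/-- The complement of `Q ∪ T`. -/
@[inline] def cmp (Q T : Nat) : Nat := Nat.xor (Nat.xor 1023 Q) T

/-- `s < 16` has an odd number of bits. -/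
@[inline] def oddS (s : Nat) : Bool := tb 27030 s

/-- and -/
@[inline] def aand (a b : Bool) : Bool := Bool.rec false b a

/-- Kind 1: no two disjoint tetrahedra. -/
@[inline] def c1 (Q x : Nat) : Cl :=
  Bool.rec taut (Cl.mk 0 (Nat.lor (pw Q) (pw x)))
    (aand (tb quadTable Q) (aand (tb quadTable x) (Nat.beq (Nat.land Q x) 0)))

/-- Kind 2: `Q → T ∨ T'`. -/
@[inline] def c2 (Q x : Nat) : Cl :=
  Bool.rec taut (Cl.mk (Nat.lor (pw x) (pw (cmp Q x))) (pw Q))
    (aand (tb quadTable Q) (aand (tb triTable x) (Nat.beq (Nat.land Q x) 0)))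

/-- Kind 3: `Q → ¬ T ∨ ¬ T'`. -/
@[inline] def c3 (Q x : Nat) : Cl :=
  Bool.rec taut (Cl.mk 0 (Nat.lor (pw Q) (Nat.lor (pw x) (pw (cmp Q x)))))
    (aand (tb quadTable Q) (aand (tb triTable x) (Nat.beq (Nat.land Q x) 0)))

/-- Kind 4: parity. -/
@[inline] def c4 (Q x a b c d s : Nat) : Cl :=
  Bool.rec taut
    (addLit (addLit (addLit (addLit (Cl.mk 0 (pw Q))
      (Nat.lor x (pw a)) (Nat.land s 1))
      (Nat.lor x (pw b)) (Nat.land s 2))
      (Nat.lor x (pw c)) (Nat.land s 4))
      (Nat.lor x (pw d)) (Nat.land s 8))
    (aand (tb quadTable Q) (aand (tb pairTable x) (aand (Nat.beq (Nat.land Q x) 0)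
      (aand (Nat.beq (Nat.lor (Nat.lor Q x)
        (Nat.lor (Nat.lor (pw a) (pw b)) (Nat.lor (pw c) (pw d)))) 1023)
        (oddS s)))))

/-- Kind 5: extension. -/
@[inline] def c5 (Q x a b c d : Nat) : Cl :=
  Bool.rec taut
    (Cl.mk (Nat.lor (Nat.lor (pw (Nat.lor x (pw a))) (pw (Nat.lor x (pw b))))
        (Nat.lor (pw (Nat.lor x (pw c))) (pw (Nat.lor x (pw d)))))
      (Nat.lor (pw Q) (pw x)))
    (aand (tb quadTable Q) (aand (tb triTable x) (aand (Nat.beq (Nat.land Q x) 0)
      (Nat.beq (Nat.lor (Nat.lor (pw a) (pw b)) (Nat.lor (pw c) (pw d))) Q))))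

/-- Kind 6: the unit clauses given by the tables `tp`, `tn`. -/
@[inline] def c6 (tp tn Q x : Nat) : Cl :=
  Bool.rec (Bool.rec taut (Cl.mk 0 (pw Q)) (tb tn Q))
    (Bool.rec taut (Cl.mk (pw Q) 0) (tb tp Q))
    (Nat.beq x 0)

/-- A field of 4 bits. -/
@[inline] def f4 (r i : Nat) : Nat := Nat.land (Nat.shiftRight r i) 15

/-- Decoding an original clause. Everything invalid decodes to `taut`. -/
noncomputable def origC (tp tn kind r : Nat) : Cl :=
  (fun Q x : Nat =>
  Nat.rec (motive := fun _ => Cl) taut
    (fun k _ =>
      Nat.rec (motive := fun _ => Cl) (c1 Q x)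
        (fun k _ =>
          Nat.rec (motive := fun _ => Cl) (c2 Q x)
            (fun k _ =>
              Nat.rec (motive := fun _ => Cl) (c3 Q x)
                (fun k _ =>
                  Nat.rec (motive := fun _ => Cl)
                    (c4 Q x (f4 r 20) (f4 r 24) (f4 r 28) (f4 r 32) (f4 r 36))
                    (fun k _ =>
                      Nat.rec (motive := fun _ => Cl)
                        (c5 Q x (f4 r 20) (f4 r 24) (f4 r 28) (f4 r 32))
                        (fun _ _ => c6 tp tn Q x) k) k) k) k) k) kind)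
    (Nat.land r 1023) (Nat.land (Nat.shiftRight r 10) 1023)

/-- The empty clause? -/
@[inline] def isE (c : Cl) : Bool := Nat.beq (Nat.lor c.p c.n) 0

/-- Replaying a proof. -/
noncomputable def run (tp tn : Nat) (l : List Nat) : Nat → DB → Bool :=
  List.rec (motive := fun _ => Nat → DB → Bool) (fun _ _ => false)
    (fun s _ ih id db =>
      (fun r : Nat =>
      Bool.rec
        (ih (Nat.succ id) (db.ins 16 id (origC tp tn (Nat.land s 7) r)))
        ((fun nL nH body : Nat =>
          (fun c : Cl =>
            Bool.rec false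
              (Bool.rec (ih (Nat.succ id) (db.ins 16 id c)) true (isE c))
              (rup db nH (Nat.shiftRight body (Nat.mul 11 nL)) c.n c.p))
            (lits nL body (Cl.mk 0 0)))
          (Nat.land r 255)
          (Nat.land (Nat.shiftRight r 8) 1023)
          (Nat.shiftRight r 18))
        (Nat.beq (Nat.land s 7) 0))
      (Nat.shiftRight s 3)) l

/-! ### Soundness -/

/-- A clause is satisfied by `v`. -/
def Sat (v : Nat → Bool) (c : Cl) : Prop :=
  ∃ i, (c.p.testBit i = true ∧ v i = true) ∨ (c.n.testBit i = true ∧ v i = false)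

theorem sat_taut (v : Nat → Bool) : Sat v taut := by
  refine ⟨0, ?_⟩
  cases h : v 0
  · right; exact ⟨by decide, rfl⟩
  · left; exact ⟨by decide, rfl⟩

/-- All clauses of the database are satisfied. -/
def DB.All (v : Nat → Bool) : DB → Prop
  | .empty => True
  | .leaf c => Sat v c
  | .node l r => DB.All v l ∧ DB.All v r

theorem get_sat {v : Nat → Bool} : ∀ (t : DB), DB.All v t → ∀ k, Sat v (t.get k)
  | .empty, _, _ => sat_taut v
  | .leaf _, h, _ => h
  | .node l r, h, k => by
      have hl := get_sat l h.1
      have hr := get_sat r h.2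
      show Sat v (Bool.rec (r.get (Nat.shiftRight k 1)) (l.get (Nat.shiftRight k 1))
        (Nat.beq (Nat.land k 1) 0))
      cases Nat.beq (Nat.land k 1) 0
      · exact hr _
      · exact hl _

theorem ins_all {v : Nat → Bool} {c : Cl} (hc : Sat v c) :
    ∀ (d : Nat) (t : DB) (k : Nat), DB.All v t → DB.All v (DB.ins d t k c)
  | 0, _, _, _ => hc
  | d + 1, .empty, k, _ => by
      have := ins_all hc d DB.empty (Nat.shiftRight k 1) trivial
      show DB.All v (Bool.rec (DB.node DB.empty (DB.ins d DB.empty (Nat.shiftRight k 1) c))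
          (DB.node (DB.ins d DB.empty (Nat.shiftRight k 1) c) DB.empty) (Nat.beq (Nat.land k 1) 0))
      cases Nat.beq (Nat.land k 1) 0
      · exact ⟨trivial, this⟩
      · exact ⟨this, trivial⟩
  | d + 1, .leaf _, k, _ => by
      have := ins_all hc d DB.empty (Nat.shiftRight k 1) trivial
      show DB.All v (Bool.rec (DB.node DB.empty (DB.ins d DB.empty (Nat.shiftRight k 1) c))
          (DB.node (DB.ins d DB.empty (Nat.shiftRight k 1) c) DB.empty) (Nat.beq (Nat.land k 1) 0))
      cases Nat.beq (Nat.land k 1) 0
      · exact ⟨trivial, this⟩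
      · exact ⟨this, trivial⟩
  | d + 1, .node l r, k, h => by
      show DB.All v (Bool.rec (DB.node l (DB.ins d r (Nat.shiftRight k 1) c))
          (DB.node (DB.ins d l (Nat.shiftRight k 1) c) r) (Nat.beq (Nat.land k 1) 0))
      cases Nat.beq (Nat.land k 1) 0
      · exact ⟨h.1, ins_all hc d r _ h.2⟩
      · exact ⟨ins_all hc d l _ h.1, h.2⟩

/-- Two bits of a number `x` with `x &&& (x-1) = 0` coincide. -/
theorem single_bits : ∀ (x : Nat), Nat.land x (Nat.sub x 1) = 0 → ∀ i j, x.testBit i = true →
    x.testBit j = true → i = j := by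
  intro x
  induction x using Nat.binaryRec with
  | zero => intro _ i j hi; simp at hi
  | bit b y ih =>
    intro h i j hi hj
    cases b with
    | true =>
      -- x = 2 y + 1, x - 1 = 2 y
      have hx : Nat.bit true y = 2 * y + 1 := by simp [Nat.bit]
      have hy : y = 0 := by
        by_contra hne
        obtain ⟨k, hk⟩ : ∃ k, y.testBit k = true := Nat.exists_testBit_of_ne_zero hne |>.imp fun _ h => h
        have : (Nat.land (2 * y + 1) (2 * y)).testBit (k + 1) = true := by
          show ((2 * y + 1) &&& (2 * y)).testBit (k + 1) = true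
          have h1 : (2 * y + 1) / 2 = y := by omega
          have h2 : (2 * y) / 2 = y := by omega
          rw [Nat.testBit_and, Nat.testBit_succ, Nat.testBit_succ, h1, h2, hk]
          rfl
        rw [hx] at h
        have h' : Nat.land (2 * y + 1) (2 * y) = 0 := h
        rw [h'] at this
        simp at this
      subst hy
      have h1 : Nat.bit true 0 = 1 := by decide
      rw [h1] at hi hj
      have hi0 : i = 0 := by
        by_contra hne
        obtain ⟨k, rfl⟩ := Nat.exists_eq_succ_of_ne_zero hne
        simp [Nat.testBit_succ] at hi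
      have hj0 : j = 0 := by
        by_contra hne
        obtain ⟨k, rfl⟩ := Nat.exists_eq_succ_of_ne_zero hne
        simp [Nat.testBit_succ] at hj
      omega
    | false =>
      have hx : Nat.bit false y = 2 * y := by simp [Nat.bit]
      rw [hx] at h hi hj
      by_cases hy : y = 0
      · subst hy; simp at hi
      have hi' : i ≠ 0 := by
        rintro rfl
        simp at hi
      have hj' : j ≠ 0 := by
        rintro rfl
        simp at hj
      obtain ⟨i, rfl⟩ := Nat.exists_eq_succ_of_ne_zero hi'
      obtain ⟨j, rfl⟩ := Nat.exists_eq_succ_of_ne_zero hj'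
      have h2 : (2 * y) / 2 = y := by omega
      simp only [Nat.succ_eq_add_one, Nat.testBit_succ, h2] at hi hj
      have hsub : 2 * y - 1 = 2 * (y - 1) + 1 := by omega
      have hyy : Nat.land y (Nat.sub y 1) = 0 := by
        apply Nat.eq_of_testBit_eq
        intro k
        have : Nat.testBit (Nat.land (2 * y) (Nat.sub (2 * y) 1)) (k + 1) = Nat.testBit 0 (k + 1) := by
          rw [h]
        have h3 : (Nat.land (2 * y) (Nat.sub (2 * y) 1)).testBit (k + 1)
            = (Nat.land y (Nat.sub y 1)).testBit k := by
          show ((2 * y) &&& (2 * y - 1)).testBit (k + 1) = (y &&& (y - 1)).testBit k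
          rw [hsub]
          have h4 : (2 * (y - 1) + 1) / 2 = y - 1 := by omega
          rw [Nat.testBit_and, Nat.testBit_succ, Nat.testBit_succ, Nat.testBit_and, h2, h4]
        rw [h3] at this
        simpa using this
      have := ih hyy i j hi hj
      omega

theorem testBit_land (a b i : Nat) :
    (Nat.land a b).testBit i = (a.testBit i && b.testBit i) := Nat.testBit_and a b i

theorem testBit_lor (a b i : Nat) :
    (Nat.lor a b).testBit i = (a.testBit i || b.testBit i) := Nat.testBit_or a b i

theorem testBit_xor (a b i : Nat) :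
    (Nat.xor a b).testBit i = (a.testBit i ^^ b.testBit i) := Nat.testBit_xor a b i

/-- The bits of `rp = p \ F`. -/
theorem testBit_diff (a b i : Nat) :
    (Nat.xor a (Nat.land a b)).testBit i = (a.testBit i && !b.testBit i) := by
  rw [testBit_xor, testBit_land]
  cases a.testBit i <;> cases b.testBit i <;> rfl

theorem rup_sound {v : Nat → Bool} {db : DB} (hdb : DB.All v db) :
    ∀ (f h T F : Nat), rup db f h T F = true → (∀ i, T.testBit i = true → v i = true) →
      (∀ i, F.testBit i = true → v i = false) → False := by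
  intro f
  induction f with
  | zero => intro h T F hr; exact absurd hr (by simp [rup])
  | succ f ih =>
    intro h T F hr hT hF
    have hsat := get_sat db hdb (Nat.land h 65535)
    set c := db.get (Nat.land h 65535) with hc
    have hr' : (Bool.rec
            (Bool.rec false
              (Bool.rec false (rup db f (Nat.shiftRight h 16)
                (Nat.lor T (Nat.xor c.p (Nat.land c.p F))) F) (single (Nat.xor c.p (Nat.land c.p F))))
              (Nat.beq (Nat.xor c.n (Nat.land c.n T)) 0))
            (Bool.rec
              (Bool.rec false (rup db f (Nat.shiftRight h 16) T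
                (Nat.lor F (Nat.xor c.n (Nat.land c.n T)))) (single (Nat.xor c.n (Nat.land c.n T))))
              true
              (Nat.beq (Nat.xor c.n (Nat.land c.n T)) 0))
            (Nat.beq (Nat.xor c.p (Nat.land c.p F)) 0) : Bool) = true := hr
    obtain ⟨i, hi⟩ := hsat
    -- the satisfied literal is not falsified
    have hlit : (Nat.xor c.p (Nat.land c.p F)).testBit i = true ∧ v i = true ∨
        (Nat.xor c.n (Nat.land c.n T)).testBit i = true ∧ v i = false := by
      rcases hi with ⟨h1, h2⟩ | ⟨h1, h2⟩
      · left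
        refine ⟨?_, h2⟩
        rw [testBit_diff, h1]
        cases hFi : F.testBit i
        · rfl
        · have := hF i hFi
          rw [this] at h2
          exact absurd h2 (by simp)
      · right
        refine ⟨?_, h2⟩
        rw [testBit_diff, h1]
        cases hTi : T.testBit i
        · rfl
        · have := hT i hTi
          rw [this] at h2
          exact absurd h2 (by simp)
    generalize hrp : Nat.xor c.p (Nat.land c.p F) = rp at hr' hlit
    generalize hrn : Nat.xor c.n (Nat.land c.n T) = rn at hr' hlit
    cases hp0 : Nat.beq rp 0 with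
    | true =>
      rw [hp0] at hr'
      have hp : rp = 0 := Nat.eq_of_beq_eq_true hp0
      subst hp
      rcases hlit with ⟨h1, _⟩ | ⟨h1, hvi⟩
      · simp at h1
      · cases hn0 : Nat.beq rn 0 with
        | true =>
          have hn : rn = 0 := Nat.eq_of_beq_eq_true hn0
          subst hn
          simp at h1
        | false =>
          rw [hn0] at hr'
          cases hs : single rn with
          | false => rw [hs] at hr'; exact absurd hr' (by simp)
          | true =>
            rw [hs] at hr'
            refine ih _ T _ hr' hT ?_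
            intro j hj
            rw [testBit_lor] at hj
            rcases Bool.or_eq_true _ _ |>.mp hj with hj | hj
            · exact hF j hj
            · have := single_bits rn (Nat.eq_of_beq_eq_true hs) i j h1 hj
              rw [← this]; exact hvi
    | false =>
      rw [hp0] at hr'
      cases hn0 : Nat.beq rn 0 with
      | false => rw [hn0] at hr'; exact absurd hr' (by simp)
      | true =>
        rw [hn0] at hr'
        have hn : rn = 0 := Nat.eq_of_beq_eq_true hn0
        subst hn
        rcases hlit with ⟨h1, hvi⟩ | ⟨h1, _⟩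
        · cases hs : single rp with
          | false => rw [hs] at hr'; exact absurd hr' (by simp)
          | true =>
            rw [hs] at hr'
            refine ih _ _ F hr' ?_ hF
            intro j hj
            rw [testBit_lor] at hj
            rcases Bool.or_eq_true _ _ |>.mp hj with hj | hj
            · exact hT j hj
            · have := single_bits rp (Nat.eq_of_beq_eq_true hs) i j h1 hj
              rw [← this]; exact hvi
        · simp at h1

theorem sat_of_rup {v : Nat → Bool} {db : DB} (hdb : DB.All v db) {f h : Nat} {c : Cl}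
    (hr : rup db f h c.n c.p = true) : Sat v c := by
  by_contra hc
  refine rup_sound hdb f h c.n c.p hr ?_ ?_
  · intro i hi
    by_contra hvi
    exact hc ⟨i, Or.inr ⟨hi, by simpa using hvi⟩⟩
  · intro i hi
    by_contra hvi
    exact hc ⟨i, Or.inl ⟨hi, by simpa using hvi⟩⟩

/-- The semantic content of the original clauses. -/
structure Valid (tp tn : Nat) (v : Nat → Bool) : Prop where
  top_pos : ∀ i, tb tp i = true → v i = true
  top_neg : ∀ i, tb tn i = true → v i = false
  p1 : ∀ Q x, tb quadTable Q = true → tb quadTable x = true → Nat.land Q x = 0 →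
    v Q = true → v x = true → False
  cov : ∀ Q x, tb quadTable Q = true → tb triTable x = true → Nat.land Q x = 0 →
    v Q = true → v x = true ∨ v (cmp Q x) = true
  nand : ∀ Q x, tb quadTable Q = true → tb triTable x = true → Nat.land Q x = 0 →
    v Q = true → v x = true → v (cmp Q x) = true → False
  even : ∀ Q x a b c d, tb quadTable Q = true → tb pairTable x = true → Nat.land Q x = 0 →
    Nat.lor (Nat.lor Q x) (Nat.lor (Nat.lor (pw a) (pw b)) (Nat.lor (pw c) (pw d))) = 1023 →
    v Q = true →
    (v (Nat.lor x (pw a)) ^^ v (Nat.lor x (pw b)) ^^ v (Nat.lor x (pw c)) ^^ v (Nat.lor x (pw d))) = false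
  ext : ∀ Q x a b c d, tb quadTable Q = true → tb triTable x = true → Nat.land Q x = 0 →
    Nat.lor (Nat.lor (pw a) (pw b)) (Nat.lor (pw c) (pw d)) = Q →
    v Q = true → v x = true →
    v (Nat.lor x (pw a)) = true ∨ v (Nat.lor x (pw b)) = true ∨ v (Nat.lor x (pw c)) = true ∨
      v (Nat.lor x (pw d)) = true

theorem testBit_pw (x : Nat) : (pw x).testBit x = true := by
  show (1 <<< x).testBit x = true
  simp [Nat.one_shiftLeft]

theorem sat_p {v : Nat → Bool} {c : Cl} {i : Nat} (h : c.p.testBit i = true) (hv : v i = true) :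
    Sat v c := ⟨i, Or.inl ⟨h, hv⟩⟩

theorem sat_n {v : Nat → Bool} {c : Cl} {i : Nat} (h : c.n.testBit i = true) (hv : v i = false) :
    Sat v c := ⟨i, Or.inr ⟨h, hv⟩⟩

theorem tb_or_l {a b i : Nat} (h : a.testBit i = true) : (Nat.lor a b).testBit i = true := by
  rw [testBit_lor, h]; rfl

theorem tb_or_r {a b i : Nat} (h : b.testBit i = true) : (Nat.lor a b).testBit i = true := by
  rw [testBit_lor, h]; simp

theorem aand_eq {a b : Bool} : aand a b = true ↔ a = true ∧ b = true := by
  cases a <;> cases b <;> simp [aand]

theorem sat_addLit_l {v : Nat → Bool} {c : Cl} {x sg : Nat} (h : Sat v c) :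
    Sat v (addLit c x sg) := by
  obtain ⟨i, hi⟩ := h
  show Sat v (Bool.rec (Cl.mk c.p (Nat.lor c.n (pw x))) (Cl.mk (Nat.lor c.p (pw x)) c.n) (Nat.beq sg 0))
  cases Nat.beq sg 0
  · rcases hi with ⟨h1, h2⟩ | ⟨h1, h2⟩
    · exact sat_p (c := ⟨_, _⟩) h1 h2
    · exact sat_n (c := ⟨_, _⟩) (tb_or_l h1) h2
  · rcases hi with ⟨h1, h2⟩ | ⟨h1, h2⟩
    · exact sat_p (c := ⟨_, _⟩) (tb_or_l h1) h2
    · exact sat_n (c := ⟨_, _⟩) h1 h2

theorem sat_addLit_r {v : Nat → Bool} {c : Cl} {x sg : Nat}
    (h : (sg = 0 ∧ v x = true) ∨ (sg ≠ 0 ∧ v x = false)) :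
    Sat v (addLit c x sg) := by
  rcases h with ⟨h1, h2⟩ | ⟨h1, h2⟩
  · subst h1
    show Sat v (Cl.mk (Nat.lor c.p (pw x)) c.n)
    exact sat_p (c := ⟨_, _⟩) (tb_or_r (testBit_pw x)) h2
  · have : Nat.beq sg 0 = false := by
      cases hb : Nat.beq sg 0
      · rfl
      · exact absurd (Nat.eq_of_beq_eq_true hb) h1
    show Sat v (Bool.rec (Cl.mk c.p (Nat.lor c.n (pw x))) (Cl.mk (Nat.lor c.p (pw x)) c.n) (Nat.beq sg 0))
    rw [this]
    exact sat_n (c := ⟨_, _⟩) (tb_or_r (testBit_pw x)) h2

/-- parity of the sign bits -/
theorem oddS_bits : ∀ s, s < 16 → oddS s = true →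
    ((Nat.land s 1 != 0) ^^ (Nat.land s 2 != 0) ^^ (Nat.land s 4 != 0) ^^ (Nat.land s 8 != 0)) = true := by
  decide

theorem f4_lt (r i : Nat) : f4 r i < 16 := by
  show (r >>> i) &&& 15 < 16
  exact Nat.lt_succ_of_le Nat.and_le_right

theorem sat_c4 {tp tn : Nat} {v : Nat → Bool} (hv : Valid tp tn v) (Q x a b c d s : Nat) (hs : s < 16) :
    Sat v (c4 Q x a b c d s) := by
  unfold c4
  cases hg : aand (tb quadTable Q) (aand (tb pairTable x) (aand (Nat.beq (Nat.land Q x) 0)
      (aand (Nat.beq (Nat.lor (Nat.lor Q x)
        (Nat.lor (Nat.lor (pw a) (pw b)) (Nat.lor (pw c) (pw d)))) 1023)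
        (oddS s)))) with
  | false => exact sat_taut v
  | true =>
    simp only [aand_eq] at hg
    obtain ⟨h1, h2, h3, h4, h5⟩ := hg
    have h3' := Nat.eq_of_beq_eq_true h3
    have h4' := Nat.eq_of_beq_eq_true h4
    show Sat v (addLit (addLit (addLit (addLit (Cl.mk 0 (pw Q))
      (Nat.lor x (pw a)) (Nat.land s 1))
      (Nat.lor x (pw b)) (Nat.land s 2))
      (Nat.lor x (pw c)) (Nat.land s 4))
      (Nat.lor x (pw d)) (Nat.land s 8))
    cases hQ : v Q with
    | false =>
      exact sat_addLit_l (sat_addLit_l (sat_addLit_l (sat_addLit_l (sat_n (c := ⟨_, _⟩) (testBit_pw Q) hQ))))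
    | true =>
      have hx := hv.even Q x a b c d h1 h2 h3' h4' hQ
      have hodd := oddS_bits s hs h5
      -- one of the literals holds
      by_contra hcon
      have hd : ¬ ((Nat.land s 8 = 0 ∧ v (Nat.lor x (pw d)) = true) ∨
          (Nat.land s 8 ≠ 0 ∧ v (Nat.lor x (pw d)) = false)) := fun h => hcon (sat_addLit_r h)
      have hc : ¬ ((Nat.land s 4 = 0 ∧ v (Nat.lor x (pw c)) = true) ∨
          (Nat.land s 4 ≠ 0 ∧ v (Nat.lor x (pw c)) = false)) :=
        fun h => hcon (sat_addLit_l (sat_addLit_r h))
      have hb : ¬ ((Nat.land s 2 = 0 ∧ v (Nat.lor x (pw b)) = true) ∨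
          (Nat.land s 2 ≠ 0 ∧ v (Nat.lor x (pw b)) = false)) :=
        fun h => hcon (sat_addLit_l (sat_addLit_l (sat_addLit_r h)))
      have ha : ¬ ((Nat.land s 1 = 0 ∧ v (Nat.lor x (pw a)) = true) ∨
          (Nat.land s 1 ≠ 0 ∧ v (Nat.lor x (pw a)) = false)) :=
        fun h => hcon (sat_addLit_l (sat_addLit_l (sat_addLit_l (sat_addLit_r h))))
      have key : ∀ (z : Nat) (y : Bool), ¬ ((z = 0 ∧ y = true) ∨ (z ≠ 0 ∧ y = false)) → y = (z != 0) := by
        intro z y hz
        by_cases h0 : z = 0
        · subst h0
          cases y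
          · rfl
          · exact absurd (Or.inl ⟨rfl, rfl⟩) hz
        · have : (z != 0) = true := by simpa using h0
          rw [this]
          cases y
          · exact absurd (Or.inr ⟨h0, rfl⟩) hz
          · rfl
      rw [key _ _ ha, key _ _ hb, key _ _ hc, key _ _ hd] at hx
      rw [hx] at hodd
      exact absurd hodd (by simp)

theorem sat_origC {tp tn : Nat} {v : Nat → Bool} (hv : Valid tp tn v) (kind r : Nat) :
    Sat v (origC tp tn kind r) := by
  have hc1 : ∀ Q x, Sat v (c1 Q x) := by
    intro Q x
    unfold c1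
    cases hg : aand (tb quadTable Q) (aand (tb quadTable x) (Nat.beq (Nat.land Q x) 0)) with
    | false => exact sat_taut v
    | true =>
      simp only [aand_eq] at hg
      obtain ⟨h1, h2, h3⟩ := hg
      show Sat v (Cl.mk 0 (Nat.lor (pw Q) (pw x)))
      cases hQ : v Q with
      | false => exact sat_n (c := ⟨_, _⟩) (tb_or_l (testBit_pw Q)) hQ
      | true =>
        cases hx : v x with
        | false => exact sat_n (c := ⟨_, _⟩) (tb_or_r (testBit_pw x)) hx
        | true => exact (hv.p1 Q x h1 h2 (Nat.eq_of_beq_eq_true h3) hQ hx).elim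
  have hc2 : ∀ Q x, Sat v (c2 Q x) := by
    intro Q x
    unfold c2
    cases hg : aand (tb quadTable Q) (aand (tb triTable x) (Nat.beq (Nat.land Q x) 0)) with
    | false => exact sat_taut v
    | true =>
      simp only [aand_eq] at hg
      obtain ⟨h1, h2, h3⟩ := hg
      show Sat v (Cl.mk (Nat.lor (pw x) (pw (cmp Q x))) (pw Q))
      cases hQ : v Q with
      | false => exact sat_n (c := ⟨_, _⟩) (testBit_pw Q) hQ
      | true =>
        rcases hv.cov Q x h1 h2 (Nat.eq_of_beq_eq_true h3) hQ with h | h
        · exact sat_p (c := ⟨_, _⟩) (tb_or_l (testBit_pw x)) h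
        · exact sat_p (c := ⟨_, _⟩) (tb_or_r (testBit_pw _)) h
  have hc3 : ∀ Q x, Sat v (c3 Q x) := by
    intro Q x
    unfold c3
    cases hg : aand (tb quadTable Q) (aand (tb triTable x) (Nat.beq (Nat.land Q x) 0)) with
    | false => exact sat_taut v
    | true =>
      simp only [aand_eq] at hg
      obtain ⟨h1, h2, h3⟩ := hg
      show Sat v (Cl.mk 0 (Nat.lor (pw Q) (Nat.lor (pw x) (pw (cmp Q x)))))
      cases hQ : v Q with
      | false => exact sat_n (c := ⟨_, _⟩) (tb_or_l (testBit_pw Q)) hQ
      | true =>
        cases hx : v x with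
        | false => exact sat_n (c := ⟨_, _⟩) (tb_or_r (tb_or_l (testBit_pw x))) hx
        | true =>
          cases hy : v (cmp Q x) with
          | false => exact sat_n (c := ⟨_, _⟩) (tb_or_r (tb_or_r (testBit_pw _))) hy
          | true => exact (hv.nand Q x h1 h2 (Nat.eq_of_beq_eq_true h3) hQ hx hy).elim
  have hc5 : ∀ Q x a b c d, Sat v (c5 Q x a b c d) := by
    intro Q x a b c d
    unfold c5
    cases hg : aand (tb quadTable Q) (aand (tb triTable x) (aand (Nat.beq (Nat.land Q x) 0)
      (Nat.beq (Nat.lor (Nat.lor (pw a) (pw b)) (Nat.lor (pw c) (pw d))) Q))) with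
    | false => exact sat_taut v
    | true =>
      simp only [aand_eq] at hg
      obtain ⟨h1, h2, h3, h4⟩ := hg
      show Sat v (Cl.mk (Nat.lor (Nat.lor (pw (Nat.lor x (pw a))) (pw (Nat.lor x (pw b))))
        (Nat.lor (pw (Nat.lor x (pw c))) (pw (Nat.lor x (pw d)))))
      (Nat.lor (pw Q) (pw x)))
      cases hQ : v Q with
      | false => exact sat_n (c := ⟨_, _⟩) (tb_or_l (testBit_pw Q)) hQ
      | true =>
        cases hx : v x with
        | false => exact sat_n (c := ⟨_, _⟩) (tb_or_r (testBit_pw x)) hx
        | true =>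
          rcases hv.ext Q x a b c d h1 h2 (Nat.eq_of_beq_eq_true h3) (Nat.eq_of_beq_eq_true h4) hQ hx with
            h | h | h | h
          · exact sat_p (c := ⟨_, _⟩) (tb_or_l (tb_or_l (testBit_pw _))) h
          · exact sat_p (c := ⟨_, _⟩) (tb_or_l (tb_or_r (testBit_pw _))) h
          · exact sat_p (c := ⟨_, _⟩) (tb_or_r (tb_or_l (testBit_pw _))) h
          · exact sat_p (c := ⟨_, _⟩) (tb_or_r (tb_or_r (testBit_pw _))) h
  have hc6 : ∀ Q x, Sat v (c6 tp tn Q x) := by
    intro Q x
    unfold c6
    cases Nat.beq x 0 with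
    | true =>
      cases h : tb tp Q with
      | false => exact sat_taut v
      | true => exact sat_p (c := ⟨_, _⟩) (testBit_pw Q) (hv.top_pos Q h)
    | false =>
      cases h : tb tn Q with
      | false => exact sat_taut v
      | true => exact sat_n (c := ⟨_, _⟩) (testBit_pw Q) (hv.top_neg Q h)
  match kind with
  | 0 => exact sat_taut v
  | 1 => exact hc1 _ _
  | 2 => exact hc2 _ _
  | 3 => exact hc3 _ _
  | 4 => exact sat_c4 hv _ _ _ _ _ _ _ (f4_lt r 36)
  | 5 => exact hc5 _ _ _ _ _ _
  | k + 6 => exact hc6 _ _

theorem isE_false {v : Nat → Bool} {c : Cl} (hc : Sat v c) (h : isE c = true) : False := by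
  have h0 : Nat.lor c.p c.n = 0 := Nat.eq_of_beq_eq_true h
  obtain ⟨i, hi⟩ := hc
  rcases hi with ⟨h1, _⟩ | ⟨h1, _⟩
  · have := tb_or_l (b := c.n) h1
    rw [h0] at this; simp at this
  · have := tb_or_r (a := c.p) h1
    rw [h0] at this; simp at this

/-- **Soundness of `run`.** -/
theorem run_sound {tp tn : Nat} {v : Nat → Bool} (hv : Valid tp tn v) :
    ∀ (l : List Nat) (id : Nat) (db : DB), DB.All v db → run tp tn l id db = true → False := by
  intro l
  induction l with
  | nil => intro id db _ h; exact absurd h (by simp [run])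
  | cons s l ih =>
    intro id db hdb h
    have h' : (Bool.rec
        (run tp tn l (Nat.succ id) (db.ins 16 id (origC tp tn (Nat.land s 7) (Nat.shiftRight s 3))))
        (Bool.rec false
              (Bool.rec (run tp tn l (Nat.succ id) (db.ins 16 id
                  (lits (Nat.land (Nat.shiftRight s 3) 255) (Nat.shiftRight (Nat.shiftRight s 3) 18) (Cl.mk 0 0))))
                true (isE (lits (Nat.land (Nat.shiftRight s 3) 255) (Nat.shiftRight (Nat.shiftRight s 3) 18) (Cl.mk 0 0))))
              (rup db (Nat.land (Nat.shiftRight (Nat.shiftRight s 3) 8) 1023)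
                (Nat.shiftRight (Nat.shiftRight (Nat.shiftRight s 3) 18)
                  (Nat.mul 11 (Nat.land (Nat.shiftRight s 3) 255)))
                (lits (Nat.land (Nat.shiftRight s 3) 255) (Nat.shiftRight (Nat.shiftRight s 3) 18) (Cl.mk 0 0)).n
                (lits (Nat.land (Nat.shiftRight s 3) 255) (Nat.shiftRight (Nat.shiftRight s 3) 18) (Cl.mk 0 0)).p))
        (Nat.beq (Nat.land s 7) 0) : Bool) = true := h
    cases hk : Nat.beq (Nat.land s 7) 0 with
    | false =>
      rw [hk] at h'
      exact ih _ _ (ins_all (sat_origC hv _ _) _ _ _ hdb) h'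
    | true =>
      rw [hk] at h'
      generalize hc : lits (Nat.land (Nat.shiftRight s 3) 255) (Nat.shiftRight (Nat.shiftRight s 3) 18) (Cl.mk 0 0) = c at h'
      cases hr : rup db (Nat.land (Nat.shiftRight (Nat.shiftRight s 3) 8) 1023)
                (Nat.shiftRight (Nat.shiftRight (Nat.shiftRight s 3) 18)
                  (Nat.mul 11 (Nat.land (Nat.shiftRight s 3) 255))) c.n c.p with
      | false => rw [hr] at h'; exact absurd h' (by simp)
      | true =>
        rw [hr] at h'
        have hsat : Sat v c := sat_of_rup hdb hr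
        cases he : isE c with
        | true => exact isE_false hsat he
        | false =>
          rw [he] at h'
          exact ih _ _ (ins_all hsat _ _ _ hdb) h'

/-- The form used with the data. -/
theorem no_valid {tp tn : Nat} {l : List Nat} (h : run tp tn l 1 DB.empty = true) (v : Nat → Bool) :
    ¬ Valid tp tn v := fun hv => run_sound hv l 1 DB.empty trivial h

end Crest.Agent.S0069Lib.Rup
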