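import Crest.Agent.S0069Lib.LineLemma

/-!
# S0069: the Line Lemma for a margin colouring

For an even colouring `col` of the unit sphere of `ℝⁿ` with margin `d` (two unit vectors of the same colour
have `d ≤ |x ⬝ y|`), and an orthonormal pair `u, v`, the colours along the fine polygon
`q j = cos (j π / 2N) u + sin (j π / 2N) v` satisfy the hypotheses of the Line Lemma as soon as
`π / (2N) < d`.
-/

set_option autoImplicit false

namespace Crest.Agent.S0069Lib

open Finset

variable {n : ℕ}

/-- Point of the circle spanned by `u, v` at angle `θ`. -/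
noncomputable def circlePt (u v : Fin n → ℝ) (θ : ℝ) : Fin n → ℝ :=
  fun i => Real.cos θ * u i + Real.sin θ * v i

/-- Vertices of the fine polygon with `2N` vertices on the projective line. -/
noncomputable def polyPt (u v : Fin n → ℝ) (N : ℕ) (j : ℕ) : Fin n → ℝ :=
  circlePt u v ((j : ℝ) * (Real.pi / (2 * N)))

theorem circlePt_inner (u v : Fin n → ℝ)
    (hu : ∑ i, u i ^ 2 = 1) (hv : ∑ i, v i ^ 2 = 1) (huv : ∑ i, u i * v i = 0) (θ φ : ℝ) :
    ∑ i, circlePt u v θ i * circlePt u v φ i = Real.cos (θ - φ) := by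
  have : ∀ i, circlePt u v θ i * circlePt u v φ i
      = Real.cos θ * Real.cos φ * u i ^ 2 + Real.sin θ * Real.sin φ * v i ^ 2
        + (Real.cos θ * Real.sin φ + Real.sin θ * Real.cos φ) * (u i * v i) := by
    intro i; simp only [circlePt]; ring
  simp only [this, sum_add_distrib, ← mul_sum, hu, hv, huv, Real.cos_sub]
  ring

theorem circlePt_unit (u v : Fin n → ℝ)
    (hu : ∑ i, u i ^ 2 = 1) (hv : ∑ i, v i ^ 2 = 1) (huv : ∑ i, u i * v i = 0) (θ : ℝ) :
    ∑ i, circlePt u v θ i ^ 2 = 1 := by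
  have := circlePt_inner u v hu hv huv θ θ
  simp only [sub_self, Real.cos_zero] at this
  simpa [sq] using this

theorem circlePt_add_pi (u v : Fin n → ℝ) (θ : ℝ) :
    circlePt u v (θ + Real.pi) = - circlePt u v θ := by
  funext i
  simp only [circlePt, Real.cos_add_pi, Real.sin_add_pi, Pi.neg_apply]
  ring

theorem polyPt_add_two_mul (u v : Fin n → ℝ) {N : ℕ} (hN : 0 < N) (j : ℕ) :
    polyPt u v N (j + 2 * N) = - polyPt u v N j := by
  have hN' : (N : ℝ) ≠ 0 := by positivity
  have : (((j + 2 * N : ℕ) : ℝ)) * (Real.pi / (2 * N)) = (j : ℝ) * (Real.pi / (2 * N)) + Real.pi := by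
    push_cast
    field_simp
  simp only [polyPt]
  rw [this, circlePt_add_pi]

/-- An even colouring with margin `d` along the fine polygon of a line. -/
theorem poly_colour_constraints {α : Type*} (col : (Fin n → ℝ) → α) {d : ℝ}
    (heven : ∀ x, col (-x) = col x)
    (hmargin : ∀ x y : Fin n → ℝ, ∑ i, x i ^ 2 = 1 → ∑ i, y i ^ 2 = 1 → col x = col y →
      d ≤ |∑ i, x i * y i|)
    (hd : 0 < d)
    (u v : Fin n → ℝ) (hu : ∑ i, u i ^ 2 = 1) (hv : ∑ i, v i ^ 2 = 1) (huv : ∑ i, u i * v i = 0)
    {N : ℕ} (hN : 0 < N) (hNd : Real.pi / (2 * N) < d) :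
    (∀ j, col (polyPt u v N (j + 2 * N)) = col (polyPt u v N j)) ∧
    (∀ j, col (polyPt u v N j) ≠ col (polyPt u v N (j + N))) ∧
    (∀ j, col (polyPt u v N j) ≠ col (polyPt u v N (j + N + 1))) := by
  have hN' : (N : ℝ) ≠ 0 := by positivity
  have hNpos : (0 : ℝ) < N := by positivity
  refine ⟨fun j => ?_, fun j hc => ?_, fun j hc => ?_⟩
  · rw [polyPt_add_two_mul u v hN, heven]
  · have hm := hmargin _ _ (circlePt_unit u v hu hv huv _) (circlePt_unit u v hu hv huv _) hc
    have : ∑ i, polyPt u v N j i * polyPt u v N (j + N) i = 0 := by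
      simp only [polyPt]
      rw [circlePt_inner u v hu hv huv]
      have : (j : ℝ) * (Real.pi / (2 * N)) - ((j + N : ℕ) : ℝ) * (Real.pi / (2 * N)) = - (Real.pi / 2) := by
        push_cast; field_simp; ring
      rw [this, Real.cos_neg, Real.cos_pi_div_two]
    have hm' : d ≤ |∑ i, polyPt u v N j i * polyPt u v N (j + N) i| := hm
    rw [this] at hm'
    simp at hm'
    linarith
  · have hm := hmargin _ _ (circlePt_unit u v hu hv huv _) (circlePt_unit u v hu hv huv _) hc
    have hval : ∑ i, polyPt u v N j i * polyPt u v N (j + N + 1) i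
        = - Real.sin (Real.pi / (2 * N)) := by
      simp only [polyPt]
      rw [circlePt_inner u v hu hv huv]
      have : (j : ℝ) * (Real.pi / (2 * N)) - ((j + N + 1 : ℕ) : ℝ) * (Real.pi / (2 * N))
          = - (Real.pi / 2 + Real.pi / (2 * N)) := by
        push_cast; field_simp; ring
      rw [this, Real.cos_neg, Real.cos_add, Real.cos_pi_div_two, Real.sin_pi_div_two]
      ring
    have hm' : d ≤ |∑ i, polyPt u v N j i * polyPt u v N (j + N + 1) i| := hm
    rw [hval, abs_neg] at hm'
    have hpos : 0 ≤ Real.pi / (2 * N) := by positivity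
    have hle := Real.sin_le hpos
    have hs : |Real.sin (Real.pi / (2 * N))| ≤ Real.pi / (2 * N) := by
      rw [abs_le]
      constructor
      · have h4 : 0 ≤ Real.sin (Real.pi / (2 * N)) ∨ Real.sin (Real.pi / (2 * N)) < 0 := le_or_gt _ _
        rcases h4 with h4 | h4
        · linarith
        · exfalso
          have hle2 : Real.pi / (2 * N) ≤ Real.pi := by
            have : (1 : ℝ) ≤ 2 * N := by
              have : (1 : ℝ) ≤ N := by exact_mod_cast hN
              linarith
            exact div_le_self Real.pi_pos.le this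
          have := Real.sin_nonneg_of_nonneg_of_le_pi hpos hle2
          linarith
      · exact hle
    linarith

/-- **Line Lemma, geometric form (at least three colours).** -/
theorem line_three_colours {α : Type*} (col : (Fin n → ℝ) → α) {d : ℝ}
    (heven : ∀ x, col (-x) = col x)
    (hmargin : ∀ x y : Fin n → ℝ, ∑ i, x i ^ 2 = 1 → ∑ i, y i ^ 2 = 1 → col x = col y →
      d ≤ |∑ i, x i * y i|)
    (hd : 0 < d)
    (u v : Fin n → ℝ) (hu : ∑ i, u i ^ 2 = 1) (hv : ∑ i, v i ^ 2 = 1) (huv : ∑ i, u i * v i = 0)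
    {N : ℕ} (hN : 0 < N) (hNd : Real.pi / (2 * N) < d)
    (a b : α) (hab : ∀ j, col (polyPt u v N j) = a ∨ col (polyPt u v N j) = b) : False := by
  obtain ⟨-, h0, h1⟩ := poly_colour_constraints col heven hmargin hd u v hu hv huv hN hNd
  exact line_two_colours_false (fun j => col (polyPt u v N j)) N h0 h1 a b hab

/-- **Line Lemma, geometric form (parity).** -/
theorem line_parity_geom {α : Type*} [DecidableEq α] (col : (Fin n → ℝ) → α) {d : ℝ}
    (heven : ∀ x, col (-x) = col x)
    (hmargin : ∀ x y : Fin n → ℝ, ∑ i, x i ^ 2 = 1 → ∑ i, y i ^ 2 = 1 → col x = col y →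
      d ≤ |∑ i, x i * y i|)
    (hd : 0 < d)
    (u v : Fin n → ℝ) (hu : ∑ i, u i ^ 2 = 1) (hv : ∑ i, v i ^ 2 = 1) (huv : ∑ i, u i * v i = 0)
    {N : ℕ} (hN : 0 < N) (hNd : Real.pi / (2 * N) < d)
    {a b c : α} (hab : a ≠ b) (hac : a ≠ c) (hbc : b ≠ c)
    (hval : ∀ j, col (polyPt u v N j) = a ∨ col (polyPt u v N j) = b ∨ col (polyPt u v N j) = c) :
    ∑ j ∈ range (2 * N), edgeInd a b (col (polyPt u v N j)) (col (polyPt u v N (j + 1))) = 1 := by
  obtain ⟨hper, h0, h1⟩ := poly_colour_constraints col heven hmargin hd u v hu hv huv hN hNd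
  exact line_parity (fun j => col (polyPt u v N j)) N hper h0 h1 hab hac hbc hval

end Crest.Agent.S0069Lib
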