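import Crest.Agent.S0069Lib.Vec

/-!
# S0069: quadratic forms on `ℝ³` parametrised by `ℝ⁵` (traceless symmetric `3×3` matrices)

`Q m u = m₀(u₀²-u₂²) + m₁(u₁²-u₂²) + 2m₂u₀u₁ + 2m₃u₀u₂ + 2m₄u₁u₂`.
`top m` is a maximiser of `Q m` on the unit sphere, `Lam m` its value. `Lam (-m)` is minus the minimum.
`m` is *positively dominated* if `Lam (-m) ≤ Lam m`. In that case the form is `≤ 0` on the plane orthogonal
to `top m` (trace zero), which gives everything we need without an eigenvalue decomposition.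
-/

set_option autoImplicit false

namespace Crest.Agent.S0069Lib

/-- The quadratic form. -/
def Q (m : Fin 5 → ℝ) (u : Fin 3 → ℝ) : ℝ :=
  m 0 * (u 0 ^ 2 - u 2 ^ 2) + m 1 * (u 1 ^ 2 - u 2 ^ 2) + 2 * m 2 * (u 0 * u 1) +
    2 * m 3 * (u 0 * u 2) + 2 * m 4 * (u 1 * u 2)

private theorem dot3 (x y : Fin 3 → ℝ) : dot x y = x 0 * y 0 + x 1 * y 1 + x 2 * y 2 := by
  simp [dot, Fin.sum_univ_three]

theorem exists_top (m : Fin 5 → ℝ) :
    ∃ y : Fin 3 → ℝ, dot y y = 1 ∧ ∀ u, dot u u = 1 → Q m u ≤ Q m y := by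
  have hcont : Continuous (fun u : Fin 3 → ℝ => dot u u) := by
    unfold dot; fun_prop
  have hQ : Continuous (Q m) := by
    unfold Q; fun_prop
  have hclosed : IsClosed {u : Fin 3 → ℝ | dot u u = 1} :=
    isClosed_eq hcont continuous_const
  have hbdd : Bornology.IsBounded {u : Fin 3 → ℝ | dot u u = 1} := by
    rw [isBounded_iff_forall_norm_le]
    refine ⟨1, fun u hu => ?_⟩
    have hu' : dot u u = 1 := hu
    rw [dot3] at hu'
    rw [pi_norm_le_iff_of_nonneg zero_le_one]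
    intro i
    rw [Real.norm_eq_abs, abs_le]
    fin_cases i <;> simp <;> constructor <;> nlinarith [sq_nonneg (u 0), sq_nonneg (u 1), sq_nonneg (u 2)]
  have hcomp : IsCompact {u : Fin 3 → ℝ | dot u u = 1} := Metric.isCompact_of_isClosed_isBounded hclosed hbdd
  have hne : ({u : Fin 3 → ℝ | dot u u = 1}).Nonempty := by
    refine ⟨![1, 0, 0], ?_⟩
    simp [dot3]
  obtain ⟨y, hy, hmax⟩ := hcomp.exists_isMaxOn hne hQ.continuousOn
  exact ⟨y, hy, fun u hu => hmax hu⟩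

/-- A maximiser of `Q m`. -/
noncomputable def top (m : Fin 5 → ℝ) : Fin 3 → ℝ := (exists_top m).choose

theorem dot_top (m : Fin 5 → ℝ) : dot (top m) (top m) = 1 := (exists_top m).choose_spec.1

theorem Q_le_top (m : Fin 5 → ℝ) {u : Fin 3 → ℝ} (hu : dot u u = 1) : Q m u ≤ Q m (top m) :=
  (exists_top m).choose_spec.2 u hu

/-- The maximum of `Q m` on the unit sphere. -/
noncomputable def Lam (m : Fin 5 → ℝ) : ℝ := Q m (top m)

theorem Q_neg (m : Fin 5 → ℝ) (u : Fin 3 → ℝ) : Q (-m) u = - Q m u := by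
  simp only [Q, Pi.neg_apply]; ring

/-- Trace zero in orthonormal frames of `ℝ³`. -/
theorem Q_frame_sum (m : Fin 5 → ℝ) {f : Fin 3 → Fin 3 → ℝ} (hf : Frame f) :
    Q m (f 0) + Q m (f 1) + Q m (f 2) = 0 := by
  -- the matrix with rows `f k` is orthogonal, hence its columns are orthonormal
  have h1 : (Matrix.of f) * (Matrix.of f).transpose = 1 := by
    ext i j
    have := hf i j
    simp only [Matrix.mul_apply, Matrix.transpose_apply, Matrix.of_apply, Matrix.one_apply]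
    rw [← this]; rfl
  have h2 : (Matrix.of f).transpose * (Matrix.of f) = 1 := mul_eq_one_comm.mp h1
  have h3 : ∀ i j, f 0 i * f 0 j + f 1 i * f 1 j + f 2 i * f 2 j = if i = j then 1 else 0 := by
    intro i j
    have := congrFun (congrFun h2 i) j
    simp only [Matrix.mul_apply, Matrix.transpose_apply, Matrix.of_apply, Matrix.one_apply,
      Fin.sum_univ_three] at this
    exact this
  have h00 := h3 0 0
  have h11 := h3 1 1
  have h22 := h3 2 2
  have h01 := h3 0 1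
  have h02 := h3 0 2
  have h12 := h3 1 2
  simp at h00 h11 h22 h01 h02 h12
  simp only [Q]
  linear_combination (m 0) * (h00 - h22) + (m 1) * (h11 - h22) + 2 * m 2 * h01 + 2 * m 3 * h02
    + 2 * m 4 * h12

private theorem abs_coef_bound {a b c : ℝ} (h : a ^ 2 + b ^ 2 + c ^ 2 = 1) :
    |a ^ 2 - c ^ 2| ≤ 1 ∧ |2 * (a * b)| ≤ 1 := by
  constructor
  · rw [abs_le]; constructor <;> nlinarith [sq_nonneg a, sq_nonneg b, sq_nonneg c]
  · rw [abs_le]; constructor <;> nlinarith [sq_nonneg a, sq_nonneg b, sq_nonneg c, sq_nonneg (a + b),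
      sq_nonneg (a - b)]

/-- `|Q m u - Q m' u| ≤ 5 ‖m - m'‖` on the unit sphere (sup norm on `Fin 5 → ℝ`). -/
theorem abs_Q_sub_le (m m' : Fin 5 → ℝ) {u : Fin 3 → ℝ} (hu : dot u u = 1) :
    |Q m u - Q m' u| ≤ 5 * ‖m - m'‖ := by
  rw [dot3] at hu
  have e0 : u 0 ^ 2 + u 1 ^ 2 + u 2 ^ 2 = 1 := by nlinarith
  have e1 : u 1 ^ 2 + u 0 ^ 2 + u 2 ^ 2 = 1 := by nlinarith
  have e2 : u 0 ^ 2 + u 2 ^ 2 + u 1 ^ 2 = 1 := by nlinarith
  have e3 : u 1 ^ 2 + u 2 ^ 2 + u 0 ^ 2 = 1 := by nlinarith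
  have c0 := (abs_coef_bound e0).1
  have c1 := (abs_coef_bound e1).1
  have c2 := (abs_coef_bound e0).2
  have c3 := (abs_coef_bound e2).2
  have c4 := (abs_coef_bound e3).2
  have hn : ∀ i, |m i - m' i| ≤ ‖m - m'‖ := fun i => by
    have := norm_le_pi_norm (m - m') i
    simpa [Real.norm_eq_abs] using this
  have hdecomp : Q m u - Q m' u = (m 0 - m' 0) * (u 0 ^ 2 - u 2 ^ 2) + (m 1 - m' 1) * (u 1 ^ 2 - u 2 ^ 2)
      + (m 2 - m' 2) * (2 * (u 0 * u 1)) + (m 3 - m' 3) * (2 * (u 0 * u 2))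
      + (m 4 - m' 4) * (2 * (u 1 * u 2)) := by
    simp only [Q]; ring
  have hmul : ∀ a b : ℝ, ∀ i, |b| ≤ 1 → a = m i - m' i → |a * b| ≤ ‖m - m'‖ := by
    intro a b i hb ha
    rw [abs_mul]
    calc |a| * |b| ≤ ‖m - m'‖ * 1 := by
          apply mul_le_mul (ha ▸ hn i) hb (abs_nonneg _) (norm_nonneg _)
      _ = ‖m - m'‖ := mul_one _
  rw [hdecomp]
  have t0 := hmul _ _ 0 c0 rfl
  have t1 := hmul _ _ 1 c1 rfl
  have t2 := hmul _ _ 2 c2 rfl
  have t3 := hmul _ _ 3 c3 rfl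
  have t4 := hmul _ _ 4 c4 rfl
  have a0 := abs_le.mp t0
  have a1 := abs_le.mp t1
  have a2 := abs_le.mp t2
  have a3 := abs_le.mp t3
  have a4 := abs_le.mp t4
  rw [abs_le]
  constructor <;> linarith [a0.1, a0.2, a1.1, a1.2, a2.1, a2.2, a3.1, a3.2, a4.1, a4.2]

/-- Homogeneity. -/
theorem Q_smul (m : Fin 5 → ℝ) (a : ℝ) (u : Fin 3 → ℝ) : Q m (a • u) = a ^ 2 * Q m u := by
  simp only [Q, Pi.smul_apply, smul_eq_mul]; ring

/-- Homogeneous form of `Q_le_top`. -/
theorem Q_le_dot_mul_Lam (m : Fin 5 → ℝ) (v : Fin 3 → ℝ) : Q m v ≤ dot v v * Lam m := by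
  by_cases hv : dot v v = 0
  · have h0 : ∀ i, v i = 0 := by
      rw [dot3] at hv
      intro i
      fin_cases i <;> simp <;> nlinarith [mul_self_nonneg (v 0), mul_self_nonneg (v 1), mul_self_nonneg (v 2)]
    have : Q m v = 0 := by simp [Q, h0]
    rw [this, hv, zero_mul]
  · have hpos : 0 < dot v v := lt_of_le_of_ne (dot_self_nonneg v) (Ne.symm hv)
    set r := Real.sqrt (dot v v) with hr
    have hr0 : 0 < r := Real.sqrt_pos.mpr hpos
    have hrr : r ^ 2 = dot v v := Real.sq_sqrt hpos.le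
    have hu : dot (r⁻¹ • v) (r⁻¹ • v) = 1 := by
      rw [dot3] at hrr ⊢
      simp only [Pi.smul_apply, smul_eq_mul]
      field_simp
      nlinarith
    have := Q_le_top m hu
    rw [Q_smul] at this
    have h2 : (r⁻¹) ^ 2 * Q m v * r ^ 2 = Q m v := by field_simp
    rw [← hrr, mul_comm (r ^ 2)]
    calc Q m v = (r⁻¹) ^ 2 * Q m v * r ^ 2 := h2.symm
      _ ≤ Lam m * r ^ 2 := mul_le_mul_of_nonneg_right this (by positivity)

/-- Two-sided homogeneous bound. -/
theorem neg_dot_mul_Lam_le (m : Fin 5 → ℝ) (v : Fin 3 → ℝ) : - (dot v v * Lam (-m)) ≤ Q m v := by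
  have := Q_le_dot_mul_Lam (-m) v
  rw [Q_neg] at this
  linarith

/-- Polar form vanishes between a maximiser and an orthogonal vector; so
`Q m (α y + β w) = α² Q m y + β² Q m w` for `y = top m`, `w ⟂ y`. -/
theorem Q_split (m : Fin 5 → ℝ) {w : Fin 3 → ℝ} (hw : dot w (top m) = 0) (α β : ℝ) :
    Q m (α • top m + β • w) = α ^ 2 * Q m (top m) + β ^ 2 * Q m w := by
  set y := top m with hy
  have hyy : dot y y = 1 := dot_top m
  -- the polar form
  set B : ℝ := m 0 * (y 0 * w 0 - y 2 * w 2) + m 1 * (y 1 * w 1 - y 2 * w 2)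
    + m 2 * (y 0 * w 1 + y 1 * w 0) + m 3 * (y 0 * w 2 + y 2 * w 0) + m 4 * (y 1 * w 2 + y 2 * w 1) with hB
  have hexp : ∀ a b : ℝ, Q m (a • y + b • w) = a ^ 2 * Q m y + 2 * a * b * B + b ^ 2 * Q m w := by
    intro a b
    simp only [Q, hB, Pi.add_apply, Pi.smul_apply, smul_eq_mul]; ring
  have hdot : ∀ t : ℝ, dot (y + t • w) (y + t • w) = 1 + t ^ 2 * dot w w := by
    intro t
    rw [dot3] at hw hyy ⊢
    rw [dot3 w w]
    simp only [Pi.add_apply, Pi.smul_apply, smul_eq_mul]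
    linear_combination hyy + 2 * t * hw
  set C : ℝ := dot w w * Lam m - Q m w with hC
  have hineq : ∀ t : ℝ, 2 * t * B ≤ t ^ 2 * C := by
    intro t
    have h1 := Q_le_dot_mul_Lam m (y + t • w)
    have h2 := hexp 1 t
    rw [one_smul] at h2
    rw [h2, hdot] at h1
    have hL : Lam m = Q m y := rfl
    rw [← hL] at h1
    rw [hC]
    nlinarith
  have hB0 : B = 0 := by
    by_contra hne
    have hB2 : 0 < B ^ 2 := by positivity
    by_cases hCpos : 0 < C
    · have := hineq (B / C)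
      have h3 : 2 * (B / C) * B = 2 * (B ^ 2 / C) := by ring
      have h4 : (B / C) ^ 2 * C = B ^ 2 / C := by field_simp
      rw [h3, h4] at this
      have h5 : 0 < B ^ 2 / C := by positivity
      linarith
    · have := hineq B
      nlinarith [sq_nonneg B]
  rw [hexp, hB0]; ring

/-- Frame completion by cross product. -/
private theorem exists_third {y w : Fin 3 → ℝ} (hy : dot y y = 1) (hw : dot w w = 1)
    (hwy : dot w y = 0) : ∃ z : Fin 3 → ℝ, Frame ![y, w, z] := by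
  refine ⟨![y 1 * w 2 - y 2 * w 1, y 2 * w 0 - y 0 * w 2, y 0 * w 1 - y 1 * w 0], ?_⟩
  rw [dot3] at hy hw hwy
  intro i j
  fin_cases i <;> fin_cases j <;> simp [dot3] <;> first
    | assumption | nlinarith

/-- Dominated form: `Q ≤ 0` on `(top m)^⟂`. -/
theorem Q_nonpos_of_perp {m : Fin 5 → ℝ} (hdom : Lam (-m) ≤ Lam m) {w : Fin 3 → ℝ}
    (hw : dot w w = 1) (hwy : dot w (top m) = 0) : Q m w ≤ 0 := by
  obtain ⟨z, hz⟩ := exists_third (dot_top m) hw hwy
  have hsum := Q_frame_sum m hz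
  have hzz : dot z z = 1 := by
    have := hz 2 2
    simpa using this
  simp only [Matrix.cons_val_zero, Matrix.cons_val_one, Matrix.cons_val] at hsum
  have h1 : Q (-m) z ≤ Lam (-m) := Q_le_top (-m) hzz
  rw [Q_neg] at h1
  have h2 : Q m (top m) = Lam m := rfl
  linarith

/-- `Q_nonpos_of_perp` without normalisation. -/
theorem Q_nonpos_of_perp' {m : Fin 5 → ℝ} (hdom : Lam (-m) ≤ Lam m) {w : Fin 3 → ℝ}
    (hwy : dot w (top m) = 0) : Q m w ≤ 0 := by
  by_cases hv : dot w w = 0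
  · have h0 : ∀ i, w i = 0 := by
      rw [dot3] at hv
      intro i
      fin_cases i <;> simp <;> nlinarith [mul_self_nonneg (w 0), mul_self_nonneg (w 1), mul_self_nonneg (w 2)]
    have : Q m w = 0 := by simp [Q, h0]
    exact this.le
  · have hpos : 0 < dot w w := lt_of_le_of_ne (dot_self_nonneg w) (Ne.symm hv)
    set r := Real.sqrt (dot w w) with hr
    have hr0 : 0 < r := Real.sqrt_pos.mpr hpos
    have hrr : r ^ 2 = dot w w := Real.sq_sqrt hpos.le
    have hu : dot (r⁻¹ • w) (r⁻¹ • w) = 1 := by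
      rw [dot3] at hrr ⊢
      simp only [Pi.smul_apply, smul_eq_mul]
      field_simp
      nlinarith
    have hperp : dot (r⁻¹ • w) (top m) = 0 := by
      rw [dot_smul_left, hwy, mul_zero]
    have := Q_nonpos_of_perp hdom hu hperp
    rw [Q_smul] at this
    have h2 : (r⁻¹) ^ 2 * Q m w * r ^ 2 = Q m w := by field_simp
    calc Q m w = (r⁻¹) ^ 2 * Q m w * r ^ 2 := h2.symm
      _ ≤ 0 * r ^ 2 := mul_le_mul_of_nonneg_right this (by positivity)
      _ = 0 := zero_mul _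

private theorem Lam_eq (m : Fin 5 → ℝ) : Q m (top m) = Lam m := rfl

/-- Decomposition of a unit vector along `top m`. -/
private theorem decomp (m : Fin 5 → ℝ) {z : Fin 3 → ℝ} (hz : dot z z = 1) :
    let α := dot (top m) z
    let w := z - α • top m
    dot w (top m) = 0 ∧ dot w w = 1 - α ^ 2 ∧ Q m z = α ^ 2 * Lam m + Q m w := by
  intro α w
  have hyy := dot_top m
  have hαdef : α = dot (top m) z := rfl
  have hα : dot z (top m) = α := dot_comm _ _
  have hw : dot w (top m) = 0 := by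
    simp only [w]
    rw [dot_sub_left, dot_smul_left, hyy, hα]; ring
  refine ⟨hw, ?_, ?_⟩
  · have hw2 : dot w z = 1 - α ^ 2 := by
      simp only [w]
      rw [dot_sub_left, dot_smul_left, hz, ← hαdef]; ring
    have : dot w w = dot w z - α * dot w (top m) := by
      have e : w = z - α • top m := rfl
      conv_lhs => rw [dot_comm]
      conv_lhs => rw [e]
      rw [dot_sub_left, dot_smul_left, dot_comm z w, dot_comm (top m) w]
    rw [this, hw, hw2]; ring
  · have e : z = α • top m + (1 : ℝ) • w := by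
      simp only [w, one_smul]; abel
    have := Q_split m hw α 1
    rw [← e] at this
    rw [this]; simp [Lam]

/-- **Fact A.** Both dominated, same sign: the top lines are close. -/
theorem factA {m m' : Fin 5 → ℝ} (hdom : Lam (-m) ≤ Lam m) :
    Lam m * (1 - dot (top m) (top m') ^ 2) ≤ 10 * ‖m - m'‖ := by
  obtain ⟨hw, -, hsplit⟩ := decomp m (dot_top m')
  have hneg := Q_nonpos_of_perp' hdom hw
  have h1 := abs_le.mp (abs_Q_sub_le m m' (dot_top m'))
  have h2 := abs_le.mp (abs_Q_sub_le m m' (dot_top m))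
  have h3 : Q m' (top m) ≤ Q m' (top m') := Q_le_top m' (dot_top m)
  rw [Lam_eq] at h2
  nlinarith [h1.1, h1.2, h2.1, h2.2]

/-- **Fact B.** `m` positively and `m'` negatively dominated, close: `top m` is nearly orthogonal to the
bottom line `top (-m')` of `m'`. -/
theorem factB {m m' : Fin 5 → ℝ} (hdom : Lam (-m) ≤ Lam m) (hdom' : Lam m' ≤ Lam (-m')) :
    Lam m * dot (top m) (top (-m')) ^ 2 ≤ 5 * ‖m - m'‖ := by
  obtain ⟨hw, hww, hsplit⟩ := decomp m (dot_top (-m'))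
  set α := dot (top m) (top (-m')) with hα
  set w := top (-m') - α • top m with hwdef
  have h1 := neg_dot_mul_Lam_le m w
  have hnn : 0 ≤ dot w w := dot_self_nonneg w
  have h1' : dot w w * Lam (-m) ≤ dot w w * Lam m := mul_le_mul_of_nonneg_left hdom hnn
  rw [hww] at h1 h1'
  have h2 := abs_le.mp (abs_Q_sub_le m m' (dot_top (-m')))
  have h3 := abs_le.mp (abs_Q_sub_le m m' (dot_top m))
  have h4 : Q m' (top m) ≤ Lam m' := Q_le_top m' (dot_top m)
  have h5 : Q (-m') (top (-m')) = Lam (-m') := rfl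
  rw [Q_neg] at h5
  rw [Lam_eq] at h3
  nlinarith [h2.1, h2.2, h3.1, h3.2]

/-- Lower bound: on the `ℓ¹`-sphere (orthant form `∑ σᵢ mᵢ = 1`, `σᵢ mᵢ ≥ 0`), `max (Lam m) (Lam (-m))` is
bounded below. -/
theorem one_div_ten_le_Lam {m : Fin 5 → ℝ} {σ : Fin 5 → ℝ} (hσ : ∀ i, σ i = 1 ∨ σ i = -1)
    (h0 : ∀ i, 0 ≤ σ i * m i) (h1 : ∑ i, σ i * m i = 1) :
    1 / 10 ≤ max (Lam m) (Lam (-m)) := by
  set M := max (Lam m) (Lam (-m)) with hM
  have hb1 : ∀ v : Fin 3 → ℝ, Q m v ≤ dot v v * M := fun v =>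
    (Q_le_dot_mul_Lam m v).trans (mul_le_mul_of_nonneg_left (le_max_left _ _) (dot_self_nonneg v))
  have hb2 : ∀ v : Fin 3 → ℝ, - Q m v ≤ dot v v * M := fun v => by
    have := (neg_dot_mul_Lam_le m v)
    have h2 := mul_le_mul_of_nonneg_left (le_max_right (Lam m) (Lam (-m))) (dot_self_nonneg v)
    linarith
  have v0 := hb1 ![1, 0, 0]
  have v0' := hb2 ![1, 0, 0]
  have v1 := hb1 ![0, 1, 0]
  have v1' := hb2 ![0, 1, 0]
  have v2 := hb1 ![1, 1, 0]
  have v2' := hb2 ![1, 1, 0]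
  have v3 := hb1 ![1, 0, 1]
  have v3' := hb2 ![1, 0, 1]
  have v4 := hb1 ![0, 1, 1]
  have v4' := hb2 ![0, 1, 1]
  simp [Q, dot3] at v0 v0' v1 v1' v2 v2' v3 v3' v4 v4'
  norm_num at v2 v2' v3 v3' v4 v4'
  have hσ' : ∀ i, σ i * m i ≤ |m i| := fun i => by
    rcases hσ i with h | h <;> rw [h]
    · simpa using le_abs_self _
    · simpa using neg_le_abs _
  rw [Fin.sum_univ_five] at h1
  have a0 : |m 0| ≤ M := abs_le.mpr ⟨by linarith, by linarith⟩
  have a1 : |m 1| ≤ M := abs_le.mpr ⟨by linarith, by linarith⟩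
  have a2 : |m 2| ≤ 2 * M := abs_le.mpr ⟨by linarith, by linarith⟩
  have a3 : |m 3| ≤ 3 / 2 * M := abs_le.mpr ⟨by linarith, by linarith⟩
  have a4 : |m 4| ≤ 3 / 2 * M := abs_le.mpr ⟨by linarith, by linarith⟩
  linarith [hσ' 0, hσ' 1, hσ' 2, hσ' 3, hσ' 4]

end Crest.Agent.S0069Lib
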