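import Mathlib

/-!
# S0069 outer shell

`exists_of_core` derives the statement of S0069 (the Veronese `RP³ ⊂ ℝ⁹` cannot be split into ten parts
of smaller diameter) from `Core`: there is no colouring of the unit sphere of `ℝ⁴` by ten colours with a
positive margin `d` such that two unit vectors of the same colour always satisfy `d ≤ |⟨x, y⟩|`.
-/

set_option autoImplicit false

namespace Crest.Agent.S0069Lib

open scoped BigOperators

/-- The margin-colouring core statement: no colouring of the unit sphere of `ℝ⁴` by ten colours such that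
two unit vectors of the same colour have inner product of absolute value at least a fixed `d > 0`. -/
def Core : Prop :=
  ¬∃ (C : (Fin 4 → ℝ) → Fin 10) (d : ℝ), 0 < d ∧
    ∀ x y : Fin 4 → ℝ, ∑ i, x i ^ 2 = 1 → ∑ i, y i ^ 2 = 1 → C x = C y → d ≤ |∑ i, x i * y i|

/-- The Veronese map `x ↦ x xᵀ - |x|²/4` in an orthonormal basis of the traceless symmetric matrices. -/
noncomputable def veronese (x : Fin 4 → ℝ) : EuclideanSpace ℝ (Fin 9) :=
  WithLp.toLp 2 ![√2 * (x 0 * x 1), √2 * (x 0 * x 2), √2 * (x 0 * x 3),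
    √2 * (x 1 * x 2), √2 * (x 1 * x 3), √2 * (x 2 * x 3),
    (x 0 ^ 2 - x 1 ^ 2) / √2,
    (x 0 ^ 2 + x 1 ^ 2 - 2 * x 2 ^ 2) / √6,
    (x 0 ^ 2 + x 1 ^ 2 + x 2 ^ 2 - 3 * x 3 ^ 2) / √12]

private lemma sq_mul_sqrt_sub (s u v : ℝ) (hs : 0 ≤ s) :
    (√s * u - √s * v) ^ 2 = s * (u - v) ^ 2 := by
  have : (√s * u - √s * v) = √s * (u - v) := by ring
  rw [this, mul_pow, Real.sq_sqrt hs]

private lemma sq_div_sqrt_sub (s u v : ℝ) (hs : 0 < s) :
    (u / √s - v / √s) ^ 2 = (u - v) ^ 2 / s := by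
  have : (u / √s - v / √s) = (u - v) / √s := by ring
  rw [this, div_pow, Real.sq_sqrt hs.le]

/-- The squared distance formula for the Veronese map on the unit sphere. -/
lemma dist_veronese_sq (x y : Fin 4 → ℝ) (hx : ∑ i, x i ^ 2 = 1) (hy : ∑ i, y i ^ 2 = 1) :
    dist (veronese x) (veronese y) ^ 2 = 2 - 2 * (∑ i, x i * y i) ^ 2 := by
  rw [EuclideanSpace.dist_eq, Real.sq_sqrt (Finset.sum_nonneg fun _ _ => sq_nonneg _)]
  simp only [Real.dist_eq, sq_abs, veronese, Fin.sum_univ_succ, Fin.sum_univ_zero]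
  simp only [Fin.isValue, Matrix.cons_val_zero, Matrix.cons_val_succ, Fin.succ_zero_eq_one,
    Fin.succ_one_eq_two, Matrix.cons_val_one, Matrix.cons_val]
  simp only [Fin.sum_univ_succ, Fin.sum_univ_zero] at hx hy ⊢
  simp only [Fin.isValue, Fin.succ_zero_eq_one, Fin.succ_one_eq_two, add_zero] at hx hy ⊢
  simp only [show (Fin.succ (2 : Fin 3)) = (3 : Fin 4) from rfl] at hx hy ⊢
  have e2 : (0:ℝ) ≤ 2 := by norm_num
  rw [sq_mul_sqrt_sub 2 _ _ e2, sq_mul_sqrt_sub 2 _ _ e2, sq_mul_sqrt_sub 2 _ _ e2,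
    sq_mul_sqrt_sub 2 _ _ e2, sq_mul_sqrt_sub 2 _ _ e2, sq_mul_sqrt_sub 2 _ _ e2,
    sq_div_sqrt_sub 2 _ _ (by norm_num), sq_div_sqrt_sub 6 _ _ (by norm_num),
    sq_div_sqrt_sub 12 _ _ (by norm_num)]
  linear_combination
    ((x 0 ^ 2 + x 1 ^ 2 + x 2 ^ 2 + x 3 ^ 2) + 1) * hx
      + ((y 0 ^ 2 + y 1 ^ 2 + y 2 ^ 2 + y 3 ^ 2) + 1) * hy
      - (((x 0 ^ 2 + x 1 ^ 2 + x 2 ^ 2 + x 3 ^ 2) - (y 0 ^ 2 + y 1 ^ 2 + y 2 ^ 2 + y 3 ^ 2)) / 4) * (hx - hy)

/-- The Veronese image of the unit sphere. -/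
noncomputable def veroneseSet : Set (EuclideanSpace ℝ (Fin 9)) :=
  veronese '' {x | ∑ i, x i ^ 2 = 1}

lemma dist_veronese_le (x y : Fin 4 → ℝ) (hx : ∑ i, x i ^ 2 = 1) (hy : ∑ i, y i ^ 2 = 1) :
    dist (veronese x) (veronese y) ≤ √2 := by
  apply Real.le_sqrt_of_sq_le
  rw [dist_veronese_sq x y hx hy]
  nlinarith [sq_nonneg (∑ i, x i * y i)]

lemma veroneseSet_bounded : Bornology.IsBounded veroneseSet := by
  refine Metric.isBounded_iff.2 ⟨√2, ?_⟩
  rintro _ ⟨x, hx, rfl⟩ _ ⟨y, hy, rfl⟩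
  exact dist_veronese_le x y hx hy

/-- two orthogonal unit vectors -/
private def e0 : Fin 4 → ℝ := ![1, 0, 0, 0]
private def e1 : Fin 4 → ℝ := ![0, 1, 0, 0]

private lemma e0_unit : ∑ i, e0 i ^ 2 = 1 := by simp [e0, Fin.sum_univ_succ]
private lemma e1_unit : ∑ i, e1 i ^ 2 = 1 := by simp [e1, Fin.sum_univ_succ]
private lemma e01_orth : ∑ i, e0 i * e1 i = 0 := by simp [e0, e1, Fin.sum_univ_succ]

private lemma dist_e01 : dist (veronese e0) (veronese e1) = √2 := by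
  have h := dist_veronese_sq e0 e1 e0_unit e1_unit
  rw [e01_orth] at h
  have h2 : dist (veronese e0) (veronese e1) ^ 2 = 2 := by rw [h]; norm_num
  rw [← h2, Real.sqrt_sq dist_nonneg]

lemma diam_veroneseSet : Metric.diam veroneseSet = √2 := by
  apply le_antisymm
  · apply Metric.diam_le_of_forall_dist_le (Real.sqrt_nonneg _)
    rintro _ ⟨x, hx, rfl⟩ _ ⟨y, hy, rfl⟩
    exact dist_veronese_le x y hx hy
  · rw [← dist_e01]
    exact Metric.dist_le_diam_of_mem veroneseSet_bounded ⟨e0, e0_unit, rfl⟩ ⟨e1, e1_unit, rfl⟩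

lemma veroneseSet_nontrivial : veroneseSet.Nontrivial := by
  refine ⟨veronese e0, ⟨e0, e0_unit, rfl⟩, veronese e1, ⟨e1, e1_unit, rfl⟩, ?_⟩
  intro h
  have := dist_e01
  rw [h, dist_self] at this
  have h2 : (0:ℝ) < √2 := Real.sqrt_pos.2 (by norm_num)
  linarith

/-- The statement of S0069 follows from `Core`. -/
theorem exists_of_core (hcore : Core) :
    ∃ S : Set (EuclideanSpace ℝ (Fin 9)), Bornology.IsBounded S ∧ S.Nontrivial ∧
      ∀ c : EuclideanSpace ℝ (Fin 9) → Fin 10, ∃ i : Fin 10,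
        Metric.diam S ≤ Metric.diam (S ∩ c ⁻¹' {i}) := by
  refine ⟨veroneseSet, veroneseSet_bounded, veroneseSet_nontrivial, fun c => ?_⟩
  by_contra hcon
  simp only [not_exists, not_le] at hcon
  rw [diam_veroneseSet] at hcon
  -- the largest class diameter
  obtain ⟨i0, -, hi0⟩ := Finset.exists_max_image (Finset.univ : Finset (Fin 10))
    (fun i => Metric.diam (veroneseSet ∩ c ⁻¹' {i})) ⟨0, Finset.mem_univ _⟩
  set D := Metric.diam (veroneseSet ∩ c ⁻¹' {i0}) with hD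
  have hD0 : 0 ≤ D := Metric.diam_nonneg
  have hD1 : D < √2 := hcon i0
  have hD2 : D ^ 2 < 2 := by
    have : D ^ 2 < (√2) ^ 2 := by gcongr
    rwa [Real.sq_sqrt (by norm_num)] at this
  refine hcore ⟨fun x => c (veronese x), √((2 - D ^ 2) / 2), Real.sqrt_pos.2 (by linarith), ?_⟩
  intro x y hx hy hxy
  have hxm : veronese x ∈ veroneseSet ∩ c ⁻¹' {c (veronese x)} := ⟨⟨x, hx, rfl⟩, rfl⟩
  have hym : veronese y ∈ veroneseSet ∩ c ⁻¹' {c (veronese x)} :=
    ⟨⟨y, hy, rfl⟩, by simpa using hxy.symm⟩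
  have hb : Bornology.IsBounded (veroneseSet ∩ c ⁻¹' {c (veronese x)}) :=
    veroneseSet_bounded.subset Set.inter_subset_left
  have h1 : dist (veronese x) (veronese y) ≤ D :=
    (Metric.dist_le_diam_of_mem hb hxm hym).trans (hi0 _ (Finset.mem_univ _))
  have h2 : dist (veronese x) (veronese y) ^ 2 ≤ D ^ 2 := by gcongr
  rw [dist_veronese_sq x y hx hy] at h2
  rw [← Real.sqrt_sq_eq_abs]
  apply Real.sqrt_le_sqrt
  linarith

end Crest.Agent.S0069Lib
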