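import Mathlib

/-!
# S0069: the labelling of `S⁴` by eigenlines of traceless symmetric `3 × 3` matrices

`v : Fin 5 → ℝ` parametrizes the traceless symmetric matrix
`M v = [[v₀, v₂, v₃], [v₂, v₁, v₄], [v₃, v₄, -v₀-v₁]]`; `bil v u w = uᵀ (M v) w`.

* `top v` is a maximiser of `u ↦ bil v u u` on the unit sphere of `ℝ³`, `lam v` the maximum.
* `bil_top_eigen`: the first-order condition `bil v (top v) w = lam v * ⟪top v, w⟫`.
* `pos v`: `lam (-v) < lam v`, with an odd tie-break; `pt v` is `top v` if `pos v`, else `top (-v)`.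
* `pos_neg`, `pt_neg`: `pos` flips under `v ↦ -v` and `pt` is unchanged.
* `same_sign_close`, `opp_sign_orth`: the two variational estimates.  For `‖v‖₁ = ‖v'‖₁ = 1` and
  `ε = ‖v - v'‖₁`:  same signs give `⟪pt v, pt v'⟫² ≥ 1 - 28 ε`; opposite signs give
  `|⟪pt v, pt v'⟫| ≤ 14 ε`.
No spectral theory is used.
-/

set_option autoImplicit false

namespace Crest.Agent.S0069Lib.Spectral

open Finset

/-- Euclidean inner product on `ℝ³`, written out. -/
def dot3 (u w : Fin 3 → ℝ) : ℝ := u 0 * w 0 + u 1 * w 1 + u 2 * w 2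

theorem dot3_eq_sum (u w : Fin 3 → ℝ) : dot3 u w = ∑ i, u i * w i := by
  simp [dot3, Fin.sum_univ_three]

/-- The symmetric bilinear form of the traceless symmetric matrix with parameter `v`. -/
def bil (v : Fin 5 → ℝ) (u w : Fin 3 → ℝ) : ℝ :=
  v 0 * (u 0 * w 0 - u 2 * w 2) + v 1 * (u 1 * w 1 - u 2 * w 2) + v 2 * (u 0 * w 1 + u 1 * w 0)
    + v 3 * (u 0 * w 2 + u 2 * w 0) + v 4 * (u 1 * w 2 + u 2 * w 1)

/-- `ℓ¹` norm on the parameter space. -/
def norm1 (v : Fin 5 → ℝ) : ℝ := |v 0| + |v 1| + |v 2| + |v 3| + |v 4|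

theorem bil_comm (v : Fin 5 → ℝ) (u w : Fin 3 → ℝ) : bil v u w = bil v w u := by
  simp only [bil]; ring

theorem bil_neg (v : Fin 5 → ℝ) (u w : Fin 3 → ℝ) : bil (-v) u w = - bil v u w := by
  simp only [bil, Pi.neg_apply]; ring

theorem bil_sub (v v' : Fin 5 → ℝ) (u w : Fin 3 → ℝ) :
    bil (v - v') u w = bil v u w - bil v' u w := by
  simp only [bil, Pi.sub_apply]; ring

theorem norm1_neg (v : Fin 5 → ℝ) : norm1 (-v) = norm1 v := by
  simp [norm1]

theorem norm1_sub_comm (v v' : Fin 5 → ℝ) : norm1 (v - v') = norm1 (v' - v) := by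
  simp only [norm1, Pi.sub_apply]
  rw [abs_sub_comm (v 0), abs_sub_comm (v 1), abs_sub_comm (v 2), abs_sub_comm (v 3),
    abs_sub_comm (v 4)]

theorem abs_coord_le {u : Fin 3 → ℝ} (hu : dot3 u u = 1) (i : Fin 3) : |u i| ≤ 1 := by
  have h0 := mul_self_nonneg (u 0)
  have h1 := mul_self_nonneg (u 1)
  have h2 := mul_self_nonneg (u 2)
  simp only [dot3] at hu
  have h : u i * u i ≤ 1 := by
    fin_cases i
    · show u 0 * u 0 ≤ 1
      linarith
    · show u 1 * u 1 ≤ 1
      linarith
    · show u 2 * u 2 ≤ 1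
      linarith
  exact abs_le_one_iff_mul_self_le_one.mpr h

/-- Crude bound on the bilinear form at unit vectors. -/
theorem abs_bil_le (v : Fin 5 → ℝ) {u w : Fin 3 → ℝ} (hu : dot3 u u = 1) (hw : dot3 w w = 1) :
    |bil v u w| ≤ 2 * norm1 v := by
  have hc : ∀ i j k l : Fin 3, |u i * w j - u k * w l| ≤ 2 ∧ |u i * w j + u k * w l| ≤ 2 := by
    intro i j k l
    have h1 : |u i * w j| ≤ 1 := by
      rw [abs_mul]; exact mul_le_one₀ (abs_coord_le hu i) (abs_nonneg _) (abs_coord_le hw j)
    have h2 : |u k * w l| ≤ 1 := by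
      rw [abs_mul]; exact mul_le_one₀ (abs_coord_le hu k) (abs_nonneg _) (abs_coord_le hw l)
    constructor
    · exact (abs_sub _ _).trans (by linarith)
    · exact (abs_add_le _ _).trans (by linarith)
  have t : ∀ a b : ℝ, |b| ≤ 2 → |a * b| ≤ 2 * |a| := by
    intro a b hb
    rw [abs_mul]; nlinarith [abs_nonneg a]
  simp only [bil, norm1]
  have e0 := t (v 0) _ (hc 0 0 2 2).1
  have e1 := t (v 1) _ (hc 1 1 2 2).1
  have e2 := t (v 2) _ (hc 0 1 1 0).2
  have e3 := t (v 3) _ (hc 0 2 2 0).2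
  have e4 := t (v 4) _ (hc 1 2 2 1).2
  calc _ ≤ |v 0 * (u 0 * w 0 - u 2 * w 2)| + |v 1 * (u 1 * w 1 - u 2 * w 2)|
        + |v 2 * (u 0 * w 1 + u 1 * w 0)| + |v 3 * (u 0 * w 2 + u 2 * w 0)|
        + |v 4 * (u 1 * w 2 + u 2 * w 1)| := by
        refine (abs_add_le _ _).trans ?_
        refine add_le_add ?_ le_rfl
        refine (abs_add_le _ _).trans ?_
        refine add_le_add ?_ le_rfl
        refine (abs_add_le _ _).trans ?_
        refine add_le_add ?_ le_rfl
        exact abs_add_le _ _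
    _ ≤ _ := by linarith

/-- Existence of a maximiser on the unit sphere. -/
theorem exists_top (v : Fin 5 → ℝ) :
    ∃ y : Fin 3 → ℝ, dot3 y y = 1 ∧ ∀ u : Fin 3 → ℝ, dot3 u u = 1 → bil v u u ≤ bil v y y := by
  let S : Set (Fin 3 → ℝ) := {u | dot3 u u = 1}
  have hcont : Continuous fun u : Fin 3 → ℝ => dot3 u u := by
    unfold dot3; fun_prop
  have hclosed : IsClosed S := isClosed_eq hcont continuous_const
  have hbdd : Bornology.IsBounded S := by
    refine (Metric.isBounded_iff_subset_closedBall (0 : Fin 3 → ℝ)).mpr ⟨1, ?_⟩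
    intro u hu
    rw [mem_closedBall_zero_iff, pi_norm_le_iff_of_nonneg zero_le_one]
    intro i
    rw [Real.norm_eq_abs]
    exact abs_coord_le hu i
  have hcomp : IsCompact S := Metric.isCompact_of_isClosed_isBounded hclosed hbdd
  have hne : S.Nonempty := ⟨![1, 0, 0], by simp [S, dot3]⟩
  have hcont2 : ContinuousOn (fun u : Fin 3 → ℝ => bil v u u) S := by
    apply Continuous.continuousOn
    unfold bil; fun_prop
  obtain ⟨y, hy, hmax⟩ := hcomp.exists_isMaxOn hne hcont2
  exact ⟨y, hy, fun u hu => hmax hu⟩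

/-- A maximiser of the quadratic form. -/
noncomputable def top (v : Fin 5 → ℝ) : Fin 3 → ℝ := Classical.choose (exists_top v)

/-- The maximum of the quadratic form on the unit sphere. -/
noncomputable def lam (v : Fin 5 → ℝ) : ℝ := bil v (top v) (top v)

theorem top_unit (v : Fin 5 → ℝ) : dot3 (top v) (top v) = 1 :=
  (Classical.choose_spec (exists_top v)).1

theorem le_lam (v : Fin 5 → ℝ) {u : Fin 3 → ℝ} (hu : dot3 u u = 1) : bil v u u ≤ lam v :=
  (Classical.choose_spec (exists_top v)).2 u hu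

theorem dot3_self_nonneg (u : Fin 3 → ℝ) : 0 ≤ dot3 u u := by
  simp only [dot3]; nlinarith [sq_nonneg (u 0), sq_nonneg (u 1), sq_nonneg (u 2)]

theorem dot3_self_eq_zero {u : Fin 3 → ℝ} (h : dot3 u u = 0) : u = 0 := by
  simp only [dot3] at h
  have h0 : u 0 = 0 := by nlinarith [sq_nonneg (u 0), sq_nonneg (u 1), sq_nonneg (u 2)]
  have h1 : u 1 = 0 := by nlinarith [sq_nonneg (u 0), sq_nonneg (u 1), sq_nonneg (u 2)]
  have h2 : u 2 = 0 := by nlinarith [sq_nonneg (u 0), sq_nonneg (u 1), sq_nonneg (u 2)]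
  funext i; fin_cases i <;> simp [h0, h1, h2]

/-- Homogeneous form of the maximum. -/
theorem bil_le_lam_mul (v : Fin 5 → ℝ) (u : Fin 3 → ℝ) : bil v u u ≤ lam v * dot3 u u := by
  by_cases h : dot3 u u = 0
  · have h0 := dot3_self_eq_zero h
    subst h0
    simp [bil, dot3]
  · have hpos : 0 < dot3 u u := lt_of_le_of_ne (dot3_self_nonneg u) (Ne.symm h)
    set r := Real.sqrt (dot3 u u)
    have hr : 0 < r := Real.sqrt_pos.mpr hpos
    have hr2 : r * r = dot3 u u := Real.mul_self_sqrt hpos.le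
    let u' : Fin 3 → ℝ := fun i => u i / r
    have hu' : dot3 u' u' = 1 := by
      simp only [dot3, u'] at hr2 ⊢
      field_simp
      linarith
    have := le_lam v hu'
    have e : bil v u' u' = bil v u u / (r * r) := by
      simp only [bil, u']
      field_simp
    rw [e, div_le_iff₀ (by positivity), hr2] at this
    exact this

/-- First-order condition: `top v` is an eigenvector. -/
theorem bil_top_eigen (v : Fin 5 → ℝ) (w : Fin 3 → ℝ) :
    bil v (top v) w = lam v * dot3 (top v) w := by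
  set y := top v
  set a := lam v
  have hy : dot3 y y = 1 := top_unit v
  have hay : bil v y y = a := rfl
  set c := bil v y w - a * dot3 y w with hc
  set e := bil v w w - a * dot3 w w with he
  have he0 : e ≤ 0 := by have := bil_le_lam_mul v w; simp only [he]; linarith
  have key : ∀ t : ℝ, 2 * t * c + t ^ 2 * e ≤ 0 := by
    intro t
    have h := bil_le_lam_mul v (fun i => y i + t * w i)
    have e1 : bil v (fun i => y i + t * w i) (fun i => y i + t * w i)
        = bil v y y + 2 * t * bil v y w + t ^ 2 * bil v w w := by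
      simp only [bil]; ring
    have e2 : dot3 (fun i => y i + t * w i) (fun i => y i + t * w i)
        = dot3 y y + 2 * t * dot3 y w + t ^ 2 * dot3 w w := by
      simp only [dot3]; ring
    rw [e1, e2, hy, hay] at h
    simp only [hc, he]
    nlinarith
  by_contra hne
  have hc0 : c ≠ 0 := fun h0 => hne (by simp only [hc] at h0; linarith)
  have hcsq : 0 < c ^ 2 := by positivity
  have hden : 0 < 1 - e := by linarith
  have := key (c / (1 - e))
  have e3 : 2 * (c / (1 - e)) * c + (c / (1 - e)) ^ 2 * e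
      = c ^ 2 * (2 * (1 - e) + e) / (1 - e) ^ 2 := by
    field_simp
  rw [e3] at this
  have hnum : 0 < c ^ 2 * (2 * (1 - e) + e) := by
    apply mul_pos hcsq; linarith
  have : 0 < c ^ 2 * (2 * (1 - e) + e) / (1 - e) ^ 2 := by positivity
  linarith

/-- The cross product of two vectors in `ℝ³`. -/
def cross3 (y w : Fin 3 → ℝ) : Fin 3 → ℝ :=
  ![y 1 * w 2 - y 2 * w 1, y 2 * w 0 - y 0 * w 2, y 0 * w 1 - y 1 * w 0]

theorem cross3_unit {y w : Fin 3 → ℝ} (hy : dot3 y y = 1) (hw : dot3 w w = 1) (hyw : dot3 y w = 0) :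
    dot3 (cross3 y w) (cross3 y w) = 1 := by
  have : dot3 (cross3 y w) (cross3 y w) = dot3 y y * dot3 w w - dot3 y w ^ 2 := by
    simp only [dot3, cross3, Matrix.cons_val_zero, Matrix.cons_val_one, Matrix.cons_val]
    ring
  rw [this, hy, hw, hyw]; norm_num

/-- Tracelessness on an orthonormal frame. -/
theorem trace_frame (v : Fin 5 → ℝ) {y w : Fin 3 → ℝ}
    (hy : dot3 y y = 1) (hw : dot3 w w = 1) (hyw : dot3 y w = 0) :
    bil v y y + bil v w w + bil v (cross3 y w) (cross3 y w) = 0 := by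
  have hy' : y 0 * y 0 + y 1 * y 1 + y 2 * y 2 = 1 := hy
  have hw' : w 0 * w 0 + w 1 * w 1 + w 2 * w 2 = 1 := hw
  have hyw' : y 0 * w 0 + y 1 * w 1 + y 2 * w 2 = 0 := hyw
  set A := y 0 * y 0 + y 1 * y 1 + y 2 * y 2 with hA
  set B := w 0 * w 0 + w 1 * w 1 + w 2 * w 2 with hB
  set C := y 0 * w 0 + y 1 * w 1 + y 2 * w 2 with hC
  -- Gram formula for the entries of `c cᵀ`, `c = y × w`.
  have g : ∀ i j : Fin 3,
      cross3 y w i * cross3 y w j
        = (if i = j then A * B - C ^ 2 else 0)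
          - (B * (y i * y j) + A * (w i * w j) - C * (y i * w j + w i * y j)) := by
    intro i j
    fin_cases i <;> fin_cases j <;>
      simp only [cross3, hA, hB, hC, Matrix.cons_val_zero, Matrix.cons_val_one, Matrix.cons_val,
        Fin.isValue, Fin.zero_eta, Fin.mk_one, Fin.reduceFinMk] <;> simp <;> ring
  have gg : ∀ i j : Fin 3, y i * y j + w i * w j + cross3 y w i * cross3 y w j
      = if i = j then 1 else 0 := by
    intro i j
    rw [g, hy', hw', hyw']
    split_ifs <;> ring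
  have g00 := gg 0 0
  have g11 := gg 1 1
  have g22 := gg 2 2
  have g01 := gg 0 1
  have g02 := gg 0 2
  have g12 := gg 1 2
  simp only [if_true, Fin.isValue, Fin.reduceEq, if_false] at g00 g11 g22 g01 g02 g12
  simp only [bil]
  linear_combination v 0 * (g00 - g22) + v 1 * (g11 - g22) + 2 * v 2 * g01 + 2 * v 3 * g02
    + 2 * v 4 * g12

/-- On the orthogonal complement of `top v` the form is at most `lam (-v) - lam v`. -/
theorem bil_perp_le (v : Fin 5 → ℝ) {w : Fin 3 → ℝ} (hw : dot3 w w = 1)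
    (hyw : dot3 (top v) w = 0) : bil v w w ≤ lam (-v) - lam v := by
  have hc := cross3_unit (top_unit v) hw hyw
  have ht := trace_frame v (top_unit v) hw hyw
  have := le_lam (-v) hc
  rw [bil_neg] at this
  have hl : bil v (top v) (top v) = lam v := rfl
  rw [hl] at ht
  linarith

/-- When `lam (-v) ≤ lam v`: `bil v u u ≤ ⟪u, top v⟫² lam v` for unit `u`. -/
theorem bil_le_of_dominant (v : Fin 5 → ℝ) (hdom : lam (-v) ≤ lam v) {u : Fin 3 → ℝ}
    (_hu : dot3 u u = 1) : bil v u u ≤ dot3 (top v) u ^ 2 * lam v := by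
  set y := top v
  have hy : dot3 y y = 1 := top_unit v
  set α := dot3 y u with hα
  let r : Fin 3 → ℝ := fun i => u i - α * y i
  have hyr : dot3 y r = 0 := by
    have : dot3 y r = dot3 y u - α * dot3 y y := by
      simp only [dot3, r]; ring
    rw [this, hy, ← hα]; ring
  have e : bil v u u = α ^ 2 * lam v + bil v r r := by
    have h1 : bil v u u = α ^ 2 * bil v y y + 2 * α * bil v y r + bil v r r := by
      simp only [bil, r]; ring
    have h2 : bil v y r = lam v * dot3 y r := bil_top_eigen v r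
    have h3 : bil v y y = lam v := rfl
    rw [h1, h2, h3, hyr]; ring
  rw [e]
  -- `bil v r r ≤ 0`
  have hr : bil v r r ≤ 0 := by
    by_cases h : dot3 r r = 0
    · have h0 := dot3_self_eq_zero h
      rw [h0]; simp [bil]
    · have hpos : 0 < dot3 r r := lt_of_le_of_ne (dot3_self_nonneg r) (Ne.symm h)
      set s := Real.sqrt (dot3 r r)
      have hs : 0 < s := Real.sqrt_pos.mpr hpos
      have hs2 : s * s = dot3 r r := Real.mul_self_sqrt hpos.le
      let r' : Fin 3 → ℝ := fun i => r i / s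
      have hr' : dot3 r' r' = 1 := by
        simp only [dot3, r'] at hs2 ⊢
        field_simp
        linarith
      have hyr' : dot3 y r' = 0 := by
        have : dot3 y r' = dot3 y r / s := by
          simp only [dot3, r']; field_simp
        rw [this, hyr]; simp
      have h1 := bil_perp_le v hr' hyr'
      have e2 : bil v r' r' = bil v r r / (s * s) := by
        simp only [bil, r']
        field_simp
      rw [e2] at h1
      have h2 : bil v r r / (s * s) ≤ 0 := by linarith
      have h3 : (0 : ℝ) < s * s := by positivity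
      by_contra hneg
      have hneg' : 0 < bil v r r := not_le.mp hneg
      have : 0 < bil v r r / (s * s) := by positivity
      linarith
  linarith

/-- The three coordinate values of the diagonal. -/
theorem lam_nonneg (v : Fin 5 → ℝ) : 0 ≤ lam v := by
  have e0 := le_lam v (u := ![1, 0, 0]) (by simp [dot3])
  have e1 := le_lam v (u := ![0, 1, 0]) (by simp [dot3])
  have e2 := le_lam v (u := ![0, 0, 1]) (by simp [dot3])
  simp [bil] at e0 e1 e2
  linarith

/-- Lower bound for the larger of `lam v`, `lam (-v)`. -/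
theorem norm1_le_seven_lam (v : Fin 5 → ℝ) : norm1 v ≤ 7 * max (lam v) (lam (-v)) := by
  set m := max (lam v) (lam (-v)) with hm
  have hl : lam v ≤ m := le_max_left _ _
  have hl' : lam (-v) ≤ m := le_max_right _ _
  have bd : ∀ u : Fin 3 → ℝ, |bil v u u| ≤ m * dot3 u u := by
    intro u
    have hd := dot3_self_nonneg u
    have h1 := bil_le_lam_mul v u
    have h2 := bil_le_lam_mul (-v) u
    rw [bil_neg] at h2
    rw [abs_le]
    constructor <;> nlinarith
  have e0 := bd ![1, 0, 0]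
  have e1 := bd ![0, 1, 0]
  have e01 := bd ![1, 1, 0]
  have e02 := bd ![1, 0, 1]
  have e12 := bd ![0, 1, 1]
  simp [bil, dot3] at e0 e1 e01 e02 e12
  rw [abs_le] at e0 e1 e01 e02 e12
  simp only [norm1]
  have a0 : |v 0| ≤ m := abs_le.mpr ⟨by linarith [e0.1], by linarith [e0.2]⟩
  have a1 : |v 1| ≤ m := abs_le.mpr ⟨by linarith [e1.1], by linarith [e1.2]⟩
  have a2 : |v 2| ≤ 2 * m := abs_le.mpr ⟨by linarith [e01.1, e0.2, e1.2], by linarith [e01.2, e0.1, e1.1]⟩
  have a3 : |v 3| ≤ 3 / 2 * m := abs_le.mpr ⟨by linarith [e02.1, e1.2], by linarith [e02.2, e1.1]⟩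
  have a4 : |v 4| ≤ 3 / 2 * m := abs_le.mpr ⟨by linarith [e12.1, e0.2], by linarith [e12.2, e0.1]⟩
  linarith

/-- Lexicographic positivity on `ℝ⁵`. -/
def lexPos (v : Fin 5 → ℝ) : Prop :=
  0 < v 0 ∨ (v 0 = 0 ∧ 0 < v 1) ∨ (v 0 = 0 ∧ v 1 = 0 ∧ 0 < v 2) ∨
    (v 0 = 0 ∧ v 1 = 0 ∧ v 2 = 0 ∧ 0 < v 3) ∨ (v 0 = 0 ∧ v 1 = 0 ∧ v 2 = 0 ∧ v 3 = 0 ∧ 0 < v 4)

theorem lexPos_neg {v : Fin 5 → ℝ} (hv : v ≠ 0) : lexPos (-v) ↔ ¬ lexPos v := by
  have hne : ¬ (v 0 = 0 ∧ v 1 = 0 ∧ v 2 = 0 ∧ v 3 = 0 ∧ v 4 = 0) := by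
    rintro ⟨a, b, c, d, e⟩
    apply hv
    funext i
    fin_cases i <;> simpa
  simp only [lexPos, Pi.neg_apply, neg_pos, neg_eq_zero]
  rcases lt_trichotomy (v 0) 0 with h0 | h0 | h0
  · have h1 : ¬ 0 < v 0 := not_lt.mpr h0.le
    simp [h0, h0.ne, h1]
  · rw [h0]
    rcases lt_trichotomy (v 1) 0 with h1 | h1 | h1
    · have h2 : ¬ 0 < v 1 := not_lt.mpr h1.le
      simp [h1, h1.ne, h2]
    · rw [h1]
      rcases lt_trichotomy (v 2) 0 with h2 | h2 | h2
      · have h3 : ¬ 0 < v 2 := not_lt.mpr h2.le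
        simp [h2, h2.ne, h3]
      · rw [h2]
        rcases lt_trichotomy (v 3) 0 with h3 | h3 | h3
        · have h4 : ¬ 0 < v 3 := not_lt.mpr h3.le
          simp [h3, h3.ne, h4]
        · rw [h3]
          rcases lt_trichotomy (v 4) 0 with h4 | h4 | h4
          · have h5 : ¬ 0 < v 4 := not_lt.mpr h4.le
            simp [h4, h5]
          · exact absurd ⟨h0, h1, h2, h3, h4⟩ hne
          · have h5 : ¬ v 4 < 0 := not_lt.mpr h4.le
            simp [h4, h5]
        · have h4 : ¬ v 3 < 0 := not_lt.mpr h3.le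
          simp [h3, h3.ne', h4]
      · have h3 : ¬ v 2 < 0 := not_lt.mpr h2.le
        simp [h2, h2.ne', h3]
    · have h2 : ¬ v 1 < 0 := not_lt.mpr h1.le
      simp [h1, h1.ne', h2]
  · have h1 : ¬ v 0 < 0 := not_lt.mpr h0.le
    simp [h0, h0.ne', h1]

/-- The sign of a parameter: whether the top eigenvalue dominates. -/
def pos (v : Fin 5 → ℝ) : Prop :=
  lam (-v) < lam v ∨ (lam (-v) = lam v ∧ lexPos v)

theorem pos_neg {v : Fin 5 → ℝ} (hv : v ≠ 0) : pos (-v) ↔ ¬ pos v := by
  have hl := lexPos_neg hv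
  simp only [pos, neg_neg]
  rcases lt_trichotomy (lam (-v)) (lam v) with h | h | h
  · simp [h, h.ne, h.ne', not_lt.mpr h.le]
  · simp [h, hl]
  · simp [h, h.ne, h.ne', not_lt.mpr h.le]

theorem pos_dominant {v : Fin 5 → ℝ} (h : pos v) : lam (-v) ≤ lam v := by
  rcases h with h | h
  · exact h.le
  · exact h.1.le

theorem not_pos_dominant {v : Fin 5 → ℝ} (hv : v ≠ 0) (h : ¬ pos v) : lam v ≤ lam (-v) := by
  have : pos (-v) := (pos_neg hv).mpr h
  have := pos_dominant this
  simpa using this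

open Classical in
/-- The label point of `v`: `top v` if `v` is positive, `top (-v)` (the bottom eigenline) otherwise. -/
noncomputable def pt (v : Fin 5 → ℝ) : Fin 3 → ℝ := if pos v then top v else top (-v)

theorem pt_of_pos {v : Fin 5 → ℝ} (h : pos v) : pt v = top v := by
  simp [pt, h]

theorem pt_of_not_pos {v : Fin 5 → ℝ} (h : ¬ pos v) : pt v = top (-v) := by
  simp [pt, h]

/-- `pt` is unchanged by the antipode. -/
theorem pt_neg {v : Fin 5 → ℝ} (hv : v ≠ 0) : pt (-v) = pt v := by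
  by_cases h : pos v
  · have h' : ¬ pos (-v) := fun h2 => ((pos_neg hv).mp h2) h
    rw [pt_of_not_pos h', pt_of_pos h, neg_neg]
  · have h' : pos (-v) := (pos_neg hv).mpr h
    rw [pt_of_pos h', pt_of_not_pos h]

theorem pt_unit (v : Fin 5 → ℝ) : dot3 (pt v) (pt v) = 1 := by
  by_cases h : pos v
  · rw [pt_of_pos h]; exact top_unit v
  · rw [pt_of_not_pos h]; exact top_unit _

/-- Lower bound for the dominant eigenvalue. -/
theorem lam_lower {v : Fin 5 → ℝ} (hv : norm1 v = 1) (hdom : lam (-v) ≤ lam v) : 1 / 7 ≤ lam v := by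
  have := norm1_le_seven_lam v
  rw [hv, max_eq_left hdom] at this
  linarith

/-- Estimate for two dominant tops. -/
theorem top_top_close {v v' : Fin 5 → ℝ} (hv : norm1 v = 1)
    (hdom : lam (-v) ≤ lam v) :
    1 - 28 * norm1 (v - v') ≤ dot3 (top v) (top v') ^ 2 := by
  set ε := norm1 (v - v')
  have hy := top_unit v
  have hy' := top_unit v'
  have h1 : |bil (v - v') (top v') (top v')| ≤ 2 * ε := abs_bil_le _ hy' hy'
  have h2 : |bil (v - v') (top v) (top v)| ≤ 2 * ε := abs_bil_le _ hy hy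
  rw [bil_sub] at h1 h2
  rw [abs_le] at h1 h2
  have h3 : bil v' (top v) (top v) ≤ bil v' (top v') (top v') := le_lam v' hy
  have h4 := bil_le_of_dominant v hdom hy'
  have hl : bil v (top v) (top v) = lam v := rfl
  rw [hl] at h2
  have hlow := lam_lower hv hdom
  -- `lam v - 4 ε ≤ α² lam v`
  have h5 : lam v - 4 * ε ≤ dot3 (top v) (top v') ^ 2 * lam v := by linarith [h1.1, h1.2, h2.1, h2.2]
  have hα : dot3 (top v) (top v') ^ 2 ≤ 1 := by
    -- Cauchy–Schwarz
    have hcs : dot3 (top v) (top v') ^ 2 ≤ dot3 (top v) (top v) * dot3 (top v') (top v') := by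
      simp only [dot3]
      nlinarith [sq_nonneg (top v 0 * top v' 1 - top v 1 * top v' 0),
        sq_nonneg (top v 0 * top v' 2 - top v 2 * top v' 0),
        sq_nonneg (top v 1 * top v' 2 - top v 2 * top v' 1)]
    rw [hy, hy'] at hcs; linarith
  nlinarith

/-- Estimate for a top and a bottom. -/
theorem top_bot_orth {v v' : Fin 5 → ℝ} (hv : norm1 v = 1)
    (hdom : lam (-v) ≤ lam v) :
    |dot3 (top v) (top (-v'))| ≤ 14 * norm1 (v - v') := by
  set ε := norm1 (v - v')
  set y := top v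
  set z := top (-v')
  have hy : dot3 y y = 1 := top_unit v
  have hz : dot3 z z = 1 := top_unit (-v')
  have e1 : bil v y z = lam v * dot3 y z := bil_top_eigen v z
  have e2 : bil (-v') z y = lam (-v') * dot3 z y := bil_top_eigen (-v') y
  rw [bil_neg, bil_comm] at e2
  have e3 : dot3 z y = dot3 y z := by simp only [dot3]; ring
  rw [e3] at e2
  have h := abs_bil_le (v - v') hy hz
  rw [bil_sub, e1] at h
  have e4 : lam v * dot3 y z - bil v' y z = (lam v + lam (-v')) * dot3 y z := by
    linarith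
  rw [e4, abs_mul] at h
  have hlow := lam_lower hv hdom
  have hn := lam_nonneg (-v')
  have hsum : 1 / 7 ≤ |lam v + lam (-v')| := by
    rw [abs_of_nonneg (by linarith)]; linarith
  have hab := abs_nonneg (dot3 y z)
  nlinarith

/-- **Same sign**: the label points of two near parameters of the same sign are close as lines. -/
theorem same_sign_close {v v' : Fin 5 → ℝ} (hv : norm1 v = 1) (hv' : norm1 v' = 1)
    (hs : pos v ↔ pos v') :
    1 - 28 * norm1 (v - v') ≤ dot3 (pt v) (pt v') ^ 2 := by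
  have hv0 : v ≠ 0 := by
    rintro rfl; simp [norm1] at hv
  have hv0' : v' ≠ 0 := by
    rintro rfl; simp [norm1] at hv'
  by_cases h : pos v
  · rw [pt_of_pos h, pt_of_pos (hs.mp h)]
    exact top_top_close hv (pos_dominant h)
  · have h' : ¬ pos v' := fun h2 => h (hs.mpr h2)
    rw [pt_of_not_pos h, pt_of_not_pos h']
    have hd := not_pos_dominant hv0 h
    have := top_top_close (v := -v) (v' := -v') (by rw [norm1_neg]; exact hv) (by simpa using hd)
    have e : norm1 (-v - -v') = norm1 (v - v') := by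
      simp only [norm1, Pi.sub_apply, Pi.neg_apply]
      rw [show -v 0 - -v' 0 = -(v 0 - v' 0) by ring, show -v 1 - -v' 1 = -(v 1 - v' 1) by ring,
        show -v 2 - -v' 2 = -(v 2 - v' 2) by ring, show -v 3 - -v' 3 = -(v 3 - v' 3) by ring,
        show -v 4 - -v' 4 = -(v 4 - v' 4) by ring]
      simp only [abs_neg]
    rwa [e] at this

/-- **Opposite signs**: the label points of two near parameters of opposite signs are nearly orthogonal. -/
theorem opp_sign_orth {v v' : Fin 5 → ℝ} (hv : norm1 v = 1) (_hv' : norm1 v' = 1)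
    (hs : pos v) (hs' : ¬ pos v') :
    |dot3 (pt v) (pt v')| ≤ 14 * norm1 (v - v') := by
  rw [pt_of_pos hs, pt_of_not_pos hs']
  exact top_bot_orth hv (pos_dominant hs)

end Crest.Agent.S0069Lib.Spectral
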