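import Crest.Agent.S0069Lib.KyFan

/-!
# S0069: the algebraic heart of the plane theorem T2

`Cc` is a mod 2 4-cycle on the join `(+W) * (-W)` of two copies of a triangulated projective plane.
`m(t,e) = Cc (X t e)`. For a triangle `t`, `e ↦ m(t,e)` is a 1-cycle; `ν t = ⟨m(t,·), w⟩`, where `w` is the
cocycle of the double cover, is a 2-cycle hence constant. With the band property `ε_E(m(t,·)) = ν t` Ky Fan's
alternating sum for the order of colours `T=o0,o2,o4`, `Tᶜ=o1,o3,o5` reads `ν₀ (d T + d Tᶜ) = 1`.
-/

set_option autoImplicit false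

namespace Crest.Agent.S0069Lib

open Finset

/-- The face `(+A) * (-A')` of the join. -/
def X {W : Type} [DecidableEq W] (A A' : Finset W) : Finset (Bool × W) :=
  A.image (Prod.mk true) ∪ A'.image (Prod.mk false)

namespace T2AbsAux

section Join
variable {W : Type} [DecidableEq W]

theorem mem_X_true {A A' : Finset W} {u : W} : (true, u) ∈ X A A' ↔ u ∈ A := by
  simp [X]

theorem mem_X_false {A A' : Finset W} {u : W} : (false, u) ∈ X A A' ↔ u ∈ A' := by
  simp [X]

theorem X_insert_true (A A' : Finset W) (u : W) :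
    insert (true, u) (X A A') = X (insert u A) A' := by
  ext ⟨b, v⟩
  cases b <;> simp [X]

theorem X_insert_false (A A' : Finset W) (u : W) :
    insert (false, u) (X A A') = X A (insert u A') := by
  ext ⟨b, v⟩
  cases b <;> simp [X]

theorem card_X (A A' : Finset W) : (X A A').card = A.card + A'.card := by
  unfold X
  rw [card_union_of_disjoint, card_image_of_injective, card_image_of_injective]
  · intro a b h; simpa using h
  · intro a b h; simpa using h
  · rw [Finset.disjoint_left]
    intro p hp hq
    simp only [mem_image] at hp hq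
    obtain ⟨a, _, rfl⟩ := hp
    obtain ⟨b, _, hb⟩ := hq
    simp at hb

variable [Fintype W]

/-- The two parts of a face of the join. -/
def joinEquiv : Finset (Bool × W) ≃ Finset W × Finset W where
  toFun Y := (univ.filter (fun u => (true, u) ∈ Y), univ.filter (fun u => (false, u) ∈ Y))
  invFun p := X p.1 p.2
  left_inv Y := by
    ext ⟨b, v⟩
    cases b <;> simp [X]
  right_inv p := by
    obtain ⟨A, A'⟩ := p
    ext v <;> simp [X]

theorem sum_X (f : Finset (Bool × W) → ZMod 2) :
    ∑ Y, f Y = ∑ A : Finset W, ∑ A' : Finset W, f (X A A') := by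
  rw [← Fintype.sum_prod_type' (f := fun A A' => f (X A A'))]
  exact (Equiv.sum_comp (joinEquiv (W := W)).symm f).symm

theorem bd_X (c : Chain (Bool × W)) (A A' : Finset W) :
    bd c (X A A') = ∑ u ∈ Aᶜ, c (X (insert u A) A') + ∑ u ∈ A'ᶜ, c (X A (insert u A')) := by
  unfold bd
  have h0 : ∀ (F : Bool × W → ZMod 2) (Y : Finset (Bool × W)),
      ∑ v ∈ Yᶜ, F v = ∑ v, if v ∉ Y then F v else 0 := by
    intro F Y
    rw [← Finset.sum_filter]
    apply Finset.sum_congr _ (fun _ _ => rfl)
    ext v; simp
  have h1 : ∀ (F : W → ZMod 2) (S : Finset W),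
      ∑ u ∈ Sᶜ, F u = ∑ u, if u ∉ S then F u else 0 := by
    intro F S
    rw [← Finset.sum_filter]
    apply Finset.sum_congr _ (fun _ _ => rfl)
    ext v; simp
  rw [h0, Fintype.sum_prod_type, Fintype.sum_bool, h1, h1]
  congr 1
  · apply Finset.sum_congr rfl
    intro u _
    simp only [mem_X_true]
    by_cases hu : u ∈ A
    · simp [hu]
    · simp [hu, X_insert_true]
  · apply Finset.sum_congr rfl
    intro u _
    simp only [mem_X_false]
    by_cases hu : u ∈ A'
    · simp [hu]
    · simp [hu, X_insert_false]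

/-- Sum over the one-vertex extensions of a 2-set, where only triangles of `tri` count. -/
theorem sum_ext (tri : Finset (Finset W)) (h_tri : ∀ t ∈ tri, t.card = 3) (e : Finset W)
    (he : e.card = 2) (F : Finset W → ZMod 2)
    (hF : ∀ u, u ∉ e → insert u e ∉ tri → F (insert u e) = 0) :
    ∑ u ∈ eᶜ, F (insert u e) = ∑ t ∈ tri.filter (fun t => e ⊆ t), F t := by
  have h1 : ∑ u ∈ eᶜ, F (insert u e)
      = ∑ u ∈ eᶜ.filter (fun u => insert u e ∈ tri), F (insert u e) := by
    rw [Finset.sum_filter]
    apply Finset.sum_congr rfl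
    intro u hu
    split_ifs with h
    · rfl
    · exact hF u (by simpa using hu) h
  rw [h1]
  apply Finset.sum_bij (fun u _ => insert u e)
  · intro u hu
    simp only [mem_filter, mem_compl] at hu ⊢
    exact ⟨hu.2, subset_insert u e⟩
  · intro u hu u' hu' h
    simp only [mem_filter, mem_compl] at hu hu'
    have h2 : u ∈ insert u' e := by
      have : u ∈ insert u e := mem_insert_self u e
      simpa [h] using this
    rcases mem_insert.mp h2 with h3 | h3
    · exact h3
    · exact absurd h3 hu.1
  · intro t ht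
    simp only [mem_filter] at ht
    obtain ⟨ht, hse⟩ := ht
    have h3 : (t \ e).card = 1 := by
      rw [card_sdiff_of_subset hse, h_tri t ht, he]
    obtain ⟨u, hu⟩ := card_eq_one.mp h3
    have hu' : u ∈ t \ e := by rw [hu]; exact mem_singleton_self u
    have hut : u ∈ t := (mem_sdiff.mp hu').1
    have hue : u ∉ e := (mem_sdiff.mp hu').2
    have h4 : insert u e = t := by
      apply Finset.eq_of_subset_of_card_le
      · intro x hx
        rcases mem_insert.mp hx with rfl | hx
        · exact hut
        · exact hse hx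
      · rw [card_insert_of_notMem hue, he, h_tri t ht]
    refine ⟨u, ?_, h4⟩
    simp only [mem_filter, mem_compl]
    exact ⟨hue, by rw [h4]; exact ht⟩
  · intro _ _; rfl

/-- The 2-subsets of a triangle are the complements of its points. -/
theorem sum_two_subsets (t : Finset W) (ht : t.card = 3) (w : Finset W → ZMod 2) :
    ∑ e ∈ (univ.filter (fun e : Finset W => e.card = 2)).filter (fun e => e ⊆ t), w e
      = ∑ u ∈ t, w (t.erase u) := by
  symm
  apply Finset.sum_bij (fun u _ => t.erase u)
  · intro u hu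
    simp only [mem_filter, mem_univ, true_and]
    refine ⟨?_, erase_subset u t⟩
    rw [card_erase_of_mem hu, ht]
  · intro u hu u' hu' h
    by_contra hne
    have h2 : u ∈ t.erase u' := mem_erase.mpr ⟨hne, hu⟩
    rw [← h] at h2
    exact (mem_erase.mp h2).1 rfl
  · intro e he
    simp only [mem_filter, mem_univ, true_and] at he
    obtain ⟨he2, hse⟩ := he
    have h3 : (t \ e).card = 1 := by
      rw [card_sdiff_of_subset hse, ht, he2]
    obtain ⟨u, hu⟩ := card_eq_one.mp h3
    have hu' : u ∈ t \ e := by rw [hu]; exact mem_singleton_self u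
    refine ⟨u, (mem_sdiff.mp hu').1, ?_⟩
    ext x
    simp only [mem_erase]
    constructor
    · rintro ⟨hxu, hxt⟩
      by_contra hxe
      have : x ∈ t \ e := mem_sdiff.mpr ⟨hxt, hxe⟩
      rw [hu] at this
      exact hxu (mem_singleton.mp this)
    · intro hxe
      refine ⟨?_, hse hxe⟩
      rintro rfl
      exact (mem_sdiff.mp hu').2 hxe
  · intro _ _; rfl

end Join

/-! ### Alternating patterns of labels in `{0,…,5}` -/

/-- The label set with `m` missing. -/
def S6 (m : Fin 6) : Finset ℕ := (range 6).erase m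

/-- Rank of `s` in `S`. -/
def rk (S : Finset ℕ) (s : ℕ) : ℕ := (S.filter (fun x => x < s)).card

/-- Labels of even rank. -/
def Ev (m : Fin 6) : Finset ℕ := (S6 m).filter (fun s => Even (rk (S6 m) s))

/-- Labels of odd rank. -/
def Od (m : Fin 6) : Finset ℕ := (S6 m).filter (fun s => ¬ Even (rk (S6 m) s))

theorem Ev_card : ∀ m, (Ev m).card = 3 := by decide
theorem Od_card : ∀ m, (Od m).card = 2 := by decide
theorem S6_card : ∀ m, (S6 m).card = 5 := by decide
theorem S6_sub : ∀ m, S6 m ⊆ range 6 := by decide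
theorem Ev_union_Od (m : Fin 6) : Ev m ∪ Od m = S6 m := Finset.filter_union_filter_not_eq _ _
theorem Ev_disj_Od (m : Fin 6) : Disjoint (Ev m) (Od m) := Finset.disjoint_filter_filter_not _ _ _
theorem pattern_inj : ∀ m m', Ev m = Ev m' → Od m = Od m' → m = m' := by decide
theorem exists_S6 : ∀ S ∈ powersetCard 5 (range 6), ∃ m : Fin 6, S = S6 m := by decide

theorem Ev5 : Ev 5 = {0, 2, 4} := by decide
theorem Ev0 : Ev 0 = {1, 3, 5} := by decide
theorem Ev4 : Ev 4 = Ev 3 := by decide
theorem Ev2 : Ev 2 = Ev 1 := by decide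

section Alt
variable {W : Type} [DecidableEq W]

theorem image_X (g : W → ℕ) (A A' : Finset W) :
    (X A A').image (fun v : Bool × W => g v.2) = A.image g ∪ A'.image g := by
  ext s
  simp only [X, mem_image, mem_union]
  constructor
  · rintro ⟨v, hv | hv, rfl⟩
    · obtain ⟨a, ha, rfl⟩ := hv
      exact Or.inl ⟨a, ha, rfl⟩
    · obtain ⟨a, ha, rfl⟩ := hv
      exact Or.inr ⟨a, ha, rfl⟩
  · rintro (⟨a, ha, rfl⟩ | ⟨a, ha, rfl⟩)
    · exact ⟨(true, a), Or.inl ⟨a, ha, rfl⟩, rfl⟩
    · exact ⟨(false, a), Or.inr ⟨a, ha, rfl⟩, rfl⟩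

omit [DecidableEq W] in
theorem labRank_eq (g : W → ℕ) (Y : Finset (Bool × W))
    (hinj : Set.InjOn (fun v : Bool × W => g v.2) (Y : Set (Bool × W))) (v : Bool × W) :
    labRank (fun x : Bool × W => (g x.2, x.1)) Y v
      = rk (Y.image (fun v : Bool × W => g v.2)) (g v.2) := by
  unfold labRank rk
  rw [Finset.filter_image, card_image_of_injOn]
  exact hinj.mono (by intro x hx; exact (mem_filter.mp hx).1)

theorem alt_iff (g : W → ℕ) (A A' : Finset W) (hg : ∀ a ∈ A, g a < 6) (hg' : ∀ a ∈ A', g a < 6)
    (hcard : A.card + A'.card = 5) :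
    AltP (fun x : Bool × W => (g x.2, x.1)) (X A A') ↔
      ∃ m : Fin 6, A.image g = Ev m ∧ A'.image g = Od m := by
  constructor
  · rintro ⟨hinj, halt⟩
    have hinj' : Set.InjOn (fun v : Bool × W => g v.2) (X A A' : Set (Bool × W)) := hinj
    have hS : (X A A').image (fun v : Bool × W => g v.2) ∈ powersetCard 5 (range 6) := by
      rw [mem_powersetCard]
      constructor
      · rw [image_X]
        intro s hs
        rcases mem_union.mp hs with hs | hs
        · obtain ⟨a, ha, rfl⟩ := mem_image.mp hs
          exact mem_range.mpr (hg a ha)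
        · obtain ⟨a, ha, rfl⟩ := mem_image.mp hs
          exact mem_range.mpr (hg' a ha)
      · rw [card_image_of_injOn hinj', card_X, hcard]
    obtain ⟨m, hm⟩ := exists_S6 _ hS
    have hev : ∀ a ∈ A, Even (rk (S6 m) (g a)) := by
      intro a ha
      have hmem : (true, a) ∈ X A A' := mem_X_true.mpr ha
      have := (halt _ hmem).mp rfl
      rw [labRank_eq g _ hinj', hm] at this
      exact this
    have hod : ∀ a ∈ A', ¬ Even (rk (S6 m) (g a)) := by
      intro a ha hcon
      have hmem : (false, a) ∈ X A A' := mem_X_false.mpr ha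
      have h2 := halt _ hmem
      rw [labRank_eq g _ hinj', hm] at h2
      have := h2.mpr hcon
      simp at this
    have hsplit : A.image g ∪ A'.image g = S6 m := by rw [← hm, image_X]
    refine ⟨m, ?_, ?_⟩
    · ext s
      simp only [Ev, mem_filter]
      constructor
      · intro hs
        obtain ⟨a, ha, rfl⟩ := mem_image.mp hs
        exact ⟨by rw [← hsplit]; exact mem_union_left _ hs, hev a ha⟩
      · rintro ⟨hs, he⟩
        rw [← hsplit] at hs
        rcases mem_union.mp hs with hs | hs
        · exact hs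
        · obtain ⟨a, ha, rfl⟩ := mem_image.mp hs
          exact absurd he (hod a ha)
    · ext s
      simp only [Od, mem_filter]
      constructor
      · intro hs
        obtain ⟨a, ha, rfl⟩ := mem_image.mp hs
        exact ⟨by rw [← hsplit]; exact mem_union_right _ hs, hod a ha⟩
      · rintro ⟨hs, he⟩
        rw [← hsplit] at hs
        rcases mem_union.mp hs with hs | hs
        · obtain ⟨a, ha, rfl⟩ := mem_image.mp hs
          exact absurd (hev a ha) he
        · exact hs
  · rintro ⟨m, h1, h2⟩
    have himg : (X A A').image (fun v : Bool × W => g v.2) = S6 m := by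
      rw [image_X, h1, h2, Ev_union_Od]
    have hinj' : Set.InjOn (fun v : Bool × W => g v.2) (X A A' : Set (Bool × W)) := by
      rw [← Finset.card_image_iff, himg, S6_card, card_X, hcard]
    refine ⟨hinj', ?_⟩
    rintro ⟨b, v⟩ hv
    rw [labRank_eq g _ hinj', himg]
    cases b with
    | true =>
      have hva : v ∈ A := mem_X_true.mp hv
      have : g v ∈ Ev m := by rw [← h1]; exact mem_image_of_mem g hva
      simp only [true_iff]
      exact (mem_filter.mp this).2
    | false =>
      have hva : v ∈ A' := mem_X_false.mp hv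
      have : g v ∈ Od m := by rw [← h2]; exact mem_image_of_mem g hva
      have h3 := (mem_filter.mp this).2
      simp [h3]

theorem altA_eq (g : W → ℕ) (A A' : Finset W) (hg : ∀ a ∈ A, g a < 6) (hg' : ∀ a ∈ A', g a < 6)
    (hcard : A.card + A'.card = 5) :
    altA (fun x : Bool × W => (g x.2, x.1)) (X A A')
      = ∑ m : Fin 6, if A.image g = Ev m ∧ A'.image g = Od m then 1 else 0 := by
  classical
  unfold altA
  by_cases h : ∃ m : Fin 6, A.image g = Ev m ∧ A'.image g = Od m
  · rw [if_pos ((alt_iff g A A' hg hg' hcard).mpr h)]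
    obtain ⟨m, h1, h2⟩ := h
    rw [Finset.sum_eq_single m]
    · rw [if_pos ⟨h1, h2⟩]
    · intro m' _ hne
      rw [if_neg]
      rintro ⟨h3, h4⟩
      exact hne (pattern_inj m' m (h3.symm.trans h1) (h4.symm.trans h2))
    · intro hm; exact absurd (mem_univ m) hm
  · rw [if_neg (fun hc => h ((alt_iff g A A' hg hg' hcard).mp hc))]
    symm
    apply Finset.sum_eq_zero
    intro m _
    rw [if_neg]
    intro hc
    exact h ⟨m, hc⟩

end Alt

/-- An order of the colours with `T` at even places and `B \ T` at odd places. -/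
theorem exists_ord (B T : Finset (Fin 10)) (hB : B.card = 6) (hTB : T ⊆ B) (hT : T.card = 3) :
    ∃ ord : Fin 10 → ℕ, Function.Injective ord ∧ T.image ord = {0, 2, 4} ∧
      (B \ T).image ord = {1, 3, 5} := by
  have hS : (B \ T).card = 3 := by rw [card_sdiff_of_subset hTB, hB, hT]
  obtain ⟨t0, t1, t2, h01, h02, h12, rfl⟩ := card_eq_three.mp hT
  obtain ⟨s0, s1, s2, k01, k02, k12, hSe⟩ := card_eq_three.mp hS
  have hdisj : ∀ s ∈ B \ {t0, t1, t2}, s ≠ t0 ∧ s ≠ t1 ∧ s ≠ t2 := by
    intro s hs
    have := (mem_sdiff.mp hs).2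
    simp only [mem_insert, mem_singleton, not_or] at this
    exact this
  have hs0 := hdisj s0 (by rw [hSe]; simp)
  have hs1 := hdisj s1 (by rw [hSe]; simp)
  have hs2 := hdisj s2 (by rw [hSe]; simp)
  refine ⟨fun c => if c = t0 then 0 else if c = s0 then 1 else if c = t1 then 2 else
    if c = s1 then 3 else if c = t2 then 4 else if c = s2 then 5 else 6 + c.val, ?_, ?_, ?_⟩
  · intro a b hab
    have hval : ∀ x y : Fin 10, x.val = y.val → x = y := fun x y h => Fin.ext h
    simp only at hab
    split_ifs at hab <;> first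
      | omega
  · ext x
    simp only [mem_image, mem_insert, mem_singleton]
    constructor
    · rintro ⟨c, (rfl | rfl | rfl), rfl⟩
      · simp
      · simp [h01.symm, hs0.2.1.symm]
      · simp [h02.symm, h12.symm, hs0.2.2.symm, hs1.2.2.symm]
    · rintro (rfl | rfl | rfl)
      · exact ⟨t0, Or.inl rfl, by simp⟩
      · exact ⟨t1, Or.inr (Or.inl rfl), by simp [h01.symm, hs0.2.1.symm]⟩
      · exact ⟨t2, Or.inr (Or.inr rfl), by simp [h02.symm, h12.symm, hs0.2.2.symm, hs1.2.2.symm]⟩
  · rw [hSe]
    ext x
    simp only [mem_image, mem_insert, mem_singleton]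
    constructor
    · rintro ⟨c, (rfl | rfl | rfl), rfl⟩
      · simp [hs0.1]
      · simp [hs1.1, k01.symm, hs1.2.1]
      · simp [hs2.1, k02.symm, hs2.2.1, k12.symm, hs2.2.2]
    · rintro (rfl | rfl | rfl)
      · exact ⟨s0, Or.inl rfl, by simp [hs0.1]⟩
      · exact ⟨s1, Or.inr (Or.inl rfl), by simp [hs1.1, k01.symm, hs1.2.1]⟩
      · exact ⟨s2, Or.inr (Or.inr rfl), by simp [hs2.1, k02.symm, hs2.2.1, k12.symm, hs2.2.2]⟩

end T2AbsAux

open T2AbsAux

/-- **T2, abstract form.** -/
theorem t2_abstract {W : Type} [DecidableEq W] [Fintype W]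
    (tri : Finset (Finset W)) (col : W → Fin 10) (B : Finset (Fin 10)) (hB : B.card = 6)
    (Cc : Chain (Bool × W)) (w : Finset W → ZMod 2)
    (h_tri : ∀ t ∈ tri, t.card = 3)
    (h_cyc : bd Cc = 0)
    (h_card : ∀ Y, Cc Y ≠ 0 → Y.card = 5)
    (h_face : ∀ A A', Cc (X A A') ≠ 0 → (∃ t ∈ tri, A ⊆ t) ∧ (∃ t ∈ tri, A' ⊆ t))
    (h_colB : ∀ A A', Cc (X A A') ≠ 0 → ∀ a ∈ A ∪ A', col a ∈ B)
    (h_w : ∀ t ∈ tri, ∑ u ∈ t, w (t.erase u) = 0)
    (h_Z : ∀ ν : Finset W → ZMod 2,
      (∀ e : Finset W, e.card = 2 → ∑ t ∈ tri.filter (fun t => e ⊆ t), ν t = 0) →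
      ∃ ν₀, ∀ t ∈ tri, ν t = ν₀)
    (h_band : ∀ t ∈ tri, (t.image col).card = 3 → ∀ E ⊆ B \ t.image col, E.card = 2 →
      ∑ e ∈ (univ : Finset (Finset W)).filter (fun e => e.card = 2 ∧ e.image col = E), Cc (X t e) =
        ∑ e ∈ (univ : Finset (Finset W)).filter (fun e => e.card = 2), Cc (X t e) * w e)
    (h_kf : ∀ ord : Fin 10 → ℕ, Function.Injective ord →
      pair Cc (altA (fun x : Bool × W => (ord (col x.2), x.1))) = 1)
    (T : Finset (Fin 10)) (hTB : T ⊆ B) (hT : T.card = 3) :
    ((tri.filter (fun t => t.image col = T)).card : ZMod 2) +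
      ((tri.filter (fun t => t.image col = B \ T)).card : ZMod 2) = 1 := by
  classical
  -- Step 1: triangles inside `tri`
  have h_face_tri : ∀ A A', A.card = 3 → Cc (X A A') ≠ 0 → A ∈ tri := by
    intro A A' hA hne
    obtain ⟨t, ht, hst⟩ := (h_face A A' hne).1
    have : A = t := Finset.eq_of_subset_of_card_le hst (by rw [h_tri t ht, hA])
    rwa [this]
  have h_face_tri' : ∀ A A', A'.card = 3 → Cc (X A A') ≠ 0 → A' ∈ tri := by
    intro A A' hA hne
    obtain ⟨t, ht, hst⟩ := (h_face A A' hne).2
    have : A' = t := Finset.eq_of_subset_of_card_le hst (by rw [h_tri t ht, hA])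
    rwa [this]
  -- the relation
  have hR : ∀ e0 e : Finset W, e0.card = 2 → e.card = 2 →
      ∑ t ∈ tri.filter (fun t => e0 ⊆ t), Cc (X t e)
        = ∑ t ∈ tri.filter (fun t => e ⊆ t), Cc (X e0 t) := by
    intro e0 e he0 he
    have h0 : bd Cc (X e0 e) = 0 := by rw [h_cyc]; rfl
    rw [bd_X] at h0
    rw [sum_ext tri h_tri e0 he0 (fun A => Cc (X A e)) (by
          intro u hu hn
          by_contra hne
          exact hn (h_face_tri _ _ (by rw [card_insert_of_notMem hu, he0]) hne)),
        sum_ext tri h_tri e he (fun A => Cc (X e0 A)) (by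
          intro u hu hn
          by_contra hne
          exact hn (h_face_tri' _ _ (by rw [card_insert_of_notMem hu, he]) hne))] at h0
    exact CharTwo.add_eq_zero.mp h0
  -- ν
  set P2 : Finset (Finset W) := (univ : Finset (Finset W)).filter (fun e => e.card = 2) with hP2
  set ν : Finset W → ZMod 2 := fun t => ∑ e ∈ P2, Cc (X t e) * w e with hν
  have hνc : ∀ e0 : Finset W, e0.card = 2 → ∑ t ∈ tri.filter (fun t => e0 ⊆ t), ν t = 0 := by
    intro e0 he0
    calc ∑ t ∈ tri.filter (fun t => e0 ⊆ t), ν t
        = ∑ e ∈ P2, (∑ t ∈ tri.filter (fun t => e0 ⊆ t), Cc (X t e)) * w e := by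
          simp only [hν]
          rw [Finset.sum_comm]
          simp_rw [Finset.sum_mul]
      _ = ∑ e ∈ P2, (∑ t ∈ tri.filter (fun t => e ⊆ t), Cc (X e0 t)) * w e := by
          apply Finset.sum_congr rfl
          intro e he
          rw [hR e0 e he0 (mem_filter.mp he).2]
      _ = ∑ e ∈ P2, ∑ t ∈ tri, if e ⊆ t then Cc (X e0 t) * w e else 0 := by
          apply Finset.sum_congr rfl
          intro e _
          rw [Finset.sum_filter, Finset.sum_mul]
          apply Finset.sum_congr rfl
          intro t _
          split_ifs <;> simp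
      _ = ∑ t ∈ tri, Cc (X e0 t) * ∑ e ∈ P2.filter (fun e => e ⊆ t), w e := by
          rw [Finset.sum_comm]
          apply Finset.sum_congr rfl
          intro t _
          rw [Finset.mul_sum, Finset.sum_filter (s := P2) (p := fun e => e ⊆ t)]
      _ = 0 := by
          apply Finset.sum_eq_zero
          intro t ht
          rw [hP2, sum_two_subsets t (h_tri t ht) w, h_w t ht, mul_zero]
  obtain ⟨ν₀, hν₀⟩ := h_Z ν hνc
  -- Step 2: the order of the colours
  obtain ⟨ord, hord, hordT, hordS⟩ := exists_ord B T hB hTB hT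
  have hBimg : B.image ord = range 6 := by
    have : B = T ∪ (B \ T) := (Finset.union_sdiff_of_subset hTB).symm
    rw [this, image_union, hordT, hordS]
    decide
  have hordB : ∀ c ∈ B, ord c < 6 := by
    intro c hc
    have : ord c ∈ B.image ord := mem_image_of_mem ord hc
    rw [hBimg] at this
    exact mem_range.mp this
  set g : W → ℕ := fun u => ord (col u) with hg
  have himg_g : ∀ A : Finset W, A.image g = (A.image col).image ord := by
    intro A; rw [image_image]; rfl
  -- pattern colour sets
  have hsurj : ∀ S : Finset ℕ, S ⊆ range 6 → ((B.filter (fun c => ord c ∈ S)).image ord) = S := by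
    intro S hS
    ext s
    simp only [mem_image, mem_filter]
    constructor
    · rintro ⟨c, ⟨_, hc⟩, rfl⟩
      exact hc
    · intro hs
      have h1 : s ∈ B.image ord := by rw [hBimg]; exact hS hs
      obtain ⟨c, hc, rfl⟩ := mem_image.mp h1
      exact ⟨c, ⟨hc, hs⟩, rfl⟩
  set Tm : Fin 6 → Finset (Fin 10) := fun m => B.filter (fun c => ord c ∈ Ev m) with hTm
  set Em : Fin 6 → Finset (Fin 10) := fun m => B.filter (fun c => ord c ∈ Od m) with hEm
  have hEvsub : ∀ m, Ev m ⊆ range 6 := fun m =>
    (Finset.filter_subset _ _).trans (S6_sub m)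
  have hOdsub : ∀ m, Od m ⊆ range 6 := fun m =>
    (Finset.filter_subset _ _).trans (S6_sub m)
  have hTmimg : ∀ m, (Tm m).image ord = Ev m := fun m => hsurj _ (hEvsub m)
  have hEmimg : ∀ m, (Em m).image ord = Od m := fun m => hsurj _ (hOdsub m)
  have hTmcard : ∀ m, (Tm m).card = 3 := by
    intro m
    rw [← card_image_of_injective _ hord, hTmimg, Ev_card]
  have hEmcard : ∀ m, (Em m).card = 2 := by
    intro m
    rw [← card_image_of_injective _ hord, hEmimg, Od_card]
  have hEmsub : ∀ m, Em m ⊆ B \ Tm m := by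
    intro m c hc
    have hc' := mem_filter.mp hc
    refine mem_sdiff.mpr ⟨hc'.1, ?_⟩
    intro hc2
    exact (Finset.disjoint_left.mp (Ev_disj_Od m)) (mem_filter.mp hc2).2 hc'.2
  have himgT : ∀ (A : Finset W) m, A.image g = Ev m ↔ A.image col = Tm m := by
    intro A m
    rw [himg_g, ← hTmimg m]
    exact (Finset.image_injective hord).eq_iff
  have himgE : ∀ (A : Finset W) m, A.image g = Od m ↔ A.image col = Em m := by
    intro A m
    rw [himg_g, ← hEmimg m]
    exact (Finset.image_injective hord).eq_iff
  -- Step 3: the main sum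
  have hterm : ∀ A A' : Finset W, Cc (X A A') * altA (fun x : Bool × W => (g x.2, x.1)) (X A A')
      = ∑ m : Fin 6, Cc (X A A') * (if A.image g = Ev m ∧ A'.image g = Od m then 1 else 0) := by
    intro A A'
    by_cases hne : Cc (X A A') = 0
    · simp [hne]
    · rw [← Finset.mul_sum, altA_eq g A A' _ _ _]
      · intro a ha
        exact hordB _ (h_colB A A' hne a (mem_union_left _ ha))
      · intro a ha
        exact hordB _ (h_colB A A' hne a (mem_union_right _ ha))
      · rw [← card_X]; exact h_card _ hne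
  have hpat : ∀ m : Fin 6,
      ∑ A : Finset W, ∑ A' : Finset W,
          Cc (X A A') * (if A.image g = Ev m ∧ A'.image g = Od m then 1 else 0)
        = ∑ t ∈ tri.filter (fun t => t.image col = Tm m),
            ∑ e ∈ (univ : Finset (Finset W)).filter (fun e => e.card = 2 ∧ e.image col = Em m),
              Cc (X t e) := by
    intro m
    rw [← Finset.sum_product', ← Finset.sum_product']
    symm
    have hsub : (tri.filter (fun t => t.image col = Tm m)) ×ˢ
        ((univ : Finset (Finset W)).filter (fun e => e.card = 2 ∧ e.image col = Em m))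
        ⊆ (univ : Finset (Finset W)) ×ˢ (univ : Finset (Finset W)) := by
      intro p _; simp
    rw [← Finset.sum_subset hsub]
    · apply Finset.sum_congr rfl
      intro p hp
      obtain ⟨hp1, hp2⟩ := mem_product.mp hp
      have h1 := (mem_filter.mp hp1).2
      have h2 := (mem_filter.mp hp2).2.2
      rw [if_pos ⟨(himgT _ m).mpr h1, (himgE _ m).mpr h2⟩, mul_one]
    · intro p _ hp
      by_contra hne
      obtain ⟨A, A'⟩ := p
      have hne1 : Cc (X A A') ≠ 0 := by
        intro h0
        apply hne
        simp only [h0, zero_mul]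
      have hcond : A.image g = Ev m ∧ A'.image g = Od m := by
        by_contra hc
        apply hne
        simp only [if_neg hc, mul_zero]
      have hc5 : A.card + A'.card = 5 := by
        rw [← card_X]; exact h_card _ hne1
      have h3 : 3 ≤ A.card := by
        rw [← Ev_card m, ← hcond.1]; exact card_image_le
      have h4 : 2 ≤ A'.card := by
        rw [← Od_card m, ← hcond.2]; exact card_image_le
      apply hp
      simp only [mem_product, mem_filter, mem_univ, true_and]
      refine ⟨⟨h_face_tri A A' (by omega) hne1, (himgT _ m).mp hcond.1⟩, by omega,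
        (himgE _ m).mp hcond.2⟩
  have hkey : (1 : ZMod 2) = ∑ m : Fin 6,
      ((tri.filter (fun t => t.image col = Tm m)).card : ZMod 2) * ν₀ := by
    calc (1 : ZMod 2) = pair Cc (altA (fun x : Bool × W => (g x.2, x.1))) := (h_kf ord hord).symm
      _ = ∑ A : Finset W, ∑ A' : Finset W,
            Cc (X A A') * altA (fun x : Bool × W => (g x.2, x.1)) (X A A') := by
          unfold pair
          exact sum_X _
      _ = ∑ m : Fin 6, ∑ A : Finset W, ∑ A' : Finset W,
            Cc (X A A') * (if A.image g = Ev m ∧ A'.image g = Od m then 1 else 0) := by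
          simp_rw [hterm]
          rw [Finset.sum_congr rfl (fun A _ => Finset.sum_comm)]
          exact Finset.sum_comm
      _ = ∑ m : Fin 6, ((tri.filter (fun t => t.image col = Tm m)).card : ZMod 2) * ν₀ := by
          apply Finset.sum_congr rfl
          intro m _
          rw [hpat m]
          have : ∀ t ∈ tri.filter (fun t => t.image col = Tm m),
              ∑ e ∈ (univ : Finset (Finset W)).filter (fun e => e.card = 2 ∧ e.image col = Em m),
                Cc (X t e) = ν₀ := by
            intro t ht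
            obtain ⟨ht1, ht2⟩ := mem_filter.mp ht
            rw [h_band t ht1 (by rw [ht2]; exact hTmcard m) (Em m)
              (by rw [ht2]; exact hEmsub m) (hEmcard m)]
            exact hν₀ t ht1
          rw [Finset.sum_congr rfl this]
          simp
  -- Step 4: reading the six patterns
  have hT5 : Tm 5 = T := by
    apply Finset.image_injective hord
    rw [hTmimg, Ev5, hordT]
  have hT0 : Tm 0 = B \ T := by
    apply Finset.image_injective hord
    rw [hTmimg, Ev0, hordS]
  have hT4 : Tm 4 = Tm 3 := by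
    apply Finset.image_injective hord
    rw [hTmimg, hTmimg, Ev4]
  have hT2 : Tm 2 = Tm 1 := by
    apply Finset.image_injective hord
    rw [hTmimg, hTmimg, Ev2]
  rw [Fin.sum_univ_six] at hkey
  simp only [hT5, hT0, hT4, hT2] at hkey
  have hfin : ∀ a b c d n : ZMod 2,
      (1 : ZMod 2) = a * n + c * n + c * n + d * n + d * n + b * n → b + a = 1 := by decide
  exact hfin _ _ _ _ _ hkey

end Crest.Agent.S0069Lib
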