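import Crest.Agent.S0069Lib.KyFan
import Crest.Agent.S0069Lib.Sys
import Crest.Agent.S0069Lib.Quad
import Crest.Agent.S0069Lib.T2Abs

/-!
# S0069: the labelled `S⁴` (abstract part of `exists_Cc`)

`S` is a `Sys` (fine enough), for a vertex `v` with position `m = S.pos v`, `sgn v` tells whether
the form `Q m` is positively dominated, `gl v` is the dominant eigenline.  Given any map `r` from
lines to vertices of some complex `W`, `push (fun v => (sgn v, r (gl v))) S.O4` is a 4-cycle on the join `(+W) * (-W)`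
with the properties needed for the plane theorem.
-/

set_option autoImplicit false
set_option linter.unusedSectionVars false

namespace Crest.Agent.S0069Lib

open Finset

/-! ### Elementary facts on dot products -/

theorem cc_dot_sub_self' {n : ℕ} (x y : Fin n → ℝ) :
    dot (x - y) (x - y) = dot x x - 2 * dot x y + dot y y := by
  simp only [dot, Pi.sub_apply, ← Finset.sum_add_distrib, ← Finset.sum_sub_distrib, Finset.mul_sum]
  refine Finset.sum_congr rfl fun i _ => ?_
  ring

theorem cc_dot_add_self' {n : ℕ} (x y : Fin n → ℝ) :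
    dot (x + y) (x + y) = dot x x + 2 * dot x y + dot y y := by
  simp only [dot, Pi.add_apply, ← Finset.sum_add_distrib, Finset.mul_sum]
  refine Finset.sum_congr rfl fun i _ => ?_
  ring

/-- Unit vectors with `1 - d² ≤ ε` are line-close. -/
theorem cc_LC_of_sq {n : ℕ} {x y : Fin n → ℝ} {ε η : ℝ} (hx : dot x x = 1) (hy : dot y y = 1)
    (h : 1 - dot x y ^ 2 ≤ ε) (hη : 2 * ε ≤ η ^ 2) : LC η x y := by
  have h1 := dot_self_nonneg (x - y)
  have h2 := dot_self_nonneg (x + y)
  rw [cc_dot_sub_self', hx, hy] at h1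
  rw [cc_dot_add_self', hx, hy] at h2
  unfold LC
  rw [cc_dot_sub_self', cc_dot_add_self', hx, hy]
  set d := dot x y
  by_cases hd : 0 ≤ d
  · left
    nlinarith
  · right
    push Not at hd
    nlinarith

/-- Arithmetic: `Λ ≥ 1/10`, `Λ E ≤ 10 ‖d‖`, `‖d‖ ≤ μ` gives `E ≤ 100 μ`. -/
theorem cc_le_of_lam_mul {L E N μ : ℝ} (hN : 0 ≤ N) (hL : 1 / 10 ≤ L) (hA : L * E ≤ 10 * N)
    (hd : N ≤ μ) : E ≤ 100 * μ := by
  by_contra hc
  push Not at hc
  have hE : 0 ≤ E := by linarith
  nlinarith [mul_nonneg (sub_nonneg.2 hL) hE]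

/-! ### Sign and line of a vertex -/

open Classical in
/-- The sign of a vertex: is the form positively dominated? Ties are broken antipodally. -/
noncomputable def Sys.sgn (S : Sys) (v : S.V) : Bool :=
  if Lam (-(S.pos v)) < Lam (S.pos v) then true
  else if Lam (S.pos v) < Lam (-(S.pos v)) then false
  else decide (Fintype.equivFin S.V v ≤ Fintype.equivFin S.V (S.τ v))

/-- The dominant line of a vertex. -/
noncomputable def Sys.gl (S : Sys) (v : S.V) : Fin 3 → ℝ :=
  if S.sgn v = true then top (S.pos v) else top (-(S.pos v))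

theorem Sys.sgn_true {S : Sys} {v : S.V} (h : S.sgn v = true) :
    Lam (-(S.pos v)) ≤ Lam (S.pos v) := by
  unfold Sys.sgn at h
  split_ifs at h with h1 h2
  · exact h1.le
  · exact not_lt.mp h2

theorem Sys.sgn_false {S : Sys} {v : S.V} (h : S.sgn v = false) :
    Lam (S.pos v) ≤ Lam (-(S.pos v)) := by
  unfold Sys.sgn at h
  split_ifs at h with h1 h2
  · exact h2.le
  · exact not_lt.mp h1

theorem Sys.gl_of_true {S : Sys} {v : S.V} (h : S.sgn v = true) : S.gl v = top (S.pos v) := by
  simp [Sys.gl, h]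

theorem Sys.gl_of_false {S : Sys} {v : S.V} (h : S.sgn v = false) :
    S.gl v = top (-(S.pos v)) := by
  simp [Sys.gl, h]

theorem Sys.dot_gl (S : Sys) (v : S.V) : dot (S.gl v) (S.gl v) = 1 := by
  unfold Sys.gl
  split_ifs
  · exact dot_top _
  · exact dot_top _

section Good

variable {S : Sys} {μ : ℝ}

theorem Sys.sgn_τ (hG : S.Good μ) {v : S.V} (hv : S.τ v ≠ v) : S.sgn (S.τ v) = !S.sgn v := by
  have hp := hG.pos_τ v
  have hττ := hG.τ_τ v
  have hne : Fintype.equivFin S.V v ≠ Fintype.equivFin S.V (S.τ v) := fun h =>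
    hv ((Fintype.equivFin S.V).injective h).symm
  unfold Sys.sgn
  rw [hp, neg_neg, hττ]
  by_cases h1 : Lam (-(S.pos v)) < Lam (S.pos v)
  · have h2 : ¬ Lam (S.pos v) < Lam (-(S.pos v)) := not_lt.mpr h1.le
    simp [h1, h2]
  · by_cases h2 : Lam (S.pos v) < Lam (-(S.pos v))
    · simp [h1, h2]
    · simp only [h1, h2, if_false]
      by_cases h3 : Fintype.equivFin S.V v ≤ Fintype.equivFin S.V (S.τ v)
      · have h4 : ¬ Fintype.equivFin S.V (S.τ v) ≤ Fintype.equivFin S.V v := by
          intro h4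
          exact hne (le_antisymm h3 h4)
        simp [h3, h4]
      · have h4 : Fintype.equivFin S.V (S.τ v) ≤ Fintype.equivFin S.V v := (not_le.mp h3).le
        simp [h3, h4]

theorem Sys.gl_τ (hG : S.Good μ) {v : S.V} (hv : S.τ v ≠ v) : S.gl (S.τ v) = S.gl v := by
  have hp := hG.pos_τ v
  have hs := Sys.sgn_τ hG hv
  cases h : S.sgn v with
  | true =>
    rw [h] at hs
    rw [Sys.gl_of_true h, Sys.gl_of_false (by simpa using hs), hp, neg_neg]
  | false =>
    rw [h] at hs
    rw [Sys.gl_of_false h, Sys.gl_of_true (by simpa using hs), hp]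

/-- A vertex on a good face is not fixed by `τ`. -/
theorem Sys.τ_ne_of_face (hG : S.Good μ) {F : Finset S.V} (hF : S.Face μ F) {v : S.V} (hv : v ∈ F) :
    S.τ v ≠ v := by
  intro h
  have hp := hG.pos_τ v
  rw [h] at hp
  have h0 : S.pos v = 0 := by
    have h2 : (2 : ℝ) • S.pos v = 0 := by
      rw [two_smul]
      nth_rewrite 1 [hp]
      simp
    exact (smul_eq_zero.mp h2).resolve_left (by norm_num)
  obtain ⟨_, ⟨σ, _, hσ⟩, _⟩ := hF
  have := (hσ v hv).2
  simp [h0] at this

/-- The antipode of a good face is a good face. -/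
theorem Sys.face_of_image_τ (hG : S.Good μ) {F : Finset S.V} (hF : S.Face μ (F.image S.τ)) :
    S.Face μ F := by
  have hinj : Function.Injective S.τ := Function.LeftInverse.injective hG.τ_τ
  obtain ⟨h1, ⟨σ, hσ1, hσ⟩, h3⟩ := hF
  refine ⟨?_, ⟨fun i => - σ i, ?_, ?_⟩, ?_⟩
  · rwa [Finset.card_image_of_injective _ hinj] at h1
  · intro i
    rcases hσ1 i with h | h <;> simp [h]
  · intro v hv
    have := hσ (S.τ v) (Finset.mem_image_of_mem _ hv)
    rw [hG.pos_τ v] at this
    simpa using this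
  · intro u hu v hv
    have := h3 (S.τ u) (Finset.mem_image_of_mem _ hu) (S.τ v) (Finset.mem_image_of_mem _ hv)
    rw [hG.pos_τ u, hG.pos_τ v] at this
    rwa [show -S.pos u - -S.pos v = -(S.pos u - S.pos v) by abel, norm_neg] at this

/-- `Lam` is bounded below at dominated vertices of a good face. -/
theorem Sys.lam_ge_true {F : Finset S.V} (hF : S.Face μ F) {v : S.V} (hv : v ∈ F)
    (hs : Lam (-(S.pos v)) ≤ Lam (S.pos v)) : 1 / 10 ≤ Lam (S.pos v) := by
  obtain ⟨_, ⟨σ, hσ1, hσ⟩, _⟩ := hF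
  have := one_div_ten_le_Lam hσ1 (hσ v hv).1 (hσ v hv).2
  rwa [max_eq_left hs] at this

theorem Sys.lam_ge_false {F : Finset S.V} (hF : S.Face μ F) {v : S.V} (hv : v ∈ F)
    (hs : Lam (S.pos v) ≤ Lam (-(S.pos v))) : 1 / 10 ≤ Lam (-(S.pos v)) := by
  obtain ⟨_, ⟨σ, hσ1, hσ⟩, _⟩ := hF
  have := one_div_ten_le_Lam hσ1 (hσ v hv).1 (hσ v hv).2
  rwa [max_eq_right hs] at this

/-- Same sign on a good face: the lines are close. -/
theorem Sys.gl_close {F : Finset S.V} (hF : S.Face μ F) {u v : S.V} (hu : u ∈ F) (hv : v ∈ F)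
    (hs : S.sgn u = S.sgn v) {η : ℝ} (hη : 200 * μ ≤ η ^ 2) : LC η (S.gl u) (S.gl v) := by
  have hd := hF.2.2 u hu v hv
  cases h : S.sgn u with
  | true =>
    have h' : S.sgn v = true := by rw [← hs, h]
    rw [Sys.gl_of_true h, Sys.gl_of_true h']
    have hdom := Sys.sgn_true h
    have hL := Sys.lam_ge_true hF hu hdom
    have hA := factA (m := S.pos u) (m' := S.pos v) hdom
    refine cc_LC_of_sq (ε := 100 * μ) (dot_top _) (dot_top _) ?_ (by linarith)
    exact cc_le_of_lam_mul (norm_nonneg _) hL hA hd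
  | false =>
    have h' : S.sgn v = false := by rw [← hs, h]
    rw [Sys.gl_of_false h, Sys.gl_of_false h']
    have hdom := Sys.sgn_false h
    have hL := Sys.lam_ge_false hF hu hdom
    have hA := factA (m := -S.pos u) (m' := -S.pos v) (by rwa [neg_neg])
    rw [show -S.pos u - -S.pos v = -(S.pos u - S.pos v) by abel, norm_neg] at hA
    refine cc_LC_of_sq (ε := 100 * μ) (dot_top _) (dot_top _) ?_ (by linarith)
    exact cc_le_of_lam_mul (norm_nonneg _) hL hA hd

/-- Opposite signs on a good face: the lines are nearly orthogonal. -/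
theorem Sys.gl_orth {F : Finset S.V} (hF : S.Face μ F) {u v : S.V} (hu : u ∈ F) (hv : v ∈ F)
    (hs : S.sgn u = true) (hs' : S.sgn v = false) : dot (S.gl u) (S.gl v) ^ 2 ≤ 50 * μ := by
  have hd := hF.2.2 u hu v hv
  rw [Sys.gl_of_true hs, Sys.gl_of_false hs']
  have hdom := Sys.sgn_true hs
  have hL := Sys.lam_ge_true hF hu hdom
  have hB := factB (m := S.pos u) (m' := S.pos v) hdom (Sys.sgn_false hs')
  have h0 := sq_nonneg (dot (top (S.pos u)) (top (-S.pos v)))
  nlinarith

end Good

/-! ### The 4-cycle -/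

/-- The 4-sphere chain. -/
noncomputable def Sys.O4 (S : Sys) : Chain S.V := S.c 4 + tauC S.τ (S.c 4)

section Chains

variable {V W : Type} [DecidableEq V] [DecidableEq W]

theorem cc_bd_add' [Fintype V] (a b : Chain V) : bd (a + b) = bd a + bd b := by
  funext F
  simp [bd, Finset.sum_add_distrib]

theorem cc_tauC_add' (τ : V → V) (a b : Chain V) : tauC τ (a + b) = tauC τ a + tauC τ b := by
  funext F
  simp [tauC]

theorem cc_push_zero' [Fintype V] (f : V → W) : push f (0 : Chain V) = 0 := by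
  funext G
  simp [push]

theorem cc_chain_add_self' (a : Chain V) : a + a = 0 := by
  funext F
  exact CharTwo.add_self_eq_zero _

/-- Support of a push. -/
theorem cc_push_support [Fintype V] {f : V → W} {c : Chain V} {G : Finset W} (h : push f c G ≠ 0) :
    ∃ F, c F ≠ 0 ∧ F.image f = G ∧ F.card = G.card := by
  unfold push at h
  obtain ⟨F, hF, hF'⟩ := Finset.exists_ne_zero_of_sum_ne_zero h
  rw [Finset.mem_filter] at hF
  exact ⟨F, hF', hF.2.1, hF.2.2⟩

/-- Pull back alternating cochain along an injective (on `F`) map. -/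
theorem altA_image_join (f : V → W) (lab' : W → ℕ × Bool) (F : Finset V)
    (hf : Set.InjOn f (F : Set V)) :
    altA (fun v => lab' (f v)) F = altA lab' (F.image f) := by
  classical
  have hrank : ∀ v, labRank lab' (F.image f) (f v) = labRank (fun v => lab' (f v)) F v := by
    intro v
    unfold labRank
    have : ((F.image f).filter (fun u => (lab' u).1 < (lab' (f v)).1)) =
        (F.filter (fun u => (lab' (f u)).1 < (lab' (f v)).1)).image f := by
      ext x
      simp only [Finset.mem_filter, Finset.mem_image]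
      constructor
      · rintro ⟨⟨u, hu, rfl⟩, h⟩
        exact ⟨u, ⟨hu, h⟩, rfl⟩
      · rintro ⟨u, ⟨hu, h⟩, rfl⟩
        exact ⟨⟨u, hu, rfl⟩, h⟩
    rw [this, Finset.card_image_of_injOn]
    exact hf.mono (Finset.coe_subset.2 (Finset.filter_subset _ _))
  have hiff : AltP (fun v => lab' (f v)) F ↔ AltP lab' (F.image f) := by
    constructor
    · rintro ⟨h1, h2⟩
      refine ⟨?_, ?_⟩
      · intro x hx y hy hxy
        simp only [Finset.coe_image, Set.mem_image, Finset.mem_coe] at hx hy
        obtain ⟨u, hu, rfl⟩ := hx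
        obtain ⟨v, hv, rfl⟩ := hy
        rw [h1 (Finset.mem_coe.mpr hu) (Finset.mem_coe.mpr hv) hxy]
      · intro x hx
        obtain ⟨v, hv, rfl⟩ := Finset.mem_image.mp hx
        rw [hrank]
        exact h2 v hv
    · rintro ⟨h1, h2⟩
      refine ⟨?_, ?_⟩
      · intro u hu v hv huv
        apply hf hu hv
        exact h1 (by simpa using ⟨u, hu, rfl⟩) (by simpa using ⟨v, hv, rfl⟩) huv
      · intro v hv
        rw [← hrank]
        exact h2 (f v) (Finset.mem_image_of_mem _ hv)
  unfold altA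
  simp only [hiff]

/-- The alternating cochain vanishes on non-injective faces. -/
theorem altA_of_not_inj_join (f : V → W) (lab' : W → ℕ × Bool) (F : Finset V)
    (hf : ¬ Set.InjOn f (F : Set V)) :
    altA (fun v => lab' (f v)) F = 0 := by
  classical
  unfold altA
  rw [if_neg]
  rintro ⟨h1, _⟩
  apply hf
  intro u hu v hv huv
  apply h1 hu hv
  simp only [huv]

end Chains

section Main

variable {S : Sys} {μ : ℝ}

theorem Sys.bd_O4 (hG : S.Good μ) : bd S.O4 = 0 := by
  unfold Sys.O4
  rw [cc_bd_add', bd_tauC hG.τ_τ, hG.smith 3 (by norm_num), cc_tauC_add', tauC_tauC hG.τ_τ]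
  show S.c 3 + tauC S.τ (S.c 3) + (tauC S.τ (S.c 3) + S.c 3) = 0
  rw [add_comm (tauC S.τ (S.c 3)) (S.c 3)]
  exact cc_chain_add_self' _

/-- Faces in the support of `O4` are good, with five vertices. -/
theorem Sys.O4_face (hG : S.Good μ) {F : Finset S.V} (h : S.O4 F ≠ 0) :
    S.Face μ F ∧ F.card = 5 := by
  have hinj : Function.Injective S.τ := Function.LeftInverse.injective hG.τ_τ
  unfold Sys.O4 at h
  by_cases h4 : S.c 4 F = 0
  · have h5 : S.c 4 (F.image S.τ) ≠ 0 := by
      intro h5
      apply h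
      simp [tauC, h4, h5]
    refine ⟨Sys.face_of_image_τ hG (hG.c_face 4 le_rfl _ h5), ?_⟩
    have := hG.c_card 4 le_rfl _ h5
    rwa [Finset.card_image_of_injective _ hinj] at this
  · exact ⟨hG.c_face 4 le_rfl _ h4, hG.c_card 4 le_rfl _ h4⟩

variable {W : Type} [DecidableEq W] [Fintype W]

/-- The vertex map to the join. -/
noncomputable def Sys.joinMap (S : Sys) (r : (Fin 3 → ℝ) → W) (v : S.V) : Bool × W :=
  (S.sgn v, r (S.gl v))

/-- The 4-cycle on the join. -/
noncomputable def Sys.CC (S : Sys) (r : (Fin 3 → ℝ) → W) : Chain (Bool × W) :=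
  push (S.joinMap r) S.O4

theorem Sys.CC_cyc (hG : S.Good μ) (r : (Fin 3 → ℝ) → W) : bd (S.CC r) = 0 := by
  unfold Sys.CC
  rw [bd_push, Sys.bd_O4 hG, cc_push_zero']

theorem Sys.CC_card (hG : S.Good μ) (r : (Fin 3 → ℝ) → W) {Y : Finset (Bool × W)}
    (h : S.CC r Y ≠ 0) : Y.card = 5 := by
  obtain ⟨F, hF, _, hc⟩ := cc_push_support h
  rw [← hc]
  exact (Sys.O4_face hG hF).2

/-- A nonzero coefficient of `CC` at `X A A'` comes from a good face. -/
theorem Sys.CC_X (hG : S.Good μ) (r : (Fin 3 → ℝ) → W) {A A' : Finset W}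
    (h : S.CC r (X A A') ≠ 0) :
    ∃ F : Finset S.V, S.Face μ F ∧
      (∀ a ∈ A, ∃ v ∈ F, S.sgn v = true ∧ r (S.gl v) = a) ∧
      (∀ a ∈ A', ∃ v ∈ F, S.sgn v = false ∧ r (S.gl v) = a) := by
  obtain ⟨F, hF, him, _⟩ := cc_push_support h
  refine ⟨F, (Sys.O4_face hG hF).1, ?_, ?_⟩
  · intro a ha
    have : (true, a) ∈ F.image (S.joinMap r) := by
      rw [him]
      simp [X, ha]
    obtain ⟨v, hv, hva⟩ := Finset.mem_image.mp this
    simp only [Sys.joinMap, Prod.mk.injEq] at hva
    exact ⟨v, hv, hva.1, hva.2⟩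
  · intro a ha
    have : (false, a) ∈ F.image (S.joinMap r) := by
      rw [him]
      simp [X, ha]
    obtain ⟨v, hv, hva⟩ := Finset.mem_image.mp this
    simp only [Sys.joinMap, Prod.mk.injEq] at hva
    exact ⟨v, hv, hva.1, hva.2⟩

/-- Ky Fan on the 4-cycle. -/
theorem Sys.CC_kf (hG : S.Good μ) (r : (Fin 3 → ℝ) → W) (lab0 : W → ℕ)
    (hsep : ∀ x y, dot x x = 1 → dot y y = 1 → dot x y ^ 2 ≤ 50 * μ → lab0 (r x) ≠ lab0 (r y)) :
    pair (S.CC r) (altA (fun x : Bool × W => (lab0 x.2, x.1))) = 1 := by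
  set lab' : Bool × W → ℕ × Bool := fun x => (lab0 x.2, x.1) with hlab'
  set lab : S.V → ℕ × Bool := fun v => lab' (S.joinMap r v) with hlab
  have hface : ∀ k ≤ 4, ∀ F, S.c k F ≠ 0 → S.Face μ F := hG.c_face
  have hKF : pair (S.c 4 + tauC S.τ (S.c 4)) (altA lab) = 1 := by
    refine kyFan (n := 4) S.c S.τ hG.τ_τ lab ?_ hG.smith hG.c0 ?_
    · intro k hk F hF v hv
      have hne := Sys.τ_ne_of_face hG (hface k hk F hF) hv
      simp only [hlab, hlab', Sys.joinMap]
      rw [Sys.gl_τ hG hne, Sys.sgn_τ hG hne]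
    · intro k hk F hF u hu v hv heq
      have hFf := hface k hk F hF
      simp only [hlab, hlab', Sys.joinMap, Prod.mk.injEq] at heq
      obtain ⟨h1, h2⟩ := heq
      cases hsu : S.sgn u with
      | true =>
        rw [hsu] at h2
        have hsv : S.sgn v = false := by
          cases hh : S.sgn v with
          | true => rw [hh] at h2; simp at h2
          | false => rfl
        exact hsep _ _ (S.dot_gl u) (S.dot_gl v) (Sys.gl_orth hFf hu hv hsu hsv) h1
      | false =>
        rw [hsu] at h2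
        have hsv : S.sgn v = true := by
          cases hh : S.sgn v with
          | true => rfl
          | false => rw [hh] at h2; simp at h2
        have := Sys.gl_orth hFf hv hu hsv hsu
        rw [dot_comm] at this
        exact hsep _ _ (S.dot_gl u) (S.dot_gl v) this h1
  unfold Sys.CC Sys.O4
  rw [← pair_push (S.joinMap r) (S.c 4 + tauC S.τ (S.c 4)) (altA lab') (altA lab)]
  · exact hKF
  · intro F hF
    exact altA_image_join (S.joinMap r) lab' F hF
  · intro F hF
    exact altA_of_not_inj_join (S.joinMap r) lab' F hF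

end Main

end Crest.Agent.S0069Lib
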