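import Crest.Agent.S0069Lib.Sys

/-!
# S0069: 2-cycles on the subdivided octahedron

`z2_level'`: a 2-cycle supported on the triangles of the subdivided octahedron is `0` or everything.
-/

set_option autoImplicit false
set_option linter.unusedSectionVars false

namespace Crest.Agent.S0069Lib

open Finset

section Generic
variable {V : Type} [DecidableEq V] [Fintype V]

/-- All faces of the support are triangles. -/
def TriSupp (O : Chain V) : Prop := ∀ F, O F ≠ 0 → F.card = 3

/-- The only cycles supported on `O` are `0` and `O`. -/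
def Z2Prop (O : Chain V) : Prop :=
  ∀ ν : Chain V, (∀ F, ν F ≠ 0 → O F ≠ 0) → bd ν = 0 → ν = 0 ∨ ν = O

/-- The flag `v < vw < t`. -/
def fl (v w : V) (t : Finset V) : Finset (Finset V) := {{v}, {v, w}, t}

theorem fl_union {v w : V} {t : Finset V} (hv : v ∈ t) (hw : w ∈ t) : (fl v w t).biUnion id = t := by
  ext x
  simp only [fl, mem_biUnion, mem_insert, mem_singleton, id]
  constructor
  · rintro ⟨A, rfl | rfl | rfl, hx⟩
    · rw [mem_singleton] at hx; exact hx ▸ hv
    · rw [mem_insert, mem_singleton] at hx
      rcases hx with rfl | rfl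
      · exact hv
      · exact hw
    · exact hx
  · intro hx; exact ⟨t, Or.inr (Or.inr rfl), hx⟩

theorem fl_card {v w : V} {t : Finset V} (hvw : v ≠ w) (ht : t.card = 3) : (fl v w t).card = 3 := by
  have h12 : ({v} : Finset V) ≠ {v, w} := by
    intro h
    have := congrArg Finset.card h
    rw [card_singleton, card_pair hvw] at this
    omega
  have h13 : ({v} : Finset V) ≠ t := by
    intro h; rw [← h, card_singleton] at ht; omega
  have h23 : ({v, w} : Finset V) ≠ t := by
    intro h; rw [← h, card_pair hvw] at ht; omega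
  simp only [fl]
  rw [card_insert_of_notMem, card_insert_of_notMem, card_singleton]
  · simpa using h23
  · simp only [mem_insert, mem_singleton, not_or]; exact ⟨h12, h13⟩

theorem fl_isFullFlag {v w : V} {t : Finset V} (hvw : v ≠ w) (hv : v ∈ t) (hw : w ∈ t)
    (ht : t.card = 3) : IsFullFlag (fl v w t) := by
  refine ⟨?_, ?_, ?_⟩
  · simp only [fl, mem_insert, mem_singleton, not_or]
    refine ⟨?_, ?_, ?_⟩
    · exact (singleton_ne_empty v).symm
    · exact (insert_ne_empty v _).symm
    · intro h; rw [← h] at ht; simp at ht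
  · have h1 : ({v} : Finset V) ⊆ {v, w} := by simp
    have h2 : ({v} : Finset V) ⊆ t := by simpa using hv
    have h3 : ({v, w} : Finset V) ⊆ t := by
      intro x hx
      rw [mem_insert, mem_singleton] at hx
      rcases hx with rfl | rfl
      · exact hv
      · exact hw
    simp only [fl, mem_insert, mem_singleton]
    rintro A (rfl | rfl | rfl) B (rfl | rfl | rfl)
    all_goals first
      | exact Or.inl (Subset.refl _)
      | exact Or.inl h1
      | exact Or.inr h1
      | exact Or.inl h2
      | exact Or.inr h2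
      | exact Or.inl h3
      | exact Or.inr h3
  · rw [fl_union hv hw, ht, fl_card hvw ht]

/-- Structure of a full flag of a triangle. -/
theorem flag_struct {𝔽 : Finset (Finset V)} (h : IsFullFlag 𝔽) (ht : (𝔽.biUnion id).card = 3) :
    ∃ v w, v ≠ w ∧ v ∈ 𝔽.biUnion id ∧ w ∈ 𝔽.biUnion id ∧ 𝔽 = fl v w (𝔽.biUnion id) := by
  obtain ⟨h0, hch, hc⟩ := h
  rw [ht] at hc
  set t := 𝔽.biUnion id with htdef
  have hsub : ∀ A ∈ 𝔽, A ⊆ t := fun A hA => subset_biUnion_of_mem id hA
  have hne : ∀ A ∈ 𝔽, 1 ≤ A.card := fun A hA => by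
    rw [Nat.succ_le_iff, card_pos]
    rw [nonempty_iff_ne_empty]
    rintro rfl
    exact h0 hA
  have hle : ∀ A ∈ 𝔽, A.card ≤ 3 := fun A hA => ht ▸ card_le_card (hsub A hA)
  have hinj : ∀ A ∈ 𝔽, ∀ B ∈ 𝔽, A ≠ B → A.card ≠ B.card := by
    intro A hA B hB hAB hcard
    rcases hch A hA B hB with h' | h'
    · exact hAB (eq_of_subset_of_card_le h' hcard.ge)
    · exact hAB (eq_of_subset_of_card_le h' hcard.le).symm
  obtain ⟨A, B, C, hAB, hAC, hBC, rfl'⟩ := card_eq_three.mp hc
  have hA : A ∈ 𝔽 := by rw [rfl']; simp
  have hB : B ∈ 𝔽 := by rw [rfl']; simp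
  have hC : C ∈ 𝔽 := by rw [rfl']; simp
  have key : ∀ n, 1 ≤ n → n ≤ 3 → ∃ X ∈ 𝔽, X.card = n := by
    intro n h1 h3
    have a1 := hne A hA; have a3 := hle A hA
    have b1 := hne B hB; have b3 := hle B hB
    have c1 := hne C hC; have c3 := hle C hC
    have ab := hinj A hA B hB hAB
    have ac := hinj A hA C hC hAC
    have bc := hinj B hB C hC hBC
    have : A.card = n ∨ B.card = n ∨ C.card = n := by omega
    rcases this with e | e | e
    · exact ⟨A, hA, e⟩
    · exact ⟨B, hB, e⟩
    · exact ⟨C, hC, e⟩
  obtain ⟨X1, hX1, c1⟩ := key 1 le_rfl (by norm_num)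
  obtain ⟨X2, hX2, c2⟩ := key 2 (by norm_num) (by norm_num)
  obtain ⟨X3, hX3, c3⟩ := key 3 (by norm_num) le_rfl
  have h12 : X1 ⊆ X2 := by
    rcases hch X1 hX1 X2 hX2 with h' | h'
    · exact h'
    · have := card_le_card h'; omega
  have h3t : X3 = t := eq_of_subset_of_card_le (hsub X3 hX3) (by rw [ht, c3])
  obtain ⟨v, rfl⟩ := card_eq_one.mp c1
  have hv2 : v ∈ X2 := h12 (mem_singleton_self v)
  obtain ⟨a, b, hab, rfl⟩ := card_eq_two.mp c2
  have : ∃ w, w ≠ v ∧ ({a, b} : Finset V) = {v, w} := by
    rw [mem_insert, mem_singleton] at hv2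
    rcases hv2 with rfl | rfl
    · exact ⟨b, hab.symm, rfl⟩
    · exact ⟨a, hab, pair_comm _ _⟩
  obtain ⟨w, hwv, he⟩ := this
  rw [he] at hX2
  refine ⟨v, w, hwv.symm, hsub _ hX1 (mem_singleton_self v), hsub _ hX2 (by simp), ?_⟩
  have hfl : fl v w t ⊆ 𝔽 := by
    intro X hX
    simp only [fl, mem_insert, mem_singleton] at hX
    rcases hX with rfl | rfl | rfl
    · exact hX1
    · exact hX2
    · exact h3t ▸ hX3
  exact (eq_of_subset_of_card_le hfl (by rw [hc, fl_card hwv.symm ht])).symm

theorem sd_add (a b : Chain V) : sd (a + b) = sd a + sd b := by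
  funext 𝔽
  simp only [sd, Pi.add_apply]
  split_ifs <;> simp

theorem sd_zero : sd (0 : Chain V) = 0 := by
  funext 𝔽
  simp only [sd, Pi.zero_apply]
  split_ifs <;> rfl

theorem triSupp_sd {O : Chain V} (ht : TriSupp O) : TriSupp (sd O) := by
  intro 𝔽 h𝔽
  obtain ⟨hf, hO⟩ := sd_support h𝔽
  rw [hf.2.2]
  exact ht _ hO

/-- A consequence of the support hypothesis. -/
theorem flag_of_nu {O : Chain V} (ht : TriSupp O) {ν : Chain (Finset V)}
    (hsupp : ∀ F, ν F ≠ 0 → sd O F ≠ 0) {𝔽 : Finset (Finset V)} (h : ν 𝔽 ≠ 0) :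
    IsFullFlag 𝔽 ∧ (𝔽.biUnion id).card = 3 ∧ O (𝔽.biUnion id) ≠ 0 := by
  obtain ⟨hf, hO⟩ := sd_support (hsupp _ h)
  exact ⟨hf, ht _ hO, hO⟩

section Lift

variable {O : Chain V} {ν : Chain (Finset V)}

theorem zmod2_add_eq_zero {a b : ZMod 2} (h : a + b = 0) : a = b := by
  revert a b; decide

/-- A flag with nonzero coefficient containing a given triangle. -/
theorem flag_of_mem (ht : TriSupp O) (hs : ∀ F, ν F ≠ 0 → sd O F ≠ 0)
    {𝔽 : Finset (Finset V)} (h : ν 𝔽 ≠ 0) {t : Finset V} (htm : t ∈ 𝔽) (htc : t.card = 3) :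
    ∃ a b, a ≠ b ∧ a ∈ t ∧ b ∈ t ∧ 𝔽 = fl a b t := by
  obtain ⟨hf, hc, -⟩ := flag_of_nu ht hs h
  obtain ⟨a, b, hab, ha, hb, he⟩ := flag_struct hf hc
  have hT : 𝔽.biUnion id = t := by
    symm
    exact eq_of_subset_of_card_le (subset_biUnion_of_mem id htm) (by rw [hc, htc])
  rw [hT] at ha hb he
  exact ⟨a, b, hab, ha, hb, he⟩

/-- Flip across the gap `{vw, t}`. -/
theorem flip_A (ht : TriSupp O) (hs : ∀ F, ν F ≠ 0 → sd O F ≠ 0) (hb : bd ν = 0)
    {v w : V} {t : Finset V} (hvw : v ≠ w) (hv : v ∈ t) (hw : w ∈ t) (htc : t.card = 3) :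
    ν (fl v w t) = ν (fl w v t) := by
  have h := congrFun hb {{v, w}, t}
  simp only [bd, Pi.zero_apply] at h
  have hsv : ({v} : Finset V) ≠ {w} := by simpa using hvw
  rw [Finset.sum_eq_add ({v} : Finset V) ({w} : Finset V) hsv] at h
  · apply zmod2_add_eq_zero
    have e1 : insert ({v} : Finset V) {{v, w}, t} = fl v w t := rfl
    have e2 : insert ({w} : Finset V) {{v, w}, t} = fl w v t := by
      simp only [fl, pair_comm v w]
    rwa [e1, e2] at h
  · intro X hX ⟨hX1, hX2⟩
    by_contra hne
    have hX' : X ∉ ({{v, w}, t} : Finset (Finset V)) := by simpa using hX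
    obtain ⟨a, b, hab, ha, hb', he⟩ := flag_of_mem ht hs hne
      (t := t) (by simp) htc
    have hem : ({v, w} : Finset V) ∈ fl a b t := by rw [← he]; simp
    have hXm : X ∈ fl a b t := by rw [← he]; simp
    simp only [fl, mem_insert, mem_singleton] at hem hXm
    have hcv : ({v, w} : Finset V).card = 2 := card_pair hvw
    rcases hem with hem | hem | hem
    · rw [hem, card_singleton] at hcv; omega
    · rcases hXm with hXm | hXm | hXm
      · have : a ∈ ({v, w} : Finset V) := by rw [hem]; simp
        rw [mem_insert, mem_singleton] at this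
        rcases this with rfl | rfl
        · exact hX1 hXm
        · exact hX2 hXm
      · apply hX'; rw [hXm, ← hem]; simp
      · apply hX'; rw [hXm]; simp
    · rw [hem, htc] at hcv; omega
  · intro hn
    exfalso; apply hn
    simp only [mem_compl, mem_insert, mem_singleton, not_or]
    constructor
    · intro h'
      have := congrArg Finset.card h'
      rw [card_singleton, card_pair hvw] at this; omega
    · intro h'
      rw [← h', card_singleton] at htc; omega
  · intro hn
    exfalso; apply hn
    simp only [mem_compl, mem_insert, mem_singleton, not_or]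
    constructor
    · intro h'
      have := congrArg Finset.card h'
      rw [card_singleton, card_pair hvw] at this; omega
    · intro h'
      rw [← h', card_singleton] at htc; omega

/-- Flip across the gap `{v, t}`. -/
theorem flip_C (ht : TriSupp O) (hs : ∀ F, ν F ≠ 0 → sd O F ≠ 0) (hb : bd ν = 0)
    {v w u : V} {t : Finset V} (hvw : v ≠ w) (hvu : v ≠ u) (hwu : w ≠ u) (hv : v ∈ t) (hw : w ∈ t)
    (hu : u ∈ t) (htc : t.card = 3) :
    ν (fl v w t) = ν (fl v u t) := by
  have htt : t = {v, w, u} := by
    symm
    apply eq_of_subset_of_card_le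
    · intro x hx
      simp only [mem_insert, mem_singleton] at hx
      rcases hx with rfl | rfl | rfl <;> assumption
    · rw [htc, card_eq_three.mpr ⟨v, w, u, hvw, hvu, hwu, rfl⟩]
  have h := congrFun hb {{v}, t}
  simp only [bd, Pi.zero_apply] at h
  have hsv : ({v, w} : Finset V) ≠ {v, u} := by
    intro h'
    have : w ∈ ({v, u} : Finset V) := by rw [← h']; simp
    simp only [mem_insert, mem_singleton] at this
    rcases this with h1 | h1
    · exact hvw h1.symm
    · exact hwu h1
  have e0 : ∀ w' : V, insert ({v, w'} : Finset V) {{v}, t} = fl v w' t := by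
    intro w'
    simp only [fl]
    exact insert_comm _ _ _
  rw [Finset.sum_eq_add ({v, w} : Finset V) ({v, u} : Finset V) hsv] at h
  · apply zmod2_add_eq_zero
    rwa [e0, e0] at h
  · intro X hX ⟨hX1, hX2⟩
    by_contra hne
    have hX' : X ∉ ({{v}, t} : Finset (Finset V)) := by simpa using hX
    obtain ⟨a, b, hab, ha, hb', he⟩ := flag_of_mem ht hs hne
      (t := t) (by simp) htc
    have hem : ({v} : Finset V) ∈ fl a b t := by rw [← he]; simp
    have hXm : X ∈ fl a b t := by rw [← he]; simp
    simp only [fl, mem_insert, mem_singleton] at hem hXm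
    have hva : v = a := by
      rcases hem with hem | hem | hem
      · simpa using hem
      · have := congrArg Finset.card hem
        rw [card_singleton, card_pair hab] at this; omega
      · rw [← hem, card_singleton] at htc; omega
    subst hva
    rcases hXm with hXm | hXm | hXm
    · apply hX'; rw [hXm]; simp
    · have hb2 : b ∈ ({v, w, u} : Finset V) := htt ▸ hb'
      simp only [mem_insert, mem_singleton] at hb2
      rcases hb2 with rfl | rfl | rfl
      · exact hab rfl
      · exact hX1 hXm
      · exact hX2 hXm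
    · apply hX'; rw [hXm]; simp
  · intro hn
    exfalso; apply hn
    simp only [mem_compl, mem_insert, mem_singleton, not_or]
    constructor
    · intro h'
      have := congrArg Finset.card h'
      rw [card_singleton, card_pair hvw] at this; omega
    · intro h'
      rw [← h', card_pair hvw] at htc; omega
  · intro hn
    exfalso; apply hn
    simp only [mem_compl, mem_insert, mem_singleton, not_or]
    constructor
    · intro h'
      have := congrArg Finset.card h'
      rw [card_singleton, card_pair hvu] at this; omega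
    · intro h'
      rw [← h', card_pair hvu] at htc; omega

/-- The coefficient is constant on the six flags of a triangle. -/
theorem flag_const (ht : TriSupp O) (hs : ∀ F, ν F ≠ 0 → sd O F ≠ 0) (hb : bd ν = 0)
    {v w v' w' : V} {t : Finset V} (hvw : v ≠ w) (hv : v ∈ t) (hw : w ∈ t)
    (hvw' : v' ≠ w') (hv' : v' ∈ t) (hw' : w' ∈ t) (htc : t.card = 3) :
    ν (fl v w t) = ν (fl v' w' t) := by
  obtain ⟨a, b, c, hab, hac, hbc, rfl⟩ := card_eq_three.mp htc
  have A : ∀ {x y : V}, x ≠ y → x ∈ ({a, b, c} : Finset V) → y ∈ ({a, b, c} : Finset V) →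
      ν (fl x y {a, b, c}) = ν (fl y x {a, b, c}) := fun hxy hx hy => flip_A ht hs hb hxy hx hy htc
  have C : ∀ {x y z : V}, x ≠ y → x ≠ z → y ≠ z → x ∈ ({a, b, c} : Finset V) →
      y ∈ ({a, b, c} : Finset V) → z ∈ ({a, b, c} : Finset V) →
      ν (fl x y {a, b, c}) = ν (fl x z {a, b, c}) :=
    fun hxy hxz hyz hx hy hz => flip_C ht hs hb hxy hxz hyz hx hy hz htc
  have ma : a ∈ ({a, b, c} : Finset V) := by simp
  have mb : b ∈ ({a, b, c} : Finset V) := by simp
  have mc : c ∈ ({a, b, c} : Finset V) := by simp
  have canon : ∀ {x y : V}, x ≠ y → x ∈ ({a, b, c} : Finset V) → y ∈ ({a, b, c} : Finset V) →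
      ν (fl x y {a, b, c}) = ν (fl a b {a, b, c}) := by
    intro x y hxy hx hy
    simp only [mem_insert, mem_singleton] at hx hy
    rcases hx with rfl | rfl | rfl <;> rcases hy with rfl | rfl | rfl
    · exact absurd rfl hxy
    · rfl
    · exact C hac hab hbc.symm ma mc mb
    · exact A hab.symm mb ma
    · exact absurd rfl hxy
    · rw [C hbc hab.symm hac.symm mb mc ma, A hab.symm mb ma]
    · rw [A hac.symm mc ma, C hac hab hbc.symm ma mc mb]
    · rw [C hbc.symm hac.symm hab.symm mc mb ma, A hac.symm mc ma, C hac hab hbc.symm ma mc mb]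
    · exact absurd rfl hxy
  rw [canon hvw hv hw, canon hvw' hv' hw']

open Classical in
/-- The descended chain. -/
noncomputable def liftν (ν : Chain (Finset V)) (t : Finset V) : ZMod 2 :=
  if h : ∃ p : V × V, p.1 ≠ p.2 ∧ p.1 ∈ t ∧ p.2 ∈ t then
    ν (fl h.choose.1 h.choose.2 t) else 0

theorem liftν_eq (ht : TriSupp O) (hs : ∀ F, ν F ≠ 0 → sd O F ≠ 0) (hb : bd ν = 0)
    {v w : V} {t : Finset V} (hvw : v ≠ w) (hv : v ∈ t) (hw : w ∈ t) (htc : t.card = 3) :
    liftν ν t = ν (fl v w t) := by
  have h : ∃ p : V × V, p.1 ≠ p.2 ∧ p.1 ∈ t ∧ p.2 ∈ t := ⟨(v, w), hvw, hv, hw⟩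
  rw [liftν, dif_pos h]
  obtain ⟨h1, h2, h3⟩ := h.choose_spec
  exact flag_const ht hs hb h1 h2 h3 hvw hv hw htc

theorem liftν_ne (ht : TriSupp O) (hs : ∀ F, ν F ≠ 0 → sd O F ≠ 0)
    {t : Finset V} (h : liftν ν t ≠ 0) : t.card = 3 ∧ O t ≠ 0 := by
  rw [liftν] at h
  split_ifs at h with h'
  · obtain ⟨-, h2, h3⟩ := h'.choose_spec
    obtain ⟨-, hc, hO⟩ := flag_of_nu ht hs h
    rw [fl_union h2 h3] at hc hO
    exact ⟨hc, hO⟩
  · exact absurd rfl h

theorem eq_sd_liftν (ht : TriSupp O) (hs : ∀ F, ν F ≠ 0 → sd O F ≠ 0) (hb : bd ν = 0) :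
    ν = sd (liftν ν) := by
  funext 𝔽
  by_cases hf : IsFullFlag 𝔽
  · have e : sd (liftν ν) 𝔽 = liftν ν (𝔽.biUnion id) := by
      simp only [sd]; rw [if_pos hf]
    rw [e]
    by_cases hc : (𝔽.biUnion id).card = 3
    · obtain ⟨v, w, hvw, hv, hw, he⟩ := flag_struct hf hc
      rw [liftν_eq ht hs hb hvw hv hw hc, ← he]
    · have h1 : ν 𝔽 = 0 := by
        by_contra hne
        exact hc (flag_of_nu ht hs hne).2.1
      have h2 : liftν ν (𝔽.biUnion id) = 0 := by
        by_contra hne
        exact hc (liftν_ne ht hs hne).1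
      rw [h1, h2]
  · have e : sd (liftν ν) 𝔽 = 0 := by
      simp only [sd]; rw [if_neg hf]
    rw [e]
    by_contra hne
    exact hf (flag_of_nu ht hs hne).1

theorem bd_liftν (ht : TriSupp O) (hs : ∀ F, ν F ≠ 0 → sd O F ≠ 0) (hb : bd ν = 0) :
    bd (liftν ν) = 0 := by
  funext e
  simp only [bd, Pi.zero_apply]
  by_cases hc : e.card = 2
  · obtain ⟨v, w, hvw, rfl⟩ := card_eq_two.mp hc
    set e : Finset V := {v, w} with he
    have h := congrFun hb {{v}, e}
    simp only [bd, Pi.zero_apply] at h
    have hv : v ∈ e := by simp [he]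
    have hw : w ∈ e := by simp [he]
    have hinj : Set.InjOn (fun x : V => insert x e) (eᶜ : Finset V) := by
      intro x hx y hy hxy
      have hx' : x ∉ e := by simpa using hx
      have hy' : y ∉ e := by simpa using hy
      have : x ∈ insert y e := by
        have hxy' : insert x e = insert y e := hxy
        rw [← hxy']; simp
      rw [mem_insert] at this
      rcases this with h1 | h1
      · exact h1
      · exact absurd h1 hx'
    have hcard : ∀ x ∉ e, (insert x e).card = 3 := by
      intro x hx
      rw [card_insert_of_notMem hx, hc]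
    have hterm : ∀ x ∈ (eᶜ : Finset V),
        liftν ν (insert x e) = ν (insert (insert x e) {{v}, e}) := by
      intro x hx
      have hx' : x ∉ e := by simpa using hx
      rw [liftν_eq ht hs hb hvw (mem_insert_of_mem hv) (mem_insert_of_mem hw) (hcard x hx')]
      congr 1
      simp only [fl]
      rw [insert_comm (insert x e) {v}]
      congr 1
      exact pair_comm _ _
    rw [Finset.sum_congr rfl hterm]
    rw [← h]
    rw [← Finset.sum_image (f := fun X => ν (insert X {{v}, e})) hinj]
    apply Finset.sum_subset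
    · intro X hX
      obtain ⟨x, hx, rfl⟩ := mem_image.mp hX
      have hx' : x ∉ e := by simpa using hx
      simp only [mem_compl, mem_insert, mem_singleton, not_or]
      constructor
      · intro h'
        have := hcard x hx'
        rw [h', card_singleton] at this; omega
      · intro h'
        exact hx' (h' ▸ mem_insert_self x e)
    · intro X hX hXn
      by_contra hne
      have hX' : X ∉ ({{v}, e} : Finset (Finset V)) := by simpa using hX
      obtain ⟨hf, hc3, -⟩ := flag_of_nu ht hs hne
      obtain ⟨a, b, hab, ha, hb', he'⟩ := flag_struct hf hc3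
      set T := (insert X ({{v}, e} : Finset (Finset V))).biUnion id with hT
      have hem : e ∈ fl a b T := by rw [← he']; simp
      have hvm : ({v} : Finset V) ∈ fl a b T := by rw [← he']; simp
      have hXm : X ∈ fl a b T := by rw [← he']; simp
      simp only [fl, mem_insert, mem_singleton] at hem hvm hXm
      have hec : ({a, b} : Finset V) = e := by
        rcases hem with hem | hem | hem
        · rw [hem, card_singleton] at hc; omega
        · exact hem.symm
        · rw [hem, hc3] at hc; omega
      have hXT : X = T := by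
        rcases hXm with hXm | hXm | hXm
        · exfalso
          rcases hvm with hvm | hvm | hvm
          · apply hX'; rw [hXm, ← hvm]; simp
          · have := congrArg Finset.card hvm
            rw [card_singleton, card_pair hab] at this; omega
          · have := congrArg Finset.card hvm
            rw [card_singleton, hc3] at this; omega
        · exfalso; apply hX'; rw [hXm, hec]; simp
        · exact hXm
      have hsub : e ⊆ T := by rw [← hec]; intro y hy
                              simp only [mem_insert, mem_singleton] at hy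
                              rcases hy with rfl | rfl
                              · exact ha
                              · exact hb'
      obtain ⟨x, hxT, hxe⟩ : ∃ x ∈ T, x ∉ e := by
        by_contra hall
        push Not at hall
        have : T.card ≤ e.card := card_le_card hall
        rw [hc3, hc] at this; omega
      apply hXn
      refine mem_image.mpr ⟨x, by simpa using hxe, ?_⟩
      rw [hXT]
      apply eq_of_subset_of_card_le
      · intro y hy
        rw [mem_insert] at hy
        rcases hy with rfl | hy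
        · exact hxT
        · exact hsub hy
      · rw [hcard x hxe, hc3]
  · apply Finset.sum_eq_zero
    intro x hx
    have hx' : x ∉ e := by simpa using hx
    by_contra hne
    have := (liftν_ne ht hs hne).1
    rw [card_insert_of_notMem hx'] at this
    omega

/-- Descent of the `Z2` property to the barycentric subdivision. -/
theorem z2Prop_sd (ht : TriSupp O) (hz : Z2Prop O) : Z2Prop (sd O) := by
  intro ν hs hb
  have he := eq_sd_liftν ht hs hb
  rcases hz (liftν ν) (fun F hF => (liftν_ne ht hs hF).2) (bd_liftν ht hs hb) with h | h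
  · left; rw [he, h, sd_zero]
  · right; rw [he, h]

end Lift

end Generic

section Base

/-- The triangles of the octahedron. -/
def tri (a b c : Bool) : Finset (Fin 5 × Bool) := {(0, a), (1, b), (2, c)}

theorem tri_card (a b c : Bool) : (tri a b c).card = 3 := by
  rw [tri, card_insert_of_notMem, card_insert_of_notMem, card_singleton]
  · simp
  · simp

theorem baseHemi_iff (F : Finset (Fin 5 × Bool)) :
    baseHemi 2 F ↔ ∃ a b, F = tri a b true := by
  constructor
  · rintro ⟨hc, h1, h2⟩
    have hinj : Set.InjOn Prod.fst (F : Set (Fin 5 × Bool)) := by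
      rintro ⟨x, p⟩ hx ⟨y, q⟩ hy hxy
      simp only at hxy
      subst hxy
      by_cases hpq : p = q
      · rw [hpq]
      · exfalso
        have : q = !p := by cases p <;> cases q <;> simp_all
        subst this
        exact h2 _ hx hy
    have him : F.image Prod.fst = {0, 1, 2} := by
      apply eq_of_subset_of_card_le
      · intro i hi
        obtain ⟨x, hx, rfl⟩ := mem_image.mp hi
        have := (h1 x hx).1
        have h' : x.1 = 0 ∨ x.1 = 1 ∨ x.1 = 2 := by
          generalize x.1 = i at this
          revert this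
          revert i
          decide
        simpa using h'
      · rw [card_image_of_injOn hinj, hc]
        decide
    have hex : ∀ i ∈ ({0, 1, 2} : Finset (Fin 5)), ∃ b, (i, b) ∈ F := by
      intro i hi
      rw [← him] at hi
      obtain ⟨⟨j, b⟩, hx, rfl⟩ := mem_image.mp hi
      exact ⟨b, hx⟩
    obtain ⟨a, ha⟩ := hex 0 (by simp)
    obtain ⟨b, hb⟩ := hex 1 (by simp)
    obtain ⟨c, hc'⟩ := hex 2 (by simp)
    have hct : c = true := (h1 _ hc').2 rfl
    subst hct
    refine ⟨a, b, ?_⟩
    symm
    apply eq_of_subset_of_card_le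
    · intro x hx
      simp only [tri, mem_insert, mem_singleton] at hx
      rcases hx with rfl | rfl | rfl <;> assumption
    · rw [hc, tri_card]
  · rintro ⟨a, b, rfl⟩
    refine ⟨tri_card a b true, ?_, ?_⟩
    · intro x hx
      simp only [tri, mem_insert, mem_singleton] at hx
      rcases hx with rfl | rfl | rfl <;> simp
    · intro x hx
      simp only [tri, mem_insert, mem_singleton] at hx ⊢
      rcases hx with rfl | rfl | rfl <;> simp

/-- The involution on the octahedron. -/
def tauB (v : Fin 5 × Bool) : Fin 5 × Bool := (v.1, !v.2)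

theorem tri_image (a b c : Bool) : (tri a b c).image tauB = tri (!a) (!b) (!c) := by
  simp [tri, tauB, image_insert, image_singleton]

theorem image_tauB_tauB (F : Finset (Fin 5 × Bool)) : (F.image tauB).image tauB = F := by
  rw [image_image]
  have : tauB ∘ tauB = id := by
    funext v; simp [tauB]
  rw [this, image_id]

/-- Value of the octahedron chain. -/
theorem baseO_apply (F : Finset (Fin 5 × Bool)) :
    (Sys.base.c 2 + tauC Sys.base.τ (Sys.base.c 2)) F =
      (if ∃ a b, F = tri a b true then 1 else 0) + (if ∃ a b, F = tri a b false then 1 else 0) := by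
  classical
  have e1 : (Sys.base.c 2 + tauC Sys.base.τ (Sys.base.c 2)) F =
      (if baseHemi 2 F then (1 : ZMod 2) else 0) + (if baseHemi 2 (F.image tauB) then 1 else 0) := by
    have a1 : Sys.base.c 2 F = if baseHemi 2 F then (1 : ZMod 2) else 0 := by
      show @ite _ (baseHemi 2 F) (Classical.propDecidable _) (1 : ZMod 2) 0 = _
      by_cases h : baseHemi 2 F <;> simp [h]
    have a2 : tauC Sys.base.τ (Sys.base.c 2) F = if baseHemi 2 (F.image tauB) then (1 : ZMod 2) else 0 := by
      show @ite _ (baseHemi 2 (F.image tauB)) (Classical.propDecidable _) (1 : ZMod 2) 0 = _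
      by_cases h : baseHemi 2 (F.image tauB) <;> simp [h]
    show Sys.base.c 2 F + tauC Sys.base.τ (Sys.base.c 2) F = _
    rw [a1, a2]
  rw [e1]
  have h2 : baseHemi 2 (F.image tauB) ↔ ∃ a b, F = tri a b false := by
    rw [baseHemi_iff]
    constructor
    · rintro ⟨a, b, h⟩
      refine ⟨!a, !b, ?_⟩
      have := congrArg (fun G => G.image tauB) h
      simp only [image_tauB_tauB, tri_image] at this
      simpa using this
    · rintro ⟨a, b, rfl⟩
      refine ⟨!a, !b, ?_⟩
      rw [tri_image]
      rfl
  simp only [baseHemi_iff, h2]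

theorem tri_eq_iff {a b c a' b' c' : Bool} : tri a b c = tri a' b' c' ↔ a = a' ∧ b = b' ∧ c = c' := by
  constructor
  · intro h
    have h0 : ((0 : Fin 5), a) ∈ tri a' b' c' := by rw [← h]; simp [tri]
    have h1 : ((1 : Fin 5), b) ∈ tri a' b' c' := by rw [← h]; simp [tri]
    have h2 : ((2 : Fin 5), c) ∈ tri a' b' c' := by rw [← h]; simp [tri]
    simp [tri] at h0 h1 h2
    exact ⟨h0, h1, h2⟩
  · rintro ⟨rfl, rfl, rfl⟩; rfl

open Classical in
/-- The octahedron chain, with explicit vertex type. -/
noncomputable def baseO : Chain (Fin 5 × Bool) := fun F =>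
  (if ∃ a b, F = tri a b true then 1 else 0) + (if ∃ a b, F = tri a b false then 1 else 0)

theorem baseO_ne_iff (F : Finset (Fin 5 × Bool)) :
    baseO F ≠ 0 ↔ ∃ a b c, F = tri a b c := by
  show (if ∃ a b, F = tri a b true then (1 : ZMod 2) else 0) +
    (if ∃ a b, F = tri a b false then 1 else 0) ≠ 0 ↔ _
  constructor
  · intro h
    by_cases h1 : ∃ a b, F = tri a b true
    · obtain ⟨a, b, h'⟩ := h1; exact ⟨a, b, true, h'⟩
    · by_cases h2 : ∃ a b, F = tri a b false
      · obtain ⟨a, b, h'⟩ := h2; exact ⟨a, b, false, h'⟩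
      · rw [if_neg h1, if_neg h2] at h; exact absurd rfl h
  · rintro ⟨a, b, c, rfl⟩
    cases c
    · have h1 : ¬ ∃ a' b', tri a b false = tri a' b' true := by
        rintro ⟨a', b', h⟩
        have := (tri_eq_iff.mp h).2.2
        cases this
      rw [if_neg h1, if_pos ⟨a, b, rfl⟩]
      decide
    · have h1 : ¬ ∃ a' b', tri a b true = tri a' b' false := by
        rintro ⟨a', b', h⟩
        have := (tri_eq_iff.mp h).2.2
        cases this
      rw [if_neg h1, if_pos ⟨a, b, rfl⟩]
      decide

theorem zmod2_ne_zero {x : ZMod 2} (h : x ≠ 0) : x = 1 := by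
  revert x; decide

theorem triSupp_base : TriSupp baseO := by
  intro F hF
  obtain ⟨a, b, c, rfl⟩ := (baseO_ne_iff F).mp hF
  exact tri_card a b c

theorem z2Prop_base : Z2Prop baseO := by
  intro ν hs hb
  have hzero : ∀ F, (¬ ∃ a b c, F = tri a b c) → ν F = 0 := by
    intro F hF
    by_contra hne
    exact hF ((baseO_ne_iff F).mp (hs F hne))
  -- generic edge equation
  have edge : ∀ (E : Finset (Fin 5 × Bool)) (i : Fin 5),
      (∀ b, (i, b) ∉ E) → (∀ v : Fin 5 × Bool, v.1 ≠ i → v ∉ E →
        ¬ ∃ a b c, insert v E = tri a b c) →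
      ν (insert (i, true) E) = ν (insert (i, false) E) := by
    intro E i hi hother
    have h := congrFun hb E
    simp only [bd, Pi.zero_apply] at h
    rw [Finset.sum_eq_add (i, true) (i, false) (by simp)] at h
    · exact zmod2_add_eq_zero h
    · rintro ⟨j, p⟩ hx ⟨h1, h2⟩
      apply hzero
      apply hother (j, p) _ (by simpa using hx)
      intro hji
      simp only at hji
      subst hji
      cases p
      · exact h2 rfl
      · exact h1 rfl
    · intro hn; exact absurd (by simpa using hi true) hn
    · intro hn; exact absurd (by simpa using hi false) hn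
  have e1 : ∀ a b, ν (tri a b true) = ν (tri a b false) := by
    intro a b
    have := edge {(0, a), (1, b)} 2 (by simp) (by
      rintro ⟨j, p⟩ hj hn ⟨a', b', c', ht⟩
      have : ((2 : Fin 5), c') ∈ insert (j, p) ({(0, a), (1, b)} : Finset (Fin 5 × Bool)) := by
        rw [ht]; simp [tri]
      simp only [mem_insert, mem_singleton, Prod.mk.injEq] at this
      simp only at hj
      rcases this with ⟨h1, -⟩ | ⟨h1, -⟩ | ⟨h1, -⟩
      · exact hj h1.symm
      · exact absurd h1 (by decide)
      · exact absurd h1 (by decide))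
    have h1 : ∀ c, insert ((2 : Fin 5), c) ({(0, a), (1, b)} : Finset (Fin 5 × Bool)) = tri a b c := by
      intro c
      ext x
      simp only [tri, mem_insert, mem_singleton]
      tauto
    rwa [h1, h1] at this
  have e2 : ∀ a c, ν (tri a true c) = ν (tri a false c) := by
    intro a c
    have := edge {(0, a), (2, c)} 1 (by simp) (by
      rintro ⟨j, p⟩ hj hn ⟨a', b', c', ht⟩
      have : ((1 : Fin 5), b') ∈ insert (j, p) ({(0, a), (2, c)} : Finset (Fin 5 × Bool)) := by
        rw [ht]; simp [tri]
      simp only [mem_insert, mem_singleton, Prod.mk.injEq] at this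
      simp only at hj
      rcases this with ⟨h1, -⟩ | ⟨h1, -⟩ | ⟨h1, -⟩
      · exact hj h1.symm
      · exact absurd h1 (by decide)
      · exact absurd h1 (by decide))
    have h1 : ∀ b, insert ((1 : Fin 5), b) ({(0, a), (2, c)} : Finset (Fin 5 × Bool)) = tri a b c := by
      intro b
      ext x
      simp only [tri, mem_insert, mem_singleton]
      tauto
    rwa [h1, h1] at this
  have e3 : ∀ b c, ν (tri true b c) = ν (tri false b c) := by
    intro b c
    have := edge {(1, b), (2, c)} 0 (by simp) (by
      rintro ⟨j, p⟩ hj hn ⟨a', b', c', ht⟩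
      have : ((0 : Fin 5), a') ∈ insert (j, p) ({(1, b), (2, c)} : Finset (Fin 5 × Bool)) := by
        rw [ht]; simp [tri]
      simp only [mem_insert, mem_singleton, Prod.mk.injEq] at this
      simp only at hj
      rcases this with ⟨h1, -⟩ | ⟨h1, -⟩ | ⟨h1, -⟩
      · exact hj h1.symm
      · exact absurd h1 (by decide)
      · exact absurd h1 (by decide))
    have h1 : ∀ a, insert ((0 : Fin 5), a) ({(1, b), (2, c)} : Finset (Fin 5 × Bool)) = tri a b c := by
      intro a
      rfl
    rwa [h1, h1] at this
  have hconst : ∀ a b c, ν (tri a b c) = ν (tri true true true) := by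
    intro a b c
    have s1 : ν (tri a b c) = ν (tri a b true) := by
      cases c
      · exact (e1 a b).symm
      · rfl
    have s2 : ν (tri a b true) = ν (tri a true true) := by
      cases b
      · exact (e2 a true).symm
      · rfl
    have s3 : ν (tri a true true) = ν (tri true true true) := by
      cases a
      · exact (e3 true true).symm
      · rfl
    rw [s1, s2, s3]
  by_cases h0 : ν (tri true true true) = 0
  · left
    funext F
    by_cases hF : ∃ a b c, F = tri a b c
    · obtain ⟨a, b, c, rfl⟩ := hF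
      rw [hconst, h0]; rfl
    · exact hzero F hF
  · right
    have h1 := zmod2_ne_zero h0
    funext F
    by_cases hF : ∃ a b c, F = tri a b c
    · have hO := zmod2_ne_zero ((baseO_ne_iff F).mpr hF)
      obtain ⟨a, b, c, rfl⟩ := hF
      rw [hconst, h1, hO]
    · have hO : baseO F = 0 := by
        by_contra hne
        exact hF ((baseO_ne_iff F).mp hne)
      rw [hzero F hF, hO]

end Base

theorem level_zero_O : (level 0).O = baseO := by
  funext F
  exact baseO_apply F

theorem image_invol {V : Type} [DecidableEq V] {τ : V → V} (h : ∀ v, τ (τ v) = v) (F : Finset V) :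
    (F.image τ).image τ = F := by
  rw [image_image]
  have : τ ∘ τ = id := funext h
  rw [this, image_id]

/-- Invariants along the tower. -/
theorem level_inv (j : ℕ) :
    (∀ v, (level j).τ ((level j).τ v) = v) ∧ TriSupp (level j).O ∧ Z2Prop (level j).O := by
  induction j with
  | zero =>
    refine ⟨?_, ?_, ?_⟩
    · have : ∀ v : Fin 5 × Bool, (v.1, !(!v.2)) = v := by
        rintro ⟨a, b⟩; simp
      exact this
    · rw [level_zero_O]; exact triSupp_base
    · rw [level_zero_O]; exact z2Prop_base
  | succ j ih =>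
    obtain ⟨hτ, ht, hz⟩ := ih
    have hO : (level (j + 1)).O = (sd (level j).O : Chain (Finset (level j).V)) := by
      show sd ((level j).c 2) + tauC (fun F : Finset (level j).V => F.image (level j).τ)
          (sd ((level j).c 2)) = sd ((level j).c 2 + tauC (level j).τ ((level j).c 2))
      rw [sd_add, sd_tauC hτ]
    refine ⟨?_, ?_, ?_⟩
    · intro F
      exact image_invol hτ F
    · rw [hO]; exact triSupp_sd ht
    · rw [hO]; exact z2Prop_sd ht hz

/-- The 2-cycles supported on the triangles of the subdivided octahedron are `0` or everything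
(this is `z2_level` of `Sys.lean`). -/
theorem z2_level' (j : ℕ) (ν : Chain (level j).V)
    (hsupp : ∀ F, ν F ≠ 0 → (level j).O F ≠ 0) (hbd : bd ν = 0) :
    ν = 0 ∨ ν = (level j).O :=
  (level_inv j).2.2 ν hsupp hbd

/-- `z2_level` of `Sys.lean`. -/
theorem z2_level (j : ℕ) (ν : Chain (level j).V)
    (hsupp : ∀ F, ν F ≠ 0 → (level j).O F ≠ 0) (hbd : bd ν = 0) :
    ν = 0 ∨ ν = (level j).O :=
  z2_level' j ν hsupp hbd

/-- Triangles have three vertices. -/
lemma O_card_eq {S : Sys} {μ : ℝ} (h : S.Good μ) {F : Finset S.V} (hF : S.O F ≠ 0) :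
    F.card = 3 := by
  by_cases h1 : S.c 2 F = 0
  · have h2 : S.c 2 (F.image S.τ) ≠ 0 := by
      intro h2
      apply hF
      show S.c 2 F + S.c 2 (F.image S.τ) = 0
      rw [h1, h2, add_zero]
    have h3 := h.c_card 2 (by norm_num) _ h2
    have hinj : Function.Injective S.τ := fun a b hab => by
      have := congrArg S.τ hab
      rwa [h.τ_τ, h.τ_τ] at this
    rwa [Finset.card_image_of_injective _ hinj] at h3
  · exact h.c_card 2 (by norm_num) _ h1

end Crest.Agent.S0069Lib
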