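import Crest.Agent.S0069Lib.Bary
import Crest.Agent.S0069Lib.Band
import Crest.Agent.S0069Lib.Z2

/-!
# S0069: the triangulated projective plane `triW` inside a level of the tower

Split off `T2Geom.lean` (WP K): `col`, `Sys.rep`, `Sys.triW`, and the five facts `rep_τ`, `triW_count`,
`wf_cocycle`, `triW_close`, `triW_z2`.
-/

set_option autoImplicit false

namespace Crest.Agent.S0069Lib

open Finset

/-- Colour of a vertex. -/
noncomputable def col (c : (Fin 3 → ℝ) → Fin 10) (S : Sys) (v : S.V) : Fin 10 := c (u3 S v)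

/-- Representative of `{v, τ v}`. -/
noncomputable def Sys.rep (S : Sys) (v : S.V) : S.V :=
  if (Fintype.equivFin S.V v) ≤ (Fintype.equivFin S.V (S.τ v)) then v else S.τ v

/-- Triangles of the projective plane. -/
noncomputable def Sys.triW (S : Sys) : Finset (Finset S.V) :=
  ((univ : Finset (Finset S.V)).filter (fun F => S.O F ≠ 0)).image (fun F => F.image S.rep)

theorem rep_τ {S : Sys} {μ : ℝ} (hG : S.Good μ) (v : S.V) (hv : S.τ v ≠ v) : S.rep (S.τ v) = S.rep v := by
  have hinj := (Fintype.equivFin S.V).injective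
  have hne : Fintype.equivFin S.V v ≠ Fintype.equivFin S.V (S.τ v) := fun h => hv (hinj h).symm
  unfold Sys.rep
  rw [hG.τ_τ]
  rcases lt_or_gt_of_ne hne with h | h
  · rw [if_pos h.le, if_neg (not_le.mpr h)]
  · rw [if_neg (not_le.mpr h), if_pos h.le]

theorem rep_eq {S : Sys} (v : S.V) : S.rep v = v ∨ S.rep v = S.τ v := by
  unfold Sys.rep; split_ifs <;> simp

namespace TriWAux

section Aux

variable {S : Sys} {μ : ℝ}

lemma O_apply (F : Finset S.V) : S.O F = S.c 2 F + S.c 2 (F.image S.τ) := rfl

lemma zmod2_eq_one {x : ZMod 2} (h : x ≠ 0) : x = 1 := by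
  revert h; revert x; decide

lemma image_image_τ (hG : S.Good μ) (F : Finset S.V) : (F.image S.τ).image S.τ = F := by
  rw [Finset.image_image]
  have : S.τ ∘ S.τ = id := funext hG.τ_τ
  rw [this, Finset.image_id]

lemma O_image_τ (hG : S.Good μ) (F : Finset S.V) : S.O (F.image S.τ) = S.O F := by
  rw [O_apply, O_apply, image_image_τ hG, add_comm]

lemma c2_or_of_O (F : Finset S.V) (h : S.O F ≠ 0) : S.c 2 F ≠ 0 ∨ S.c 2 (F.image S.τ) ≠ 0 := by
  by_contra hcon
  push Not at hcon
  apply h
  rw [O_apply, hcon.1, hcon.2, add_zero]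

lemma O_of_c2 (hG : S.Good μ) {F : Finset S.V} (h : S.c 2 F ≠ 0) : S.O F ≠ 0 := by
  rw [O_apply, hG.c_disj 2 (by norm_num) F h, add_zero]
  exact h

/-- `ℓ¹`-norm of a vertex of a hemisphere triangle. -/
lemma l1_of_c2 (hG : S.Good μ) {F : Finset S.V} (h : S.c 2 F ≠ 0) {v : S.V} (hv : v ∈ F) :
    l1n (proj3 (S.pos v)) = 1 := by
  obtain ⟨-, ⟨σ, hσ, hF⟩, -⟩ := hG.c_face 2 (by norm_num) F h
  obtain ⟨h1, h2⟩ := hF v hv
  have h3 : S.pos v 3 = 0 := hG.c_zero 2 (by norm_num) F h v hv 3 (by decide)
  have h4 : S.pos v 4 = 0 := hG.c_zero 2 (by norm_num) F h v hv 4 (by decide)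
  have habs : ∀ i, |S.pos v i| = σ i * S.pos v i := by
    intro i
    rcases hσ i with hi | hi
    · have := h1 i
      rw [hi, one_mul] at this ⊢
      exact abs_of_nonneg this
    · have := h1 i
      rw [hi] at this ⊢
      have h' : S.pos v i ≤ 0 := by linarith
      rw [abs_of_nonpos h']; ring
  rw [Fin.sum_univ_five, h3, h4] at h2
  simp only [mul_zero, add_zero] at h2
  unfold l1n proj3
  rw [Fin.sum_univ_three]
  have e0 : |S.pos v ⟨((0 : Fin 3) : ℕ), by omega⟩| = σ 0 * S.pos v 0 := habs 0
  have e1 : |S.pos v ⟨((1 : Fin 3) : ℕ), by omega⟩| = σ 1 * S.pos v 1 := habs 1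
  have e2 : |S.pos v ⟨((2 : Fin 3) : ℕ), by omega⟩| = σ 2 * S.pos v 2 := habs 2
  rw [e0, e1, e2]
  exact h2

lemma proj3_neg (p : Fin 5 → ℝ) : proj3 (-p) = - proj3 p := by
  ext i; simp [proj3]

lemma l1n_neg (x : Fin 3 → ℝ) : l1n (-x) = l1n x := by
  simp [l1n]

lemma mem_image_τ {F : Finset S.V} {v : S.V} (hv : v ∈ F) : S.τ v ∈ F.image S.τ :=
  Finset.mem_image_of_mem _ hv

lemma l1_of_O (hG : S.Good μ) {F : Finset S.V} (h : S.O F ≠ 0) {v : S.V} (hv : v ∈ F) :
    l1n (proj3 (S.pos v)) = 1 := by
  rcases c2_or_of_O F h with h' | h'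
  · exact l1_of_c2 hG h' hv
  · have := l1_of_c2 hG h' (mem_image_τ hv)
    rwa [hG.pos_τ, proj3_neg, l1n_neg] at this

lemma close_of_c2 (hG : S.Good μ) {F : Finset S.V} (h : S.c 2 F ≠ 0) {u v : S.V} (hu : u ∈ F)
    (hv : v ∈ F) : ‖S.pos u - S.pos v‖ ≤ μ :=
  (hG.c_face 2 (by norm_num) F h).2.2 u hu v hv

lemma close_of_O (hG : S.Good μ) {F : Finset S.V} (h : S.O F ≠ 0) {u v : S.V} (hu : u ∈ F)
    (hv : v ∈ F) : ‖S.pos u - S.pos v‖ ≤ μ := by
  rcases c2_or_of_O F h with h' | h'
  · exact close_of_c2 hG h' hu hv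
  · have := close_of_c2 hG h' (mem_image_τ hu) (mem_image_τ hv)
    rw [hG.pos_τ, hG.pos_τ] at this
    have e : - S.pos u - - S.pos v = -(S.pos u - S.pos v) := by abel
    rwa [e, norm_neg] at this

lemma norm_lb {p : Fin 5 → ℝ} (h : l1n (proj3 p) = 1) : 1 / 3 ≤ ‖p‖ := by
  have h0 : |p 0| ≤ ‖p‖ := by simpa [Real.norm_eq_abs] using norm_le_pi_norm p 0
  have h1 : |p 1| ≤ ‖p‖ := by simpa [Real.norm_eq_abs] using norm_le_pi_norm p 1
  have h2 : |p 2| ≤ ‖p‖ := by simpa [Real.norm_eq_abs] using norm_le_pi_norm p 2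
  unfold l1n proj3 at h
  rw [Fin.sum_univ_three] at h
  have e0 : |p ⟨((0 : Fin 3) : ℕ), by omega⟩| = |p 0| := rfl
  have e1 : |p ⟨((1 : Fin 3) : ℕ), by omega⟩| = |p 1| := rfl
  have e2 : |p ⟨((2 : Fin 3) : ℕ), by omega⟩| = |p 2| := rfl
  rw [e0, e1, e2] at h
  linarith

/-- A vertex of a triangle and its antipode are far apart. -/
lemma far_τ (hG : S.Good μ) (hμ : μ < 1 / 100) {v : S.V} (h : l1n (proj3 (S.pos v)) = 1) :
    ¬ ‖S.pos v - S.pos (S.τ v)‖ ≤ 2 * μ := by
  intro hle
  rw [hG.pos_τ] at hle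
  have e : S.pos v - - S.pos v = (2 : ℝ) • S.pos v := by
    rw [two_smul]; abel
  rw [e, norm_smul] at hle
  have := norm_lb h
  norm_num at hle
  linarith

lemma τ_ne (hG : S.Good μ) (hμ : μ < 1 / 100) {v : S.V} (h : l1n (proj3 (S.pos v)) = 1) :
    S.τ v ≠ v := by
  intro hv
  apply far_τ hG hμ h
  rw [hv, sub_self, norm_zero]
  have : 0 ≤ ‖S.pos v‖ := norm_nonneg _
  -- `pos (τ v) = - pos v` and `τ v = v` force `pos v = 0`, contradiction with the `ℓ¹`-norm
  have hp := hG.pos_τ v
  rw [hv] at hp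
  have h0 : S.pos v = 0 := by
    have h2 : (2 : ℝ) • S.pos v = 0 := by
      rw [two_smul]
      nth_rw 1 [hp]
      simp
    simpa using h2
  have := norm_lb h
  rw [h0, norm_zero] at this
  norm_num at this

lemma rep_eq_rep {u v : S.V} (hG : S.Good μ) (h : S.rep u = S.rep v) : u = v ∨ u = S.τ v := by
  rcases rep_eq u with hu | hu <;> rcases rep_eq v with hv | hv <;> rw [hu, hv] at h
  · exact Or.inl h
  · exact Or.inr h
  · right; rw [← h, hG.τ_τ]
  · left
    have := congrArg S.τ h
    rwa [hG.τ_τ, hG.τ_τ] at this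

lemma rep_inj_of_O (hG : S.Good μ) (hμ : μ < 1 / 100) {F : Finset S.V} (h : S.O F ≠ 0) :
    Set.InjOn S.rep (F : Set S.V) := by
  intro u hu v hv huv
  rcases rep_eq_rep hG huv with h1 | h1
  · exact h1
  · exfalso
    apply far_τ hG hμ (l1_of_O hG h hv)
    have := close_of_O hG h hv hu
    rw [h1] at this
    have hμ0 : 0 ≤ μ := le_trans (norm_nonneg _) this
    linarith

lemma card_rep_of_O (hG : S.Good μ) (hμ : μ < 1 / 100) {F : Finset S.V} (h : S.O F ≠ 0) :
    (F.image S.rep).card = 3 := by
  rw [Finset.card_image_of_injOn (rep_inj_of_O hG hμ h)]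
  exact O_card_eq hG h

lemma image_rep_τ (hG : S.Good μ) (hμ : μ < 1 / 100) {F : Finset S.V} (h : S.O F ≠ 0) :
    (F.image S.τ).image S.rep = F.image S.rep := by
  rw [Finset.image_image]
  apply Finset.image_congr
  intro v hv
  exact rep_τ hG v (τ_ne hG hμ (l1_of_O hG h hv))

lemma col_τ {c : (Fin 3 → ℝ) → Fin 10} {δ : ℝ} (hc : Margin c δ) (hG : S.Good μ) (v : S.V) :
    col c S (S.τ v) = col c S v := by
  unfold col
  have : u3 S (S.τ v) = - u3 S v := by
    unfold u3 unitV
    rw [hG.pos_τ, proj3_neg]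
    have e : dot (-proj3 (S.pos v)) (-proj3 (S.pos v)) = dot (proj3 (S.pos v)) (proj3 (S.pos v)) := by
      simp [dot]
    rw [e, smul_neg]
  rw [this, hc.even]

lemma col_rep {c : (Fin 3 → ℝ) → Fin 10} {δ : ℝ} (hc : Margin c δ) (hG : S.Good μ) (v : S.V) :
    col c S (S.rep v) = col c S v := by
  rcases rep_eq v with h | h
  · rw [h]
  · rw [h, col_τ hc hG]

/-- Two triangles with the same image in the projective plane which share a vertex are equal. -/
lemma eq_of_image_rep_of_meet (hG : S.Good μ) (hμ : μ < 1 / 100) {F G : Finset S.V}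
    (hF : S.O F ≠ 0) (hGG : S.O G ≠ 0) (h : F.image S.rep = G.image S.rep) {w : S.V}
    (hwF : w ∈ F) (hwG : w ∈ G) : F = G := by
  have hsub : F ⊆ G := by
    intro v hv
    have : S.rep v ∈ G.image S.rep := by
      rw [← h]; exact Finset.mem_image_of_mem _ hv
    obtain ⟨v', hv', hrep⟩ := Finset.mem_image.mp this
    rcases rep_eq_rep hG hrep with h1 | h1
    · rwa [← h1]
    · exfalso
      rw [h1] at hv'
      apply far_τ hG hμ (l1_of_O hG hF hv)
      have a1 := close_of_O hG hF hv hwF
      have a2 := close_of_O hG hGG hwG hv'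
      have : S.pos v - S.pos (S.τ v) = (S.pos v - S.pos w) + (S.pos w - S.pos (S.τ v)) := by abel
      rw [this]
      refine (norm_add_le _ _).trans ?_
      linarith
  exact Finset.eq_of_subset_of_card_le hsub (by rw [O_card_eq hG hF, O_card_eq hG hGG])

/-- Two triangles with the same image in the projective plane: equal or antipodal. -/
lemma eq_or_τ_of_image_rep (hG : S.Good μ) (hμ : μ < 1 / 100) {F G : Finset S.V}
    (hF : S.O F ≠ 0) (hGG : S.O G ≠ 0) (h : F.image S.rep = G.image S.rep) :
    F = G ∨ F.image S.τ = G := by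
  by_cases hm : ∃ w, w ∈ F ∧ w ∈ G
  · obtain ⟨w, h1, h2⟩ := hm
    exact Or.inl (eq_of_image_rep_of_meet hG hμ hF hGG h h1 h2)
  · right
    push Not at hm
    have hsub : F.image S.τ ⊆ G := by
      intro x hx
      obtain ⟨v, hv, rfl⟩ := Finset.mem_image.mp hx
      have : S.rep v ∈ G.image S.rep := by
        rw [← h]; exact Finset.mem_image_of_mem _ hv
      obtain ⟨v', hv', hrep⟩ := Finset.mem_image.mp this
      rcases rep_eq_rep hG hrep with h1 | h1
      · rw [h1] at hv'; exact absurd hv' (hm v hv)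
      · rwa [h1] at hv'
    have hinj : Function.Injective S.τ := fun a b hab => by
      have := congrArg S.τ hab
      rwa [hG.τ_τ, hG.τ_τ] at this
    refine Finset.eq_of_subset_of_card_le hsub ?_
    rw [Finset.card_image_of_injective _ hinj, O_card_eq hG hF, O_card_eq hG hGG]

lemma mem_triW {t : Finset S.V} : t ∈ S.triW ↔ ∃ F, S.O F ≠ 0 ∧ F.image S.rep = t := by
  simp [Sys.triW]

/-- Every triangle of the plane is the image of a unique hemisphere triangle. -/
lemma exists_c2_of_triW (hG : S.Good μ) (hμ : μ < 1 / 100) {t : Finset S.V} (ht : t ∈ S.triW) :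
    ∃ F, S.c 2 F ≠ 0 ∧ F.image S.rep = t := by
  obtain ⟨F, hF, rfl⟩ := mem_triW.mp ht
  rcases c2_or_of_O F hF with h | h
  · exact ⟨F, h, rfl⟩
  · exact ⟨F.image S.τ, h, image_rep_τ hG hμ hF⟩

lemma c2_inj (hG : S.Good μ) (hμ : μ < 1 / 100) {F G : Finset S.V} (hF : S.c 2 F ≠ 0)
    (hGG : S.c 2 G ≠ 0) (h : F.image S.rep = G.image S.rep) : F = G := by
  rcases eq_or_τ_of_image_rep hG hμ (O_of_c2 hG hF) (O_of_c2 hG hGG) h with h1 | h1
  · exact h1
  · exfalso
    have := hG.c_disj 2 (by norm_num) F hF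
    rw [h1] at this
    exact hGG this

end Aux

end TriWAux

open TriWAux

/-- Fine enough: triangles of `O` project injectively, `triW` triangles have card 3, and the label count on
`triW` is the count on the half sphere `c 2`. -/
theorem triW_count {c : (Fin 3 → ℝ) → Fin 10} {δ : ℝ} (hc : Margin c δ) {S : Sys} {μ : ℝ}
    (hG : S.Good μ) (hμ : μ < 1 / 100) :
    (∀ t ∈ S.triW, t.card = 3) ∧
    ∀ T : Finset (Fin 10), T.card = 3 →
      ((S.triW.filter (fun t => t.image (col c S) = T)).card : ZMod 2) =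
      push (col c S) (S.c 2) T := by
  refine ⟨?_, ?_⟩
  · intro t ht
    obtain ⟨F, hF, rfl⟩ := mem_triW.mp ht
    exact card_rep_of_O hG hμ hF
  · intro T hT
    classical
    -- the image of a triangle under `col` does not change under `rep`
    have hcol : ∀ F : Finset S.V, (F.image S.rep).image (col c S) = F.image (col c S) := by
      intro F
      rw [Finset.image_image]
      apply Finset.image_congr
      intro v _
      exact col_rep hc hG v
    -- rewrite the push as a count
    set A : Finset (Finset S.V) :=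
      (univ : Finset (Finset S.V)).filter (fun F => S.c 2 F ≠ 0 ∧ F.image (col c S) = T) with hA
    have hpush : push (col c S) (S.c 2) T = (A.card : ZMod 2) := by
      unfold push
      rw [hT]
      have h1 : ∑ F ∈ (univ : Finset (Finset S.V)).filter
            (fun F => F.image (col c S) = T ∧ F.card = 3), S.c 2 F
          = ∑ F ∈ A, (1 : ZMod 2) := by
        have hsub : A ⊆ (univ : Finset (Finset S.V)).filter
            (fun F => F.image (col c S) = T ∧ F.card = 3) := by
          intro F hF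
          simp only [hA, mem_filter, mem_univ, true_and] at hF ⊢
          exact ⟨hF.2, hG.c_card 2 (by norm_num) F hF.1⟩
        rw [← Finset.sum_subset hsub]
        · apply Finset.sum_congr rfl
          intro F hF
          simp only [hA, mem_filter, mem_univ, true_and] at hF
          exact zmod2_eq_one hF.1
        · intro F hF hF'
          simp only [hA, mem_filter, mem_univ, true_and, not_and] at hF hF'
          by_contra hne
          exact hF' hne hF.1
      rw [h1]
      simp
    rw [hpush]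
    congr 1
    apply Finset.card_bij (fun t _ => Classical.choose (exists_c2_of_triW hG hμ (Finset.mem_filter.mp ‹_›).1))
    · intro t ht
      have h := Classical.choose_spec (exists_c2_of_triW hG hμ (Finset.mem_filter.mp ht).1)
      simp only [hA, mem_filter, mem_univ, true_and]
      refine ⟨h.1, ?_⟩
      rw [← hcol, h.2]
      exact (Finset.mem_filter.mp ht).2
    · intro t ht t' ht' heq
      have h := Classical.choose_spec (exists_c2_of_triW hG hμ (Finset.mem_filter.mp ht).1)
      have h' := Classical.choose_spec (exists_c2_of_triW hG hμ (Finset.mem_filter.mp ht').1)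
      calc t = _ := h.2.symm
        _ = _ := by rw [heq]
        _ = t' := h'.2
    · intro F hF
      simp only [hA, mem_filter, mem_univ, true_and] at hF
      refine ⟨F.image S.rep, ?_, ?_⟩
      · rw [Finset.mem_filter]
        refine ⟨mem_triW.mpr ⟨F, O_of_c2 hG hF.1, rfl⟩, ?_⟩
        rw [hcol]; exact hF.2
      · have hm : F.image S.rep ∈ S.triW := mem_triW.mpr ⟨F, O_of_c2 hG hF.1, rfl⟩
        have h := Classical.choose_spec (exists_c2_of_triW hG hμ hm)
        exact c2_inj hG hμ h.1 hF.1 h.2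

namespace TriWAux

section Wf

variable {W : Type} [DecidableEq W]

lemma wf_pair (u : W → Fin 3 → ℝ) {y z : W} (hy : dot (u y) (u y) = 1) (hz : dot (u z) (u z) = 1) :
    wf u {y, z} = if dot (u y) (u z) < 0 then 1 else 0 := by
  unfold wf
  have : (∃ a ∈ ({y, z} : Finset W), ∃ b ∈ ({y, z} : Finset W), dot (u a) (u b) < 0) ↔
      dot (u y) (u z) < 0 := by
    constructor
    · rintro ⟨a, ha, b, hb, hab⟩
      simp only [mem_insert, mem_singleton] at ha hb
      rcases ha with rfl | rfl <;> rcases hb with rfl | rfl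
      · rw [hy] at hab; norm_num at hab
      · exact hab
      · rwa [dot_comm] at hab
      · rw [hz] at hab; norm_num at hab
    · intro h
      exact ⟨y, by simp, z, by simp, h⟩
  simp only [this]

/-- Parity of the number of negative pairs among three vectors with positive triple product. -/
lemma wf_three (u : W → Fin 3 → ℝ) {x y z : W} (hxy : x ≠ y) (hxz : x ≠ z) (hyz : y ≠ z)
    (hx : dot (u x) (u x) = 1) (hy : dot (u y) (u y) = 1) (hz : dot (u z) (u z) = 1)
    (hpos : 0 < dot (u x) (u y) * dot (u x) (u z) * dot (u y) (u z)) :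
    ∑ w ∈ ({x, y, z} : Finset W), wf u (({x, y, z} : Finset W).erase w) = 0 := by
  have e1 : ({x, y, z} : Finset W).erase x = {y, z} := by
    ext a; simp only [mem_erase, mem_insert, mem_singleton]
    constructor
    · rintro ⟨h1, h2 | h2 | h2⟩
      · exact absurd h2 h1
      · exact Or.inl h2
      · exact Or.inr h2
    · rintro (h | h)
      · exact ⟨by rw [h]; exact hxy.symm, Or.inr (Or.inl h)⟩
      · exact ⟨by rw [h]; exact hxz.symm, Or.inr (Or.inr h)⟩
  have e2 : ({x, y, z} : Finset W).erase y = {x, z} := by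
    ext a; simp only [mem_erase, mem_insert, mem_singleton]
    constructor
    · rintro ⟨h1, h2 | h2 | h2⟩
      · exact Or.inl h2
      · exact absurd h2 h1
      · exact Or.inr h2
    · rintro (h | h)
      · exact ⟨by rw [h]; exact hxy, Or.inl h⟩
      · exact ⟨by rw [h]; exact hyz.symm, Or.inr (Or.inr h)⟩
  have e3 : ({x, y, z} : Finset W).erase z = {x, y} := by
    ext a; simp only [mem_erase, mem_insert, mem_singleton]
    constructor
    · rintro ⟨h1, h2 | h2 | h2⟩
      · exact Or.inl h2
      · exact Or.inr h2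
      · exact absurd h2 h1
    · rintro (h | h)
      · exact ⟨by rw [h]; exact hxz, Or.inl h⟩
      · exact ⟨by rw [h]; exact hyz, Or.inr (Or.inl h)⟩
  rw [Finset.sum_insert (by simp [hxy, hxz]), Finset.sum_insert (by simp [hyz]),
    Finset.sum_singleton, e1, e2, e3, wf_pair u hy hz, wf_pair u hx hz, wf_pair u hx hy]
  set a := dot (u x) (u y)
  set b := dot (u x) (u z)
  set d := dot (u y) (u z)
  by_cases ha : a < 0 <;> by_cases hb : b < 0 <;> by_cases hd : d < 0
  · exfalso
    have : a * b * d < 0 := mul_neg_of_pos_of_neg (mul_pos_of_neg_of_neg ha hb) hd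
    linarith
  · simp only [ha, hb, hd, if_true, if_false]; decide
  · simp only [ha, hb, hd, if_true, if_false]; decide
  · exfalso
    have hb' := not_lt.mp hb
    have hd' := not_lt.mp hd
    have : a * b * d ≤ 0 :=
      mul_nonpos_of_nonpos_of_nonneg (mul_nonpos_of_nonpos_of_nonneg ha.le hb') hd'
    linarith
  · simp only [ha, hb, hd, if_true, if_false]; decide
  · exfalso
    have ha' := not_lt.mp ha
    have hd' := not_lt.mp hd
    have : a * b * d ≤ 0 :=
      mul_nonpos_of_nonpos_of_nonneg (mul_nonpos_of_nonneg_of_nonpos ha' hb.le) hd'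
    linarith
  · exfalso
    have ha' := not_lt.mp ha
    have hb' := not_lt.mp hb
    have : a * b * d ≤ 0 :=
      mul_nonpos_of_nonneg_of_nonpos (mul_nonneg ha' hb') hd.le
    linarith
  · simp only [ha, hb, hd, if_false]; decide

end Wf

section Close

variable {S : Sys} {μ : ℝ}

lemma u3_τ (hG : S.Good μ) (v : S.V) : u3 S (S.τ v) = - u3 S v := by
  unfold u3 unitV
  rw [hG.pos_τ, proj3_neg]
  have e : dot (-proj3 (S.pos v)) (-proj3 (S.pos v)) = dot (proj3 (S.pos v)) (proj3 (S.pos v)) := by
    simp [dot]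
  rw [e, smul_neg]

lemma proj3_ne_zero {p : Fin 5 → ℝ} (h : l1n (proj3 p) = 1) : proj3 p ≠ 0 := by
  intro h0
  rw [h0] at h
  simp [l1n] at h

lemma u3_unit {v : S.V} (h : l1n (proj3 (S.pos v)) = 1) : dot (u3 S v) (u3 S v) = 1 :=
  dot_unitV (proj3_ne_zero h)

lemma proj3_close {p q : Fin 5 → ℝ} {μ : ℝ} (h : ‖p - q‖ ≤ μ) : ‖proj3 p - proj3 q‖ ≤ μ := by
  have hμ : 0 ≤ μ := le_trans (norm_nonneg _) h
  refine (pi_norm_le_iff_of_nonneg hμ).mpr ?_
  intro i
  have := norm_le_pi_norm (p - q) ⟨i, by omega⟩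
  exact le_trans (by simpa [proj3] using this) h

lemma u3_close (hG : S.Good μ) {F : Finset S.V} (h : S.O F ≠ 0) {a b : S.V} (ha : a ∈ F)
    (hb : b ∈ F) : dot (u3 S a - u3 S b) (u3 S a - u3 S b) ≤ (20 * μ) ^ 2 :=
  unit_close (l1_of_O hG h ha) (l1_of_O hG h hb) (proj3_close (close_of_O hG h ha hb))

lemma dot_neg_neg {n : ℕ} (x : Fin n → ℝ) : dot (-x) (-x) = dot x x := by
  simp [dot]

lemma dot_neg_right' {n : ℕ} (x y : Fin n → ℝ) : dot x (-y) = - dot x y := by
  rw [dot_comm, dot_neg_left, dot_comm]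

lemma dot_sub_sub {n : ℕ} (x y : Fin n → ℝ) :
    dot (x - y) (x - y) = dot x x - 2 * dot x y + dot y y := by
  rw [dot_sub_left, dot_comm x (x - y), dot_comm y (x - y), dot_sub_left, dot_sub_left, dot_comm y x]
  ring

lemma LC_rep (hG : S.Good μ) {F : Finset S.V} (h : S.O F ≠ 0) {a b : S.V} (ha : a ∈ F)
    (hb : b ∈ F) : LC (20 * μ) (u3 S (S.rep a)) (u3 S (S.rep b)) := by
  have hd := u3_close hG h ha hb
  have hd' := u3_close hG h hb ha
  rcases rep_eq a with h1 | h1 <;> rcases rep_eq b with h2 | h2 <;> rw [h1, h2]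
  · exact Or.inl hd
  · right
    rw [u3_τ hG]
    have e : u3 S a + -u3 S b = u3 S a - u3 S b := by abel
    rwa [e]
  · right
    rw [u3_τ hG]
    have e : -u3 S a + u3 S b = u3 S b - u3 S a := by abel
    rwa [e]
  · left
    rw [u3_τ hG, u3_τ hG]
    have e : -u3 S a - -u3 S b = u3 S b - u3 S a := by abel
    rwa [e]

lemma unit_rep (hG : S.Good μ) {F : Finset S.V} (h : S.O F ≠ 0) {a : S.V} (ha : a ∈ F) :
    dot (u3 S (S.rep a)) (u3 S (S.rep a)) = 1 := by
  have hu := u3_unit (S := S) (l1_of_O hG h ha)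
  rcases rep_eq a with h1 | h1
  · rw [h1]; exact hu
  · rw [h1, u3_τ hG, dot_neg_neg]; exact hu

end Close

end TriWAux

/-- The cocycle of the double cover on triangles of `triW`. -/
theorem wf_cocycle {S : Sys} {μ : ℝ} (hG : S.Good μ) (hμ : μ < 1 / 100) :
    ∀ t ∈ S.triW, ∑ u ∈ t, wf (u3 S) (t.erase u) = 0 := by
  intro t ht
  obtain ⟨F, hF, rfl⟩ := mem_triW.mp ht
  obtain ⟨a, b, c, hab, hac, hbc, rfl⟩ := Finset.card_eq_three.mp (O_card_eq hG hF)
  have hinj := rep_inj_of_O hG hμ hF
  have ha : a ∈ ({a, b, c} : Finset S.V) := by simp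
  have hb : b ∈ ({a, b, c} : Finset S.V) := by simp
  have hc : c ∈ ({a, b, c} : Finset S.V) := by simp
  have hxy : S.rep a ≠ S.rep b := fun h => hab (hinj ha hb h)
  have hxz : S.rep a ≠ S.rep c := fun h => hac (hinj ha hc h)
  have hyz : S.rep b ≠ S.rep c := fun h => hbc (hinj hb hc h)
  have himg : ({a, b, c} : Finset S.V).image S.rep = {S.rep a, S.rep b, S.rep c} := by
    simp [Finset.image_insert]
  rw [himg]
  apply wf_three (u3 S) hxy hxz hyz (unit_rep hG hF ha) (unit_rep hG hF hb) (unit_rep hG hF hc)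
  -- positivity of the triple product
  have hpos : ∀ p q : S.V, p ∈ ({a, b, c} : Finset S.V) → q ∈ ({a, b, c} : Finset S.V) →
      0 < dot (u3 S p) (u3 S q) := by
    intro p q hp hq
    have h1 := u3_close hG hF hp hq
    have hup := u3_unit (S := S) (l1_of_O hG hF hp)
    have huq := u3_unit (S := S) (l1_of_O hG hF hq)
    rw [dot_sub_sub, hup, huq] at h1
    have hμ0 : 0 ≤ μ := le_trans (norm_nonneg _) (close_of_O hG hF hp hq)
    nlinarith
  have h1 := hpos a b ha hb
  have h2 := hpos a c ha hc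
  have h3 := hpos b c hb hc
  have hp := mul_pos (mul_pos h1 h2) h3
  rcases rep_eq a with e1 | e1 <;> rcases rep_eq b with e2 | e2 <;> rcases rep_eq c with e3 | e3 <;>
    rw [e1, e2, e3] <;> (try simp only [u3_τ hG, dot_neg_left, dot_neg_right']) <;> linarith

/-- Vertices of triangles of `triW` are pairwise line-close, unit; and triangles of `triW` come from `O`. -/
theorem triW_close {S : Sys} {μ : ℝ} (hG : S.Good μ) (hμ : μ < 1 / 100) :
    ∀ t ∈ S.triW, (∀ v ∈ t, dot (u3 S v) (u3 S v) = 1) ∧
      ∀ v ∈ t, ∀ v' ∈ t, LC (20 * μ) (u3 S v) (u3 S v') := by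
  intro t ht
  obtain ⟨F, hF, rfl⟩ := mem_triW.mp ht
  refine ⟨?_, ?_⟩
  · intro v hv
    obtain ⟨a, ha, rfl⟩ := Finset.mem_image.mp hv
    exact unit_rep hG hF ha
  · intro v hv v' hv'
    obtain ⟨a, ha, rfl⟩ := Finset.mem_image.mp hv
    obtain ⟨b, hb, rfl⟩ := Finset.mem_image.mp hv'
    exact LC_rep hG hF ha hb

lemma triW_z2_aux {S : Sys} {μ : ℝ} (hG : S.Good μ) (hμ : μ < 1 / 100)
    (hz2 : ∀ ν' : Chain S.V, (∀ F, ν' F ≠ 0 → S.O F ≠ 0) → bd ν' = 0 → ν' = 0 ∨ ν' = S.O)
    (ν : Finset S.V → ZMod 2)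
    (hν : ∀ e : Finset S.V, e.card = 2 →
      ∑ t ∈ S.triW.filter (fun t => e ⊆ t), ν t = 0) :
    ∃ ν₀, ∀ t ∈ S.triW, ν t = ν₀ := by
  classical
  -- the lift of `ν` to the sphere
  let ν' : Chain S.V := fun F => if S.O F ≠ 0 then ν (F.image S.rep) else 0
  have hsupp : ∀ F, ν' F ≠ 0 → S.O F ≠ 0 := by
    intro F hF
    by_contra h
    apply hF
    simp only [ν']
    rw [if_neg (by simpa using h)]
  have hbd : bd ν' = 0 := by
    funext e
    show ∑ v ∈ eᶜ, ν' (insert v e) = 0
    by_cases hne : ∃ v₀ ∈ eᶜ, S.O (insert v₀ e) ≠ 0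
    · obtain ⟨v₀, hv₀, hO₀⟩ := hne
      have hv₀' : v₀ ∉ e := by simpa using hv₀
      have hecard : e.card = 2 := by
        have := O_card_eq hG hO₀
        rw [Finset.card_insert_of_notMem hv₀'] at this
        omega
      -- the image edge in the plane
      have hinj₀ := rep_inj_of_O hG hμ hO₀
      have hinje : Set.InjOn S.rep (e : Set S.V) := hinj₀.mono (by
        intro x hx; simp only [Finset.coe_insert]; exact Or.inr hx)
      have hcard' : (e.image S.rep).card = 2 := by
        rw [Finset.card_image_of_injOn hinje, hecard]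
      have hsum := hν (e.image S.rep) hcard'
      rw [← hsum]
      -- reduce to the support
      have h1 : ∑ v ∈ eᶜ, ν' (insert v e) =
          ∑ v ∈ eᶜ.filter (fun v => S.O (insert v e) ≠ 0), ν ((insert v e).image S.rep) := by
        rw [Finset.sum_filter]
      rw [h1]
      obtain ⟨a, b, hab, rfl⟩ := Finset.card_eq_two.mp hecard
      have haa : a ∈ insert v₀ ({a, b} : Finset S.V) := by simp
      have hbb : b ∈ insert v₀ ({a, b} : Finset S.V) := by simp
      apply Finset.sum_bij (fun v _ => (insert v ({a, b} : Finset S.V)).image S.rep)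
      · intro v hv
        rw [Finset.mem_filter] at hv ⊢
        refine ⟨mem_triW.mpr ⟨_, hv.2, rfl⟩, ?_⟩
        apply Finset.image_subset_image
        exact Finset.subset_insert _ _
      · intro v hv v' hv' heq
        rw [Finset.mem_filter] at hv hv'
        have hEq := eq_of_image_rep_of_meet hG hμ hv.2 hv'.2 heq
          (w := a) (by simp) (by simp)
        have hvn : v ∉ ({a, b} : Finset S.V) := by simpa using hv.1
        have hvn' : v' ∉ ({a, b} : Finset S.V) := by simpa using hv'.1
        have : v ∈ insert v' ({a, b} : Finset S.V) := by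
          rw [← hEq]; simp
        rcases Finset.mem_insert.mp this with h | h
        · exact h
        · exact absurd h hvn
      · intro t ht
        rw [Finset.mem_filter] at ht
        obtain ⟨G, hGO, rfl⟩ := mem_triW.mp ht.1
        -- locate `a, b`
        have hra : S.rep a ∈ G.image S.rep := ht.2 (Finset.mem_image_of_mem _ (by simp))
        have hrb : S.rep b ∈ G.image S.rep := ht.2 (Finset.mem_image_of_mem _ (by simp))
        obtain ⟨g₁, hg₁, hr₁⟩ := Finset.mem_image.mp hra
        obtain ⟨g₂, hg₂, hr₂⟩ := Finset.mem_image.mp hrb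
        have hclose : ‖S.pos a - S.pos b‖ ≤ μ := close_of_O hG hO₀ haa hbb
        have hla := l1_of_O hG hO₀ haa
        have hlb := l1_of_O hG hO₀ hbb
        have hμ0 : 0 ≤ μ := le_trans (norm_nonneg _) hclose
        -- a triangle containing both `a,b` or their antipodes
        have key : ∃ G', S.O G' ≠ 0 ∧ G'.image S.rep = G.image S.rep ∧ a ∈ G' ∧ b ∈ G' := by
          rcases rep_eq_rep hG hr₁ with e1 | e1 <;> rcases rep_eq_rep hG hr₂ with e2 | e2
          · exact ⟨G, hGO, rfl, e1 ▸ hg₁, e2 ▸ hg₂⟩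
          · exfalso
            rw [e1] at hg₁
            rw [e2] at hg₂
            apply far_τ hG hμ hlb
            have a1 := close_of_O hG hGO hg₁ hg₂
            have : S.pos b - S.pos (S.τ b) = (S.pos b - S.pos a) + (S.pos a - S.pos (S.τ b)) := by
              abel
            rw [this]
            refine (norm_add_le _ _).trans ?_
            rw [norm_sub_rev (S.pos b)]
            linarith
          · exfalso
            rw [e1] at hg₁
            rw [e2] at hg₂
            apply far_τ hG hμ hla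
            have a1 := close_of_O hG hGO hg₁ hg₂
            have : S.pos a - S.pos (S.τ a) = (S.pos a - S.pos b) + (S.pos b - S.pos (S.τ a)) := by
              abel
            rw [this]
            refine (norm_add_le _ _).trans ?_
            rw [norm_sub_rev (S.pos b)]
            linarith
          · refine ⟨G.image S.τ, ?_, image_rep_τ hG hμ hGO, ?_, ?_⟩
            · rw [O_image_τ hG]; exact hGO
            · rw [e1] at hg₁
              have := mem_image_τ (S := S) hg₁
              rwa [hG.τ_τ] at this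
            · rw [e2] at hg₂
              have := mem_image_τ (S := S) hg₂
              rwa [hG.τ_τ] at this
        obtain ⟨G', hG'O, hG'im, haG, hbG⟩ := key
        -- the third vertex
        have hcardG : G'.card = 3 := O_card_eq hG hG'O
        have hsub : ({a, b} : Finset S.V) ⊆ G' := by
          intro x hx
          simp only [mem_insert, mem_singleton] at hx
          rcases hx with rfl | rfl
          · exact haG
          · exact hbG
        have hcardsd : (G' \ {a, b}).card = 1 := by
          rw [Finset.card_sdiff_of_subset hsub, hcardG, hecard]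
        obtain ⟨v, hv⟩ := Finset.card_eq_one.mp hcardsd
        have hvmem : v ∈ G' \ {a, b} := by rw [hv]; simp
        have hvG := (Finset.mem_sdiff.mp hvmem).1
        have hvn := (Finset.mem_sdiff.mp hvmem).2
        have hGins : insert v ({a, b} : Finset S.V) = G' := by
          apply Finset.eq_of_subset_of_card_le
          · intro x hx
            rcases Finset.mem_insert.mp hx with rfl | h
            · exact hvG
            · exact hsub h
          · rw [Finset.card_insert_of_notMem hvn, hecard, hcardG]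
        refine ⟨v, ?_, ?_⟩
        · rw [Finset.mem_filter]
          refine ⟨by simpa using hvn, ?_⟩
          rw [hGins]; exact hG'O
        · show (insert v ({a, b} : Finset S.V)).image S.rep = _
          rw [hGins, hG'im]
      · intro v _
        rfl
    · push Not at hne
      apply Finset.sum_eq_zero
      intro v hv
      simp only [ν']
      rw [if_neg (by simpa using hne v hv)]
  rcases hz2 ν' hsupp hbd with h0 | h1
  · refine ⟨0, ?_⟩
    intro t ht
    obtain ⟨F, hF, rfl⟩ := mem_triW.mp ht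
    have := congrFun h0 F
    simp only [ν', Pi.zero_apply] at this
    rwa [if_pos hF] at this
  · refine ⟨1, ?_⟩
    intro t ht
    obtain ⟨F, hF, rfl⟩ := mem_triW.mp ht
    have := congrFun h1 F
    simp only [ν'] at this
    rw [if_pos hF] at this
    rw [this]
    exact zmod2_eq_one hF

/-- `Z₂` lemma on `triW` (from `z2_level`). -/
theorem triW_z2 {j : ℕ} {μ : ℝ} (hG : (level j).Good μ) (hμ : μ < 1 / 100)
    (ν : Finset (level j).V → ZMod 2)
    (hν : ∀ e : Finset (level j).V, e.card = 2 →
      ∑ t ∈ (level j).triW.filter (fun t => e ⊆ t), ν t = 0) :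
    ∃ ν₀, ∀ t ∈ (level j).triW, ν t = ν₀ :=
  triW_z2_aux hG hμ (z2_level j) ν hν

end Crest.Agent.S0069Lib
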