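import Crest.Agent.S0069Lib.Bary
import Crest.Agent.S0069Lib.TriW
import Crest.Agent.S0069Lib.Band
import Crest.Agent.S0069Lib.Quad
import Crest.Agent.S0069Lib.T2Abs
import Crest.Agent.S0069Lib.T2Cc

/-!
# S0069: the plane theorem T2 (geometric part)

A margin colouring `c` of `ℝ³` with all values in a 6-set `B`, fine level `j`:
`d T := push (col c S) (S.c 2) T` satisfies `d T + d (B \ T) = 1`.

Files/steps:
* `rep`, `triW`: the triangulation of `RP²` inside `S.V` (quotient by `τ`, through a representative map).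
* `CcData`: the chain `Cc` produced from the Ky Fan labelled `S⁴`.
-/

set_option autoImplicit false

namespace Crest.Agent.S0069Lib

open Finset

/-- The data produced by the labelled `S⁴`. -/
structure CcData (c : (Fin 3 → ℝ) → Fin 10) (S : Sys) (ζ : ℝ) (Cc : Chain (Bool × S.V)) : Prop where
  cyc : bd Cc = 0
  card5 : ∀ Y, Cc Y ≠ 0 → Y.card = 5
  face : ∀ A A', Cc (X A A') ≠ 0 → (∃ t ∈ S.triW, A ⊆ t) ∧ (∃ t ∈ S.triW, A' ⊆ t)
  near : ∀ A A', Cc (X A A') ≠ 0 → ∀ a ∈ A, ∀ a' ∈ A', |dot (u3 S a) (u3 S a')| ≤ ζ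
  kf : ∀ ord : Fin 10 → ℕ, Function.Injective ord →
    pair Cc (altA (fun x : Bool × S.V => (ord (col c S x.2), x.1))) = 1

/-! Rounding of lines to vertices of the triangulated plane. -/

theorem Sys.cc_O_face {S : Sys} {μ : ℝ} (hG : S.Good μ) {t : Finset S.V} (ht : S.O t ≠ 0) :
    S.Face μ t ∧ ∀ v ∈ t, ∀ i : Fin 5, 2 < (i : ℕ) → S.pos v i = 0 := by
  unfold Sys.O at ht
  by_cases h2 : S.c 2 t = 0
  · have h5 : S.c 2 (t.image S.τ) ≠ 0 := by
      intro h5
      apply ht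
      simp [tauC, h2, h5]
    refine ⟨Sys.face_of_image_τ hG (hG.c_face 2 (by norm_num) _ h5), ?_⟩
    intro v hv i hi
    have := hG.c_zero 2 (by norm_num) _ h5 (S.τ v) (Finset.mem_image_of_mem _ hv) i hi
    rw [hG.pos_τ v] at this
    simpa using this
  · exact ⟨hG.c_face 2 (by norm_num) _ h2, hG.c_zero 2 (by norm_num) _ h2⟩

theorem Sys.cc_O_l1 {S : Sys} {μ : ℝ} (hG : S.Good μ) {t : Finset S.V} (ht : S.O t ≠ 0)
    {v : S.V} (hv : v ∈ t) : l1n (proj3 (S.pos v)) = 1 := by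
  obtain ⟨⟨_, ⟨σ, hσ1, hσ⟩, _⟩, hz⟩ := Sys.cc_O_face hG ht
  obtain ⟨h0, h1⟩ := hσ v hv
  have habs : ∀ i, σ i * S.pos v i = |S.pos v i| := by
    intro i
    rcases hσ1 i with h | h
    · have := h0 i
      rw [h] at this ⊢
      rw [one_mul] at this ⊢
      exact (abs_of_nonneg this).symm
    · have := h0 i
      rw [h] at this ⊢
      have h' : S.pos v i ≤ 0 := by linarith
      rw [abs_of_nonpos h']
      ring
  have h3 := hz v hv 3 (by norm_num)
  have h4 := hz v hv 4 (by norm_num)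
  rw [Fin.sum_univ_five, h3, h4, mul_zero, mul_zero, add_zero, add_zero, habs, habs, habs] at h1
  simp only [l1n, proj3, Fin.sum_univ_three]
  exact h1

theorem cc_l1n_pos {x : Fin 3 → ℝ} (hx : x ≠ 0) : 0 < l1n x := by
  obtain ⟨i, hi⟩ := Function.ne_iff.mp hx
  unfold l1n
  exact Finset.sum_pos' (fun _ _ => abs_nonneg _) ⟨i, Finset.mem_univ _, abs_pos.mpr hi⟩

theorem cc_ne_zero_of_dot {n : ℕ} {x : Fin n → ℝ} (hx : dot x x = 1) : x ≠ 0 := by
  rintro rfl
  simp [dot] at hx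

theorem cc_unitV_smul_inv {x : Fin 3 → ℝ} (hx : dot x x = 1) : unitV ((l1n x)⁻¹ • x) = x := by
  have hl := cc_l1n_pos (cc_ne_zero_of_dot hx)
  unfold unitV
  have h1 : dot ((l1n x)⁻¹ • x) ((l1n x)⁻¹ • x) = ((l1n x)⁻¹) ^ 2 := by
    simp only [dot, Pi.smul_apply, smul_eq_mul]
    have : ∀ i, (l1n x)⁻¹ * x i * ((l1n x)⁻¹ * x i) = ((l1n x)⁻¹) ^ 2 * (x i * x i) := by
      intro i; ring
    simp only [this, ← Finset.mul_sum]
    have h2 : ∑ i, x i * x i = 1 := hx
    rw [h2, mul_one]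
  rw [h1, Real.sqrt_sq (inv_nonneg.mpr hl.le), inv_inv, smul_smul, mul_inv_cancel₀ hl.ne', one_smul]

theorem cc_l1n_smul_inv {x : Fin 3 → ℝ} (hx : x ≠ 0) : l1n ((l1n x)⁻¹ • x) = 1 := by
  have hl := cc_l1n_pos hx
  have : l1n ((l1n x)⁻¹ • x) = (l1n x)⁻¹ * l1n x := by
    simp only [l1n, Pi.smul_apply, smul_eq_mul, abs_mul, abs_inv, ← Finset.mul_sum,
      abs_of_pos (show 0 < ∑ i, |x i| from hl)]
  rw [this, inv_mul_cancel₀ hl.ne']

theorem cc_proj3_emb3 (x : Fin 3 → ℝ) : proj3 (emb3 x) = x := by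
  funext i
  have hi : (i : ℕ) < 3 := i.2
  simp [proj3, emb3, hi]

theorem cc_norm_proj3_le (m : Fin 5 → ℝ) : ‖proj3 m‖ ≤ ‖m‖ := by
  refine (pi_norm_le_iff_of_nonneg (norm_nonneg _)).2 fun i => ?_
  exact norm_le_pi_norm m _

theorem cc_proj3_sub (m m' : Fin 5 → ℝ) : proj3 (m - m') = proj3 m - proj3 m' := rfl

theorem cc_u3_τ {S : Sys} {μ : ℝ} (hG : S.Good μ) (w : S.V) : u3 S (S.τ w) = - u3 S w := by
  unfold u3
  rw [hG.pos_τ w]
  have : proj3 (-S.pos w) = - proj3 (S.pos w) := rfl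
  rw [this]
  unfold unitV
  have h : dot (-proj3 (S.pos w)) (-proj3 (S.pos w)) = dot (proj3 (S.pos w)) (proj3 (S.pos w)) := by
    simp [dot]
  rw [h, smul_neg]

theorem cc_u3_close {S : Sys} {μ : ℝ} {β : S.V → (Fin 3 → ℝ) → ℝ} (hG : S.Good μ) (hβ : S.IsBary β)
    {w : S.V} {x : Fin 3 → ℝ} (hx : dot x x = 1) (h : 0 < β w x) :
    dot (u3 S w - x) (u3 S w - x) ≤ (20 * μ) ^ 2 ∧ dot (u3 S w) (u3 S w) = 1 := by
  have hx0 := cc_ne_zero_of_dot hx
  obtain ⟨t, ht, hsupp⟩ := hβ.supp x hx0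
  have ha := Sys.cc_O_l1 hG ht (hsupp w h)
  have hb := cc_l1n_smul_inv hx0
  have hc := bary_close hG hβ hx0 h
  have hd : ‖proj3 (S.pos w) - (l1n x)⁻¹ • x‖ ≤ μ := by
    have := cc_norm_proj3_le (S.pos w - emb3 ((l1n x)⁻¹ • x))
    rw [cc_proj3_sub, cc_proj3_emb3] at this
    exact this.trans hc
  have := unit_close ha hb hd
  rw [cc_unitV_smul_inv hx] at this
  refine ⟨this, dot_unitV ?_⟩
  intro h0
  rw [h0] at ha
  simp [l1n] at ha

/-- A vertex whose barycentric coordinate is positive somewhere is not fixed by `τ`. -/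
theorem cc_τ_ne_of_bary {S : Sys} {μ : ℝ} {β : S.V → (Fin 3 → ℝ) → ℝ} (hG : S.Good μ) (hβ : S.IsBary β)
    {w : S.V} {x : Fin 3 → ℝ} (hx : x ≠ 0) (h : 0 < β w x) : S.τ w ≠ w := by
  obtain ⟨t, ht, hsupp⟩ := hβ.supp x hx
  exact Sys.τ_ne_of_face hG (Sys.cc_O_face hG ht).1 (hsupp w h)

theorem cc_u3_rep_close {S : Sys} {μ : ℝ} {β : S.V → (Fin 3 → ℝ) → ℝ} (hG : S.Good μ)
    (hβ : S.IsBary β) {w : S.V} {x : Fin 3 → ℝ} (hx : dot x x = 1) (h : 0 < β w x) :
    LC (20 * μ) (u3 S (S.rep w)) x ∧ dot (u3 S (S.rep w)) (u3 S (S.rep w)) = 1 := by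
  obtain ⟨h1, h2⟩ := cc_u3_close hG hβ hx h
  rcases rep_eq (S := S) w with hr | hr
  · rw [hr]
    exact ⟨Or.inl h1, h2⟩
  · rw [hr, cc_u3_τ hG]
    refine ⟨Or.inr ?_, ?_⟩
    · have : - u3 S w + x = - (u3 S w - x) := by abel
      have hneg : ∀ a : Fin 3 → ℝ, dot (-a) (-a) = dot a a := fun a => by simp [dot]
      rw [this, hneg]
      exact h1
    · simpa [dot] using h2

/-- Lines close to `x₀` round into the triangle of `x₀`. -/
theorem cc_rep_mem_of_LC {S : Sys} {μ : ℝ} {β : S.V → (Fin 3 → ℝ) → ℝ} (hG : S.Good μ)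
    (hβ : S.IsBary β) {ρ : ℝ} {φ : (Fin 3 → ℝ) → S.V} (hρ : 0 < ρ)
    (hφ : ∀ x y : Fin 3 → ℝ, dot x x = 1 → dot y y = 1 →
      dot (x - y) (x - y) < ρ ^ 2 → 0 < β (φ x) y)
    {x₀ y : Fin 3 → ℝ} (hx₀ : dot x₀ x₀ = 1) (hy : dot y y = 1) (hLC : LC (ρ / 2) y x₀)
    {t₀ : Finset S.V} (hsupp : ∀ v, 0 < β v x₀ → v ∈ t₀) :
    S.rep (φ y) ∈ t₀.image S.rep := by
  have hρ' : (ρ / 2) ^ 2 < ρ ^ 2 := by nlinarith
  rcases hLC with h | h
  · exact Finset.mem_image_of_mem _ (hsupp _ (hφ y x₀ hy hx₀ (by linarith)))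
  · have hx' : dot (-x₀) (-x₀) = 1 := by simpa [dot] using hx₀
    have h1 : 0 < β (φ y) (-x₀) := hφ y (-x₀) hy hx' (by
      rw [sub_neg_eq_add]; linarith)
    have h2 : 0 < β (S.τ (φ y)) x₀ := by rw [hβ.anti]; exact h1
    have h3 := cc_τ_ne_of_bary hG hβ (cc_ne_zero_of_dot hx') h1
    rw [← rep_τ hG (φ y) h3]
    exact Finset.mem_image_of_mem _ (hsupp _ h2)

/-- **The labelled `S⁴`.** (Ky Fan + eigenline labels + rounding.) -/
theorem exists_Cc {c : (Fin 3 → ℝ) → Fin 10} {δ : ℝ} (hc : Margin c δ) {ζ : ℝ} (hζ : 0 < ζ)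
    {j : ℕ} {μ : ℝ} (hG : (level j).Good μ) (hμ : 20 * μ < min (δ / 4) (ζ / 4)) :
    ∃ Cc, CcData c (level j) ζ Cc := by
  have hδ := hc.pos
  have hμ1 : 20 * μ < δ / 4 := lt_of_lt_of_le hμ (min_le_left _ _)
  have hμ2 : 20 * μ < ζ / 4 := lt_of_lt_of_le hμ (min_le_right _ _)
  have hμ0 : 0 ≤ μ := by
    obtain ⟨v, hv⟩ := hG.c0
    have hF : (level j).Face μ {v} := hG.c_face 0 (by norm_num) {v} (by rw [hv]; simp)
    have := hF.2.2 v (by simp) v (by simp)
    simpa using this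
  obtain ⟨β, hβ⟩ := exists_bary j
  obtain ⟨ρ, hρ, φ, hφ⟩ := rounding hβ
  -- the scale at the level of `S⁴`
  set ξ : ℝ := min (ζ / 2) (δ / 2) with hξdef
  have hξ : 0 < ξ := lt_min (by linarith) (by linarith)
  set ε : ℝ := min (ρ ^ 2 / 800) (ξ ^ 2 / 50) with hεdef
  have hε : 0 < ε := lt_min (by positivity) (by positivity)
  obtain ⟨j', hj'⟩ := exists_level_mesh hε
  have hlt := hj' j' le_rfl
  set μ' : ℝ := 2 * ((4 : ℝ) / 5) ^ j' with hμ'def
  have hG' : (level j').Good μ' := good_level j'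
  have hμ'1 : 200 * μ' ≤ (ρ / 2) ^ 2 := by
    have : μ' < ρ ^ 2 / 800 := lt_of_lt_of_le hlt (min_le_left _ _)
    nlinarith
  have hμ'2 : 50 * μ' ≤ ξ ^ 2 := by
    have : μ' < ξ ^ 2 / 50 := lt_of_lt_of_le hlt (min_le_right _ _)
    nlinarith
  -- rounding
  set r : (Fin 3 → ℝ) → (level j).V := fun x => (level j).rep (φ x) with hr
  have hself : ∀ x : Fin 3 → ℝ, dot x x = 1 → 0 < β (φ x) x := by
    intro x hx
    refine hφ x x hx hx ?_
    have : x - x = 0 := sub_self x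
    rw [this]
    simp only [dot, Pi.zero_apply, mul_zero, Finset.sum_const_zero]
    positivity
  have hclose : ∀ x : Fin 3 → ℝ, dot x x = 1 →
      LC (20 * μ) (u3 (level j) (r x)) x ∧ dot (u3 (level j) (r x)) (u3 (level j) (r x)) = 1 :=
    fun x hx => cc_u3_rep_close hG hβ hx (hself x hx)
  -- near orthogonality
  have hnear : ∀ x y : Fin 3 → ℝ, dot x x = 1 → dot y y = 1 → dot x y ^ 2 ≤ 50 * μ' →
      |dot (u3 (level j) (r x)) (u3 (level j) (r y))| ≤ ξ + 40 * μ := by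
    intro x y hx hy hxy
    have h1 : |dot x y| ≤ ξ := by
      apply abs_le_of_sq_le_sq (hxy.trans hμ'2) hξ.le
    obtain ⟨hx1, hx2⟩ := hclose x hx
    obtain ⟨hy1, hy2⟩ := hclose y hy
    have h20 : (0 : ℝ) ≤ 20 * μ := by linarith
    have h2 := abs_dot_sub_le_of_LC h20 hx2 hy1
    have h3 := abs_dot_sub_le_of_LC h20 hy hx1
    rw [dot_comm y (u3 (level j) (r x)), dot_comm y x] at h3
    linarith
  have hface : ∀ (b : Bool) (F : Finset (level j').V) (A : Finset (level j).V),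
      (level j').Face μ' F → (∀ a ∈ A, ∃ v ∈ F, (level j').sgn v = b ∧ r ((level j').gl v) = a) →
      A.Nonempty → ∃ t ∈ (level j).triW, A ⊆ t := by
    intro b F A hF hA hne
    obtain ⟨a₀, ha₀⟩ := hne
    obtain ⟨v₀, hv₀, hs₀, _⟩ := hA a₀ ha₀
    have hx₀ := (level j').dot_gl v₀
    obtain ⟨t₀, ht₀, hsupp⟩ := hβ.supp _ (cc_ne_zero_of_dot hx₀)
    refine ⟨t₀.image (level j).rep, ?_, ?_⟩
    · unfold Sys.triW
      exact Finset.mem_image_of_mem _ (Finset.mem_filter.mpr ⟨Finset.mem_univ _, ht₀⟩)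
    · intro a ha
      obtain ⟨v, hv, hs, hva⟩ := hA a ha
      rw [← hva]
      exact cc_rep_mem_of_LC hG hβ hρ hφ hx₀ ((level j').dot_gl v)
        (Sys.gl_close hF hv hv₀ (hs.trans hs₀.symm) hμ'1) hsupp
  refine ⟨(level j').CC r, ?_⟩
  refine ⟨Sys.CC_cyc hG' r, fun Y hY => Sys.CC_card hG' r hY, ?_, ?_, ?_⟩
  · intro A A' h
    obtain ⟨F, hF, hA, hA'⟩ := Sys.CC_X hG' r h
    by_cases hAne : A.Nonempty
    · obtain ⟨t, ht, hAt⟩ := hface true F A hF hA hAne
      by_cases hA'ne : A'.Nonempty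
      · exact ⟨⟨t, ht, hAt⟩, hface false F A' hF hA' hA'ne⟩
      · rw [Finset.not_nonempty_iff_eq_empty] at hA'ne
        exact ⟨⟨t, ht, hAt⟩, ⟨t, ht, by simp [hA'ne]⟩⟩
    · rw [Finset.not_nonempty_iff_eq_empty] at hAne
      by_cases hA'ne : A'.Nonempty
      · obtain ⟨t, ht, hAt⟩ := hface false F A' hF hA' hA'ne
        exact ⟨⟨t, ht, by simp [hAne]⟩, ⟨t, ht, hAt⟩⟩
      · exfalso
        rw [Finset.not_nonempty_iff_eq_empty] at hA'ne
        have := Sys.CC_card hG' r h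
        simp [X, hAne, hA'ne] at this
  · intro A A' h a ha a' ha'
    obtain ⟨F, hF, hA, hA'⟩ := Sys.CC_X hG' r h
    obtain ⟨v, hv, hs, rfl⟩ := hA a ha
    obtain ⟨v', hv', hs', rfl⟩ := hA' a' ha'
    have := hnear _ _ ((level j').dot_gl v) ((level j').dot_gl v') (Sys.gl_orth hF hv hv' hs hs')
    have hξ1 : ξ ≤ ζ / 2 := min_le_left _ _
    linarith
  · intro ord hord
    refine Sys.CC_kf hG' r (fun w => ord (col c (level j) w)) ?_
    intro x y hx hy hxy heq
    have hcol := hord heq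
    have hsep := hc.sep _ _ (hclose x hx).2 (hclose y hy).2 hcol
    have := hnear x y hx hy hxy
    have hξ2 : ξ ≤ δ / 2 := min_le_right _ _
    linarith

theorem t2_wf_congr {W : Type} {u u' : W → Fin 3 → ℝ} {e : Finset W} (h : ∀ v ∈ e, u v = u' v) :
    wf u e = wf u' e := by
  classical
  have : (∃ a ∈ e, ∃ b ∈ e, dot (u a) (u b) < 0) ↔ (∃ a ∈ e, ∃ b ∈ e, dot (u' a) (u' b) < 0) := by
    constructor
    · rintro ⟨a, ha, b, hb, hab⟩
      exact ⟨a, ha, b, hb, by rwa [← h a ha, ← h b hb]⟩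
    · rintro ⟨a, ha, b, hb, hab⟩
      exact ⟨a, ha, b, hb, by rwa [h a ha, h b hb]⟩
  unfold wf
  simp only [this]

theorem t2_exists_frame {t0 : Fin 3 → ℝ} (h : dot t0 t0 = 1) :
    ∃ f : Fin 3 → Fin 3 → ℝ, Frame f ∧ f 2 = t0 := by
  obtain ⟨g, hg, hperp⟩ := exists_frame_perp (n := 3) 2 {t0} (by simp)
  refine ⟨![g 0, g 1, t0], ?_, rfl⟩
  have h0 : dot (g 0) t0 = 0 := hperp 0 t0 (by simp)
  have h1 : dot (g 1) t0 = 0 := hperp 1 t0 (by simp)
  have h00 := hg 0 0
  have h01 := hg 0 1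
  have h10 := hg 1 0
  have h11 := hg 1 1
  simp only [if_true] at h00 h11
  simp only [show (0 : Fin 2) ≠ 1 from by decide, show (1 : Fin 2) ≠ 0 from by decide,
    if_false] at h01 h10
  intro i j
  fin_cases i <;> fin_cases j <;>
    simp [h00, h01, h10, h11, h0, h1, h, dot_comm t0 (g 0), dot_comm t0 (g 1)]

theorem t2_sum_pairs {W : Type} [DecidableEq W] [Fintype W] (v : W) (g : Finset W → ZMod 2) :
    ∑ e ∈ (univ : Finset (Finset W)).filter (fun e => v ∈ e), (if e.card = 2 then g e else 0) =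
      ∑ a ∈ ({v} : Finset W)ᶜ, g (insert a {v}) := by
  rw [← Finset.sum_filter, Finset.filter_filter]
  have himg : (univ : Finset (Finset W)).filter (fun e => v ∈ e ∧ e.card = 2) =
      (({v} : Finset W)ᶜ).image (fun a => insert a ({v} : Finset W)) := by
    ext e
    simp only [mem_filter, mem_univ, true_and, mem_image, mem_compl, mem_singleton]
    constructor
    · rintro ⟨hv, hc⟩
      obtain ⟨x, y, hxy, rfl⟩ := Finset.card_eq_two.mp hc
      simp only [mem_insert, mem_singleton] at hv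
      rcases hv with rfl | rfl
      · exact ⟨y, fun h => hxy h.symm, by ext z; simp [or_comm]⟩
      · exact ⟨x, hxy, rfl⟩
    · rintro ⟨a, ha, rfl⟩
      refine ⟨by simp, ?_⟩
      rw [Finset.card_insert_of_notMem (by simpa using ha)]
      simp
  rw [himg, Finset.sum_image]
  intro a ha b hb hab
  simp only [coe_compl, coe_singleton, Set.mem_compl_iff, Set.mem_singleton_iff] at ha hb
  have : a ∈ insert b ({v} : Finset W) := by
    have : a ∈ insert a ({v} : Finset W) := by simp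
    simpa [hab] using this
  simp only [mem_insert, mem_singleton] at this
  rcases this with h | h
  · exact h
  · exact absurd h ha

theorem t2_even_degree {W : Type} [DecidableEq W] [Fintype W] (Cc : Chain (Bool × W))
    (hcyc : bd Cc = 0) (t : Finset W) (v : W)
    (hplus : ∀ a, a ∉ t → Cc (X (insert a t) {v}) = 0) :
    ∑ e ∈ (univ : Finset (Finset W)).filter (fun e => v ∈ e),
      (if e.card = 2 then Cc (X t e) else 0) = 0 := by
  rw [t2_sum_pairs]
  have h := congrFun hcyc (X t {v})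
  simp only [bd, Pi.zero_apply] at h
  rw [← h]
  have hmem_t : ∀ a, ((true, a) : Bool × W) ∈ X t {v} ↔ a ∈ t := by
    intro a; simp [X]
  have hmem_f : ∀ a, ((false, a) : Bool × W) ∈ X t {v} ↔ a = v := by
    intro a; simp [X]
  have hsub : (({v} : Finset W)ᶜ).image (Prod.mk false) ⊆ (X t {v})ᶜ := by
    intro x hx
    simp only [mem_image, mem_compl, mem_singleton] at hx
    obtain ⟨a, ha, rfl⟩ := hx
    rw [mem_compl, hmem_f]
    exact ha
  rw [← Finset.sum_subset hsub, Finset.sum_image (fun a _ b _ hab => (Prod.mk.inj hab).2)]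
  · refine Finset.sum_congr rfl fun a _ => ?_
    congr 1
    simp [X, Finset.image_insert, Finset.union_insert]
  · rintro ⟨b, a⟩ hx hnot
    cases b with
    | true =>
      have hat : a ∉ t := by
        rw [mem_compl, hmem_t] at hx
        exact hx
      have : insert ((true, a) : Bool × W) (X t {v}) = X (insert a t) {v} := by
        simp [X, Finset.image_insert, Finset.insert_union]
      rw [this]
      exact hplus a hat
    | false =>
      exfalso
      apply hnot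
      rw [mem_compl, hmem_f] at hx
      exact Finset.mem_image.mpr ⟨a, by simpa using hx, rfl⟩

theorem t2_LC_mono {n : ℕ} {x y : Fin n → ℝ} {η ξ : ℝ} (h0 : 0 ≤ η) (h : η ≤ ξ) (hL : LC η x y) :
    LC ξ x y := by
  have : η ^ 2 ≤ ξ ^ 2 := pow_le_pow_left₀ h0 h 2
  rcases hL with hL | hL
  · exact Or.inl (hL.trans this)
  · exact Or.inr (hL.trans this)

/-- The band hypothesis of `t2_abstract`, at a fixed fine level. -/
theorem t2_band {c : (Fin 3 → ℝ) → Fin 10} {δ : ℝ} (hc : Margin c δ) {B : Finset (Fin 10)}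
    (hB : B.card = 6) (hcB : ∀ y, dot y y = 1 → c y ∈ B) {ζ : ℝ} (hζ : 0 < ζ) (hζδ : ζ ≤ δ / 8)
    (hband : ∀ f : Fin 3 → Fin 3 → ℝ, Frame f → ∀ U : Finset (Fin 10), U.card = 3 →
      (∀ y, dot y y = 1 → |dot y (f 2)| ≤ ζ → c y ∈ U) →
      (¬ ∃ P, Cluster (δ / 8) P ∧ P.image c = U) →
      ∀ {W : Type} [DecidableEq W] [Fintype W] (u : W → Fin 3 → ℝ) (γ : Chain W),
        (∀ v, dot (u v) (u v) = 1) →
        (∀ e, γ e ≠ 0 → e.card = 2 ∧ (∀ v ∈ e, |dot (u v) (f 2)| ≤ ζ) ∧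
          ∀ v ∈ e, ∀ v' ∈ e, LC ζ (u v) (u v')) →
        (∀ v, ∑ e ∈ (univ : Finset (Finset W)).filter (fun e => v ∈ e), γ e = 0) →
        ∀ E ⊆ U, E.card = 2 →
          ∑ e ∈ (univ : Finset (Finset W)).filter (fun e => e.image (fun v => c (u v)) = E), γ e =
            ∑ e, γ e * wf u e)
    {S : Sys} {μ : ℝ} (hμ0 : 0 ≤ μ) (hG : S.Good μ) (hμ : μ < 1 / 100)
    (hμ' : 20 * μ < min (δ / 4) (ζ / 4))
    {Cc : Chain (Bool × S.V)} (hCc : CcData c S ζ Cc) :
    ∀ t ∈ S.triW, (t.image (col c S)).card = 3 → ∀ E ⊆ B \ t.image (col c S), E.card = 2 →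
      ∑ e ∈ (univ : Finset (Finset S.V)).filter (fun e => e.card = 2 ∧ e.image (col c S) = E),
          Cc (X t e) =
        ∑ e ∈ (univ : Finset (Finset S.V)).filter (fun e => e.card = 2),
          Cc (X t e) * wf (u3 S) e := by
  intro t ht h3 E hE hE2
  have hcount := (triW_count hc hG hμ).1
  have hclose := triW_close hG hμ
  have hδ : 0 < δ := hc.pos
  have hμ1 : 20 * μ < δ / 4 := lt_of_lt_of_le hμ' (min_le_left _ _)
  have hμ2 : 20 * μ < ζ / 4 := lt_of_lt_of_le hμ' (min_le_right _ _)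
  have h20 : 0 ≤ 20 * μ := by positivity
  have htcard := hcount t ht
  -- a vertex of the triangle
  obtain ⟨v0, hv0⟩ : t.Nonempty := by
    rw [← Finset.card_pos, htcard]; norm_num
  have hunit_t : ∀ v ∈ t, dot (u3 S v) (u3 S v) = 1 := (hclose t ht).1
  have hLC_t : ∀ v ∈ t, ∀ v' ∈ t, LC (20 * μ) (u3 S v) (u3 S v') := (hclose t ht).2
  set t0 : Fin 3 → ℝ := u3 S v0 with ht0
  have ht0u : dot t0 t0 = 1 := hunit_t v0 hv0
  obtain ⟨f, hf, hf2⟩ := t2_exists_frame ht0u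
  -- colours
  have hT'B : t.image (col c S) ⊆ B := by
    intro x hx
    obtain ⟨v, hv, rfl⟩ := Finset.mem_image.mp hx
    exact hcB _ (hunit_t v hv)
  have hUcard : (B \ t.image (col c S)).card = 3 := by
    rw [Finset.card_sdiff_of_subset hT'B, hB, h3]
  have hU : ∀ y, dot y y = 1 → |dot y (f 2)| ≤ ζ → c y ∈ B \ t.image (col c S) := by
    intro y hy hyz
    rw [hf2] at hyz
    refine Finset.mem_sdiff.mpr ⟨hcB y hy, ?_⟩
    intro hmem
    obtain ⟨v, hv, hvc⟩ := Finset.mem_image.mp hmem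
    have hsep := hc.sep y (u3 S v) hy (hunit_t v hv) hvc.symm
    have hle := abs_dot_sub_le_of_LC h20 hy (hLC_t v hv v0 hv0)
    have : |dot y (u3 S v0)| ≤ ζ := hyz
    linarith
  have hno : ¬ ∃ P, Cluster (δ / 8) P ∧ P.image c = B \ t.image (col c S) := by
    rintro ⟨P, hP, hPU⟩
    have hPne : P.Nonempty := by
      rw [Finset.nonempty_iff_ne_empty]
      rintro rfl
      rw [Finset.image_empty] at hPU
      rw [← hPU] at hUcard
      simp at hUcard
    obtain ⟨p0, hp0⟩ := hPne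
    obtain ⟨g, hg, hperp⟩ := exists_frame_perp (n := 3) 1 {t0, p0}
      ((Nat.add_le_add_right (Finset.card_le_two) 1))
    have hx1 : dot (g 0) (g 0) = 1 := by simpa using hg 0 0
    have hx1t : dot (g 0) t0 = 0 := hperp 0 t0 (by simp)
    have hx1p : dot (g 0) p0 = 0 := hperp 0 p0 (by simp)
    have hin := hU (g 0) hx1 (by rw [hf2, hx1t]; simpa using hζ.le)
    rw [← hPU] at hin
    obtain ⟨p', hp', hpc⟩ := Finset.mem_image.mp hin
    have hsep := hc.sep (g 0) p' hx1 (hP.1 p' hp') hpc.symm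
    have hle := abs_dot_sub_le_of_LC (by positivity : (0 : ℝ) ≤ δ / 8) hx1 (hP.2 p' hp' p0 hp0)
    rw [hx1p, abs_zero] at hle
    linarith
  classical
  -- the modified positions
  let u' : S.V → Fin 3 → ℝ := fun v => if dot (u3 S v) (u3 S v) = 1 then u3 S v else t0
  have hu'1 : ∀ v, dot (u' v) (u' v) = 1 := by
    intro v
    by_cases hv : dot (u3 S v) (u3 S v) = 1
    · simp only [u', if_pos hv, hv]
    · simp only [u', if_neg hv, ht0u]
  have hu'eq : ∀ v, dot (u3 S v) (u3 S v) = 1 → u' v = u3 S v := by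
    intro v hv
    simp only [u', if_pos hv]
  let γ : Chain S.V := fun e => if e.card = 2 then Cc (X t e) else 0
  have hγ : ∀ e, γ e ≠ 0 → e.card = 2 ∧ Cc (X t e) ≠ 0 := by
    intro e he
    by_cases h2 : e.card = 2
    · refine ⟨h2, ?_⟩
      simpa [γ, h2] using he
    · exact absurd (by simp [γ, h2]) he
  -- support facts
  have hsupp : ∀ e, Cc (X t e) ≠ 0 → (∀ v ∈ e, dot (u3 S v) (u3 S v) = 1) ∧
      (∀ v ∈ e, ∀ v' ∈ e, LC (20 * μ) (u3 S v) (u3 S v')) := by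
    intro e he
    obtain ⟨-, t2, ht2, het2⟩ := hCc.face t e he
    exact ⟨fun v hv => (hclose t2 ht2).1 v (het2 hv),
      fun v hv v' hv' => (hclose t2 ht2).2 v (het2 hv) v' (het2 hv')⟩
  have hmain := hband f hf _ hUcard hU hno u' γ hu'1 ?_ ?_ E hE hE2
  · -- convert
    have hL : ∑ e ∈ (univ : Finset (Finset S.V)).filter
          (fun e => e.image (fun v => c (u' v)) = E), γ e =
        ∑ e ∈ (univ : Finset (Finset S.V)).filter (fun e => e.card = 2 ∧ e.image (col c S) = E),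
          Cc (X t e) := by
      rw [Finset.sum_filter, Finset.sum_filter]
      refine Finset.sum_congr rfl fun e _ => ?_
      by_cases h2 : e.card = 2
      · by_cases h0 : Cc (X t e) = 0
        · simp [γ, h2, h0]
        · have himg : e.image (fun v => c (u' v)) = e.image (col c S) := by
            refine Finset.image_congr fun v hv => ?_
            simp only [hu'eq v ((hsupp e h0).1 v hv), col]
          simp [γ, h2, himg]
      · simp [γ, h2]
    have hR : ∑ e, γ e * wf u' e =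
        ∑ e ∈ (univ : Finset (Finset S.V)).filter (fun e => e.card = 2),
          Cc (X t e) * wf (u3 S) e := by
      rw [Finset.sum_filter]
      refine Finset.sum_congr rfl fun e _ => ?_
      by_cases h2 : e.card = 2
      · by_cases h0 : Cc (X t e) = 0
        · simp [γ, h2, h0]
        · have hw : wf u' e = wf (u3 S) e :=
            t2_wf_congr fun v hv => hu'eq v ((hsupp e h0).1 v hv)
          simp [γ, h2, hw]
      · simp [γ, h2]
    rw [← hL, ← hR]
    exact hmain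
  · -- support
    intro e he
    obtain ⟨h2, h0⟩ := hγ e he
    obtain ⟨hu, hl⟩ := hsupp e h0
    refine ⟨h2, ?_, ?_⟩
    · intro v hv
      rw [hf2, hu'eq v (hu v hv), dot_comm]
      exact hCc.near t e h0 v0 hv0 v hv
    · intro v hv v' hv'
      rw [hu'eq v (hu v hv), hu'eq v' (hu v' hv')]
      exact t2_LC_mono h20 (by linarith) (hl v hv v' hv')
  · -- even degree
    intro v
    refine t2_even_degree Cc hCc.cyc t v ?_
    intro a ha
    by_contra h0
    obtain ⟨⟨t1, ht1, hsub⟩, -⟩ := hCc.face _ _ h0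
    have hle := Finset.card_le_card hsub
    rw [Finset.card_insert_of_notMem ha, htcard, hcount t1 ht1] at hle
    omega

/-- **T2.** -/
theorem t2 {c : (Fin 3 → ℝ) → Fin 10} {δ : ℝ} (hc : Margin c δ) {B : Finset (Fin 10)}
    (hB : B.card = 6) (hcB : ∀ y, dot y y = 1 → c y ∈ B) :
    ∃ j₀, ∀ j ≥ j₀, ∀ T ⊆ B, T.card = 3 →
      push (col c (level j)) ((level j).c 2) T + push (col c (level j)) ((level j).c 2) (B \ T) = 1 := by
  obtain ⟨ζ, hζ, hζδ, hband⟩ := band_lemma hc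
  have hδ : 0 < δ := hc.pos
  have hε : 0 < min (1 / 100) (min (δ / 4) (ζ / 4) / 20) := by
    refine lt_min (by norm_num) (div_pos (lt_min (by positivity) (by positivity)) (by norm_num))
  obtain ⟨j₀, hj₀⟩ := exists_level_mesh hε
  refine ⟨j₀, fun j hj T hTB hT => ?_⟩
  have hmesh := hj₀ j hj
  set μ : ℝ := 2 * (4 / 5) ^ j with hμdef
  have hμ0 : 0 ≤ μ := by rw [hμdef]; positivity
  have hμ1 : μ < 1 / 100 := lt_of_lt_of_le hmesh (min_le_left _ _)
  have hμ2 : 20 * μ < min (δ / 4) (ζ / 4) := by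
    have : μ < min (δ / 4) (ζ / 4) / 20 := lt_of_lt_of_le hmesh (min_le_right _ _)
    linarith
  have hG : (level j).Good μ := good_level j
  obtain ⟨Cc, hCc⟩ := exists_Cc hc hζ hG hμ2
  have hcount := triW_count hc hG hμ1
  have hclose := triW_close hG hμ1
  have hcolB : ∀ A A', Cc (X A A') ≠ 0 → ∀ a ∈ A ∪ A', col c (level j) a ∈ B := by
    intro A A' h a ha
    obtain ⟨⟨t1, ht1, h1⟩, ⟨t2, ht2, h2⟩⟩ := hCc.face A A' h
    rcases Finset.mem_union.mp ha with ha | ha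
    · exact hcB _ ((hclose t1 ht1).1 a (h1 ha))
    · exact hcB _ ((hclose t2 ht2).1 a (h2 ha))
  have hmain := t2_abstract (level j).triW (col c (level j)) B hB Cc (wf (u3 (level j)))
    hcount.1 hCc.cyc hCc.card5 hCc.face hcolB (wf_cocycle hG hμ1)
    (fun ν hν => triW_z2 hG hμ1 ν hν)
    (t2_band hc hB hcB hζ hζδ hband hμ0 hG hμ1 hμ2 hCc)
    hCc.kf T hTB hT
  have hTc : (B \ T).card = 3 := by
    rw [Finset.card_sdiff_of_subset hTB, hB, hT]
  rw [← hcount.2 T hT, ← hcount.2 (B \ T) hTc]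
  exact hmain

end Crest.Agent.S0069Lib
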