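import Crest.Agent.S0069Lib.ChainLune
import Crest.Agent.S0069Lib.Faces

/-!
# Tetrahedra and the extension step

For an even colouring `col` of unit vectors of `ℝ⁴` by `Fin 10` with margin `d`:

* `exists_tetra`: some four colours form a face (Ky Fan on the Smith chain of level `3`);
* `N col u K T` is the number mod 2 of triples of the plane chain `fc u 4 K 2` labelled exactly by `T`;
* `extension_step`: if `N col u K T = 1` and the colour of `u 2` is in `T`, then some `insert m T`, `m ∉ T`,
  is a face (the lune between the planes `u 3 ^⊥` and `u 2 ^⊥`).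
-/

set_option autoImplicit false

namespace Crest.Agent.S0069Lib.Chains

open Finset Fan

noncomputable section

/-! ### Ky Fan parity with oddness only on the chain -/

section FanOn

variable {P : Type*} (neg : P → P) (lab : P → ℕ) (bit : P → Bool)

/-- Ky Fan parity, oddness assumed only on the points of the chains. -/
theorem fan_parity_on (c : ℕ → List (List P)) (n : ℕ) (p₀ : P) (h0 : c 0 = [[p₀]])
    (St : ∀ k < n, ∀ f : List P → ZMod 2,
      ((c (k + 1)).map (fun τ => ((dels τ).map f).sum)).sum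
        = ((c k).map (fun σ => f σ + f (σ.map neg))).sum)
    (hne : ∀ k < n, ∀ τ ∈ c (k + 1), τ ≠ [])
    (hsmall : ∀ k < n, ∀ τ ∈ c (k + 1), ∀ x ∈ τ, ∀ y ∈ τ, lab x = lab y → bit x = bit y)
    (hodd : ∀ k < n, ∀ σ ∈ c k, ∀ p ∈ σ, lab (neg p) = lab p ∧ bit (neg p) = !bit p) :
    ∀ k ≤ n, ((c k).map (fanAlt lab bit)).sum = 1 := by
  intro k
  induction k with
  | zero =>
    intro _
    rw [h0]
    simp only [List.map_cons, List.map_nil, List.sum_cons, List.sum_nil, add_zero]
    have hw : ∀ m : ℕ, word [m] = [decide (m % 2 = 1)] := fun m => by simp [word]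
    have halt : ∀ b : Bool, alt true [b] + alt false [b] = 1 := by
      intro b; cases b <;> simp [alt]
    simp only [fanAlt, A, List.map_cons, List.map_nil, List.nodup_singleton, if_true, hw]
    exact halt _
  | succ k ih =>
    intro hk
    have hk' : k < n := hk
    have hprev := ih hk'.le
    have hst := St k hk' (fanPlus lab bit)
    have hL : ((c (k + 1)).map (fun τ => ((dels τ).map (fanPlus lab bit)).sum)).sum
        = ((c (k + 1)).map (fanAlt lab bit)).sum := by
      congr 1
      apply List.map_congr_left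
      intro τ hτ
      exact delta_fanPlus lab bit τ (hne k hk' τ hτ) (hsmall k hk' τ hτ)
    have hR : ((c k).map (fun σ => fanPlus lab bit σ + fanPlus lab bit (σ.map neg))).sum
        = ((c k).map (fanAlt lab bit)).sum := by
      congr 1
      apply List.map_congr_left
      intro σ hσ
      have : (σ.map neg).map (enc lab bit) = (σ.map (enc lab bit)).map flip := by
        simp only [List.map_map]
        apply List.map_congr_left
        intro p hp
        obtain ⟨h1, h2⟩ := hodd k hk' σ hσ p hp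
        simp only [Function.comp_apply]
        unfold enc Fan.flip
        rw [h1, h2]
        cases hb : bit p <;> simp
      simp only [fanPlus, fanAlt, this, A_flip]
      rfl
    rw [← hL, hst, hR, hprev]

/-- Some tuple on level `n` has pairwise distinct labels. -/
theorem exists_rainbow_on (c : ℕ → List (List P)) (n : ℕ) (p₀ : P) (h0 : c 0 = [[p₀]])
    (St : ∀ k < n, ∀ f : List P → ZMod 2,
      ((c (k + 1)).map (fun τ => ((dels τ).map f).sum)).sum
        = ((c k).map (fun σ => f σ + f (σ.map neg))).sum)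
    (hne : ∀ k < n, ∀ τ ∈ c (k + 1), τ ≠ [])
    (hsmall : ∀ k < n, ∀ τ ∈ c (k + 1), ∀ x ∈ τ, ∀ y ∈ τ, lab x = lab y → bit x = bit y)
    (hodd : ∀ k < n, ∀ σ ∈ c k, ∀ p ∈ σ, lab (neg p) = lab p ∧ bit (neg p) = !bit p) :
    ∃ τ ∈ c n, (τ.map lab).Nodup := by
  by_contra hcon
  simp only [not_exists, not_and] at hcon
  have h1 := fan_parity_on neg lab bit c n p₀ h0 St hne hsmall hodd n le_rfl
  have h2 : ((c n).map (fanAlt lab bit)).sum = 0 := by
    have : ∀ τ ∈ c n, fanAlt lab bit τ = 0 := fun τ hτ =>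
      fanAlt_eq_zero_of_not_nodup lab bit (hcon τ hτ)
    rw [List.map_congr_left this]
    simp
  rw [h1] at h2
  exact one_ne_zero h2

end FanOn

/-! ### Sign bits -/

section Setting

variable {col : (Fin 4 → ℝ) → Fin 10} {d : ℝ}

open Classical in
/-- A fixed unit vector of each colour occurring on the sphere. -/
def rep (col : (Fin 4 → ℝ) → Fin 10) (i : Fin 10) : Fin 4 → ℝ :=
  if h : ∃ y : Fin 4 → ℝ, ∑ k, y k ^ 2 = 1 ∧ col y = i then h.choose else 0

theorem rep_spec {i : Fin 10} (h : ∃ y : Fin 4 → ℝ, ∑ k, y k ^ 2 = 1 ∧ col y = i) :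
    ∑ k, rep col i k ^ 2 = 1 ∧ col (rep col i) = i := by
  unfold rep
  rw [dif_pos h]
  exact h.choose_spec

open Classical in
/-- The sign of a point with respect to the representative of its colour. -/
def sgnBit (col : (Fin 4 → ℝ) → Fin 10) (p : Fin 4 → ℝ) : Bool :=
  decide (0 < ∑ k, p k * rep col (col p) k)

theorem rep_margin (hmargin : ∀ x y : Fin 4 → ℝ, ∑ i, x i ^ 2 = 1 → ∑ i, y i ^ 2 = 1 → col x = col y →
      d ≤ |∑ i, x i * y i|) {p : Fin 4 → ℝ} (hp : ∑ k, p k ^ 2 = 1) :
    d ≤ |∑ k, p k * rep col (col p) k| := by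
  obtain ⟨h1, h2⟩ := rep_spec (col := col) (i := col p) ⟨p, hp, rfl⟩
  exact hmargin p _ hp h1 h2.symm

theorem sgnBit_neg (heven : ∀ x, col (-x) = col x)
    (hmargin : ∀ x y : Fin 4 → ℝ, ∑ i, x i ^ 2 = 1 → ∑ i, y i ^ 2 = 1 → col x = col y →
      d ≤ |∑ i, x i * y i|) (hd : 0 < d) {p : Fin 4 → ℝ} (hp : ∑ k, p k ^ 2 = 1) :
    sgnBit col (-p) = !sgnBit col p := by
  have hm := rep_margin hmargin hp
  unfold sgnBit
  rw [heven]
  set a := ∑ k, p k * rep col (col p) k with ha
  have e : ∑ k, (-p) k * rep col (col p) k = -a := by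
    rw [ha, ← Finset.sum_neg_distrib]
    exact Finset.sum_congr rfl fun k _ => by simp
  rw [e]
  have hne : a ≠ 0 := by
    intro h0
    rw [h0] at hm
    simp at hm
    linarith
  by_cases h : 0 < a
  · have : ¬ 0 < -a := by linarith
    simp [h, this]
  · have h' : 0 < -a := by
      rcases lt_or_gt_of_ne hne with h1 | h1
      · linarith
      · exact absurd h1 h
    simp [h, h']

theorem sgnBit_eq (hmargin : ∀ x y : Fin 4 → ℝ, ∑ i, x i ^ 2 = 1 → ∑ i, y i ^ 2 = 1 → col x = col y →
      d ≤ |∑ i, x i * y i|) {p q : Fin 4 → ℝ} (hp : ∑ k, p k ^ 2 = 1)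
    (hq : ∑ k, q k ^ 2 = 1) (hc : col p = col q) {η : ℝ} (hη : η < d) (hη0 : 0 ≤ η)
    (hclose : ∑ k, (p k - q k) ^ 2 ≤ η ^ 2) : sgnBit col p = sgnBit col q := by
  have hmp := rep_margin hmargin hp
  have hmq := rep_margin hmargin hq
  rw [← hc] at hmq
  obtain ⟨hr, -⟩ := rep_spec (col := col) (i := col p) ⟨p, hp, rfl⟩
  unfold sgnBit
  rw [← hc]
  set r := rep col (col p) with hrdef
  set a := ∑ k, p k * r k with ha
  set b := ∑ k, q k * r k with hb
  have hdiff : (a - b) ^ 2 ≤ η ^ 2 := by
    have e : a - b = ∑ k, (p k - q k) * r k := by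
      rw [ha, hb, ← Finset.sum_sub_distrib]
      exact Finset.sum_congr rfl fun k _ => by ring
    rw [e]
    have cs := Finset.sum_mul_sq_le_sq_mul_sq Finset.univ (fun k => p k - q k) r
    rw [hr, mul_one] at cs
    exact cs.trans hclose
  have habs : |a - b| ≤ η := abs_le_of_sq_le_sq hdiff hη0
  have hab := abs_le.1 habs
  have key : 0 < a ↔ 0 < b := by
    constructor
    · intro h
      have h1 : d ≤ a := by rwa [abs_of_pos h] at hmp
      by_contra hb0
      have : |b| = -b := abs_of_nonpos (not_lt.1 hb0)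
      rw [this] at hmq
      linarith
    · intro h
      have h1 : d ≤ b := by rwa [abs_of_pos h] at hmq
      by_contra ha0
      have : |a| = -a := abs_of_nonpos (not_lt.1 ha0)
      rw [this] at hmp
      linarith
  simp [key]

/-- The standard frame. -/
def stdFrame : ℕ → Fin 4 → ℝ := fun m i => if (i : ℕ) = m then 1 else 0

theorem stdFrame_isFrame : IsFrame stdFrame 4 := by
  intro i j hi hj
  simp only [stdFrame, Fin.sum_univ_four]
  interval_cases i <;> interval_cases j <;> norm_num

/-- A tuple of unit vectors of small diameter gives a face. -/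
theorem isFace_of_tuple {η : ℝ} {τ : List (Fin 4 → ℝ)} (hne : τ ≠ [])
    (hu : ∀ p ∈ τ, ∑ k, p k ^ 2 = 1)
    (hc : ∀ p ∈ τ, ∀ q ∈ τ, ∑ k, (p k - q k) ^ 2 ≤ η ^ 2) :
    IsFace col η (τ.map col).toFinset := by
  obtain ⟨x, hx⟩ := List.exists_mem_of_ne_nil τ hne
  refine ⟨x, hu x hx, fun a ha => ?_⟩
  simp only [List.mem_toFinset, List.mem_map] at ha
  obtain ⟨y, hy, rfl⟩ := ha
  exact ⟨y, hu y hy, rfl, hc x hx y hy⟩

/-- The squared mesh on levels `≤ 3`. -/
theorem level_close_bound {K : ℕ} (hK : 0 < K) {k : ℕ} (hk : k ≤ 3) :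
    (4 : ℝ) * (2 * (k : ℝ) / K) ^ 2 ≤ (12 / (K : ℝ)) ^ 2 := by
  have hKr : (0 : ℝ) < K := by exact_mod_cast hK
  have hk' : (k : ℝ) ≤ 3 := by exact_mod_cast hk
  have hk0 : (0 : ℝ) ≤ k := Nat.cast_nonneg _
  have e : (12 / (K : ℝ)) ^ 2 = 4 * (2 * 3 / (K : ℝ)) ^ 2 := by ring
  rw [e]
  apply mul_le_mul_of_nonneg_left _ (by norm_num)
  apply pow_le_pow_left₀ (by positivity)
  apply div_le_div_of_nonneg_right _ hKr.le
  linarith

/-- A large mesh parameter. -/
theorem exists_K {η : ℝ} (hη : 0 < η) : ∃ K : ℕ, 0 < K ∧ 12 / (K : ℝ) ≤ η := by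
  obtain ⟨K, hK⟩ := exists_nat_gt (12 / η)
  have hK0 : (0 : ℝ) < K := lt_trans (by positivity) hK
  refine ⟨K, by exact_mod_cast hK0, ?_⟩
  rw [div_le_iff₀ hK0]
  rw [div_lt_iff₀ hη] at hK
  linarith

/-- **TETRA.** Some four colours form a face. -/
theorem exists_tetra (heven : ∀ x, col (-x) = col x)
    (hmargin : ∀ x y : Fin 4 → ℝ, ∑ i, x i ^ 2 = 1 → ∑ i, y i ^ 2 = 1 → col x = col y →
      d ≤ |∑ i, x i * y i|) (hd : 0 < d) {η : ℝ} (hη : 0 < η) (hηd : η < d) :
    ∃ S : Finset (Fin 10), S.card = 4 ∧ IsFace col η S := by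
  obtain ⟨K, hK, hKη⟩ := exists_K hη
  have hu := stdFrame_isFrame
  have hKr : (0 : ℝ) < K := by exact_mod_cast hK
  have hclose : ∀ k, k ≤ 3 → ∀ τ ∈ fc stdFrame 4 K k, ∀ p ∈ τ, ∀ q ∈ τ,
      ∑ i, (p i - q i) ^ 2 ≤ η ^ 2 := by
    intro k hk τ hτ p hp q hq
    have h1 := fc_close hu hK (k := k) (by omega) hτ hp hq
    have h2 := level_close_bound hK hk
    push_cast at h1
    have h3 : (12 / (K : ℝ)) ^ 2 ≤ η ^ 2 := pow_le_pow_left₀ (by positivity) hKη 2
    linarith
  obtain ⟨τ, hτ, hnd⟩ := exists_rainbow_on (Neg.neg : (Fin 4 → ℝ) → (Fin 4 → ℝ))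
    (fun p => ((col p : Fin 10) : ℕ)) (sgnBit col) (fc stdFrame 4 K) 3 (stdFrame 0)
    (fc_zero hu (by omega))
    (fun k _ f => fc_St hK.ne' k f)
    (fun k hk τ hτ => by
      have := fc_length hK (k := k + 1) (by omega) hτ
      intro h; rw [h] at this; simp at this)
    (fun k hk τ hτ x hx y hy hxy => by
      have hc : col x = col y := Fin.ext hxy
      exact sgnBit_eq hmargin (fc_unit hu hK (k := k + 1) (by omega) hτ hx)
        (fc_unit hu hK (k := k + 1) (by omega) hτ hy) hc hηd hη.le
        (hclose (k + 1) (by omega) τ hτ x hx y hy))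
    (fun k hk σ hσ p hp => ⟨by simp [heven],
      sgnBit_neg heven hmargin hd (fc_unit hu hK (k := k) (by omega) hσ hp)⟩)
  have hlen := fc_length hK (k := 3) (by omega) hτ
  have hnd' : (τ.map col).Nodup := by
    have : (τ.map col).map (fun a : Fin 10 => (a : ℕ)) = τ.map (fun p => ((col p : Fin 10) : ℕ)) := by
      simp [List.map_map, Function.comp_def]
    rw [← this] at hnd
    exact List.Nodup.of_map _ hnd
  refine ⟨(τ.map col).toFinset, ?_, ?_⟩
  · rw [List.toFinset_card_of_nodup hnd']
    simpa using hlen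
  · apply isFace_of_tuple
    · intro h; rw [h] at hlen; simp at hlen
    · intro p hp; exact fc_unit hu hK (k := 3) (by omega) hτ hp
    · exact hclose 3 le_rfl τ hτ

/-! ### The plane counts and the extension step -/

open Classical in
/-- Indicator of a tuple labelled exactly by `T`. -/
def psi (col : (Fin 4 → ℝ) → Fin 10) (T : Finset (Fin 10)) (τ : List (Fin 4 → ℝ)) : ZMod 2 :=
  if (τ.map col).toFinset = T then 1 else 0

/-- The count mod 2 of triples of the plane chain in the frame `u` labelled exactly by `T`. -/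
def N (col : (Fin 4 → ℝ) → Fin 10) (u : ℕ → Fin 4 → ℝ) (K : ℕ) (T : Finset (Fin 10)) : ZMod 2 :=
  ev (psi col T) (fc u 4 K 2)

theorem psi_even (heven : ∀ x, col (-x) = col x) (T : Finset (Fin 10)) (τ : List (Fin 4 → ℝ)) :
    psi col T (τ.map Neg.neg) = psi col T τ := by
  unfold psi
  have : (τ.map Neg.neg).map col = τ.map col := by
    simp only [List.map_map]
    apply List.map_congr_left
    intro p _
    exact heven p
  rw [this]

/-- Combinatorics of the coboundary of `psi` on four letters. -/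
theorem delta_psi_four {T : Finset (Fin 10)} (hT : T.card = 3) {a b c e : Fin 10}
    (h : (if ([b, c, e].toFinset : Finset (Fin 10)) = T then (1 : ZMod 2) else 0)
      + ((if ([a, c, e].toFinset : Finset (Fin 10)) = T then (1 : ZMod 2) else 0)
      + ((if ([a, b, e].toFinset : Finset (Fin 10)) = T then (1 : ZMod 2) else 0)
      + (if ([a, b, c].toFinset : Finset (Fin 10)) = T then (1 : ZMod 2) else 0))) ≠ 0) :
    ∃ m, m ∉ T ∧ ([a, b, c, e].toFinset : Finset (Fin 10)) = insert m T := by
  have bad : ∀ x y z : Fin 10, (x = y ∨ y = z ∨ x = z) →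
      ¬ (([x, y, z].toFinset : Finset (Fin 10)) = T) := by
    intro x y z hxy hE
    have hc : ([x, y, z].toFinset : Finset (Fin 10)).card ≤ 2 := by
      rcases hxy with rfl | rfl | rfl
      · simpa using Finset.card_le_two
      · simpa using Finset.card_le_two
      · have : ([x, y, x].toFinset : Finset (Fin 10)) = {x, y} := by ext w; simp; tauto
        rw [this]; exact Finset.card_le_two
    rw [hE, hT] at hc
    omega
  by_cases hab : a = b
  · subst hab
    exfalso; apply h
    rw [if_neg (bad a a e (Or.inl rfl)), if_neg (bad a a c (Or.inl rfl))]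
    generalize (if ([a, c, e].toFinset : Finset (Fin 10)) = T then (1 : ZMod 2) else 0) = x
    revert x; decide
  by_cases hac : a = c
  · subst hac
    exfalso; apply h
    have e1 : ([b, a, e].toFinset : Finset (Fin 10)) = [a, b, e].toFinset := by ext w; simp; tauto
    rw [e1, if_neg (bad a a e (Or.inl rfl)), if_neg (bad a b a (Or.inr (Or.inr rfl)))]
    generalize (if ([a, b, e].toFinset : Finset (Fin 10)) = T then (1 : ZMod 2) else 0) = x
    revert x; decide
  by_cases hae : a = e
  · subst hae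
    exfalso; apply h
    have e1 : ([b, c, a].toFinset : Finset (Fin 10)) = [a, b, c].toFinset := by ext w; simp; tauto
    rw [e1, if_neg (bad a c a (Or.inr (Or.inr rfl))), if_neg (bad a b a (Or.inr (Or.inr rfl)))]
    generalize (if ([a, b, c].toFinset : Finset (Fin 10)) = T then (1 : ZMod 2) else 0) = x
    revert x; decide
  by_cases hbc : b = c
  · subst hbc
    exfalso; apply h
    rw [if_neg (bad b b e (Or.inl rfl)), if_neg (bad a b b (Or.inr (Or.inl rfl)))]
    generalize (if ([a, b, e].toFinset : Finset (Fin 10)) = T then (1 : ZMod 2) else 0) = x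
    revert x; decide
  by_cases hbe : b = e
  · subst hbe
    exfalso; apply h
    have e1 : ([a, c, b].toFinset : Finset (Fin 10)) = [a, b, c].toFinset := by ext w; simp; tauto
    rw [e1, if_neg (bad b c b (Or.inr (Or.inr rfl))), if_neg (bad a b b (Or.inr (Or.inl rfl)))]
    generalize (if ([a, b, c].toFinset : Finset (Fin 10)) = T then (1 : ZMod 2) else 0) = x
    revert x; decide
  by_cases hce : c = e
  · subst hce
    exfalso; apply h
    rw [if_neg (bad b c c (Or.inr (Or.inl rfl))), if_neg (bad a c c (Or.inr (Or.inl rfl)))]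
    generalize (if ([a, b, c].toFinset : Finset (Fin 10)) = T then (1 : ZMod 2) else 0) = x
    revert x; decide
  -- four distinct letters: some deletion is `T`
  by_cases h1 : ([b, c, e].toFinset : Finset (Fin 10)) = T
  · refine ⟨a, ?_, ?_⟩
    · rw [← h1]; simp [hab, hac, hae]
    · rw [← h1]; ext w; simp
  by_cases h2 : ([a, c, e].toFinset : Finset (Fin 10)) = T
  · refine ⟨b, ?_, ?_⟩
    · rw [← h2]; simp [Ne.symm hab, hbc, hbe]
    · rw [← h2]; ext w; simp; tauto
  by_cases h3 : ([a, b, e].toFinset : Finset (Fin 10)) = T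
  · refine ⟨c, ?_, ?_⟩
    · rw [← h3]; simp [Ne.symm hac, Ne.symm hbc, hce]
    · rw [← h3]; ext w; simp; tauto
  by_cases h4 : ([a, b, c].toFinset : Finset (Fin 10)) = T
  · refine ⟨e, ?_, ?_⟩
    · rw [← h4]; simp [Ne.symm hae, Ne.symm hbe, Ne.symm hce]
    · rw [← h4]; ext w; simp; tauto
  exfalso; apply h
  rw [if_neg h1, if_neg h2, if_neg h3, if_neg h4]
  decide

/-- The coboundary of `psi` on a `4`-tuple. -/
theorem delta_psi {T : Finset (Fin 10)} (hT : T.card = 3) {τ : List (Fin 4 → ℝ)} (hlen : τ.length = 4)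
    (h : delta (psi col T) τ ≠ 0) :
    ∃ m, m ∉ T ∧ (τ.map col).toFinset = insert m T := by
  match τ, hlen with
  | [a, b, c, e], _ =>
    apply delta_psi_four hT
    simpa [delta, dels, psi] using h

/-- **Extension step.** -/
theorem extension_step (heven : ∀ x, col (-x) = col x)
    (hmargin : ∀ x y : Fin 4 → ℝ, ∑ i, x i ^ 2 = 1 → ∑ i, y i ^ 2 = 1 → col x = col y →
      d ≤ |∑ i, x i * y i|) (hd : 0 < d) {η : ℝ} {K : ℕ} (hK : 0 < K)
    (hKη : 12 / (K : ℝ) ≤ η) {u : ℕ → Fin 4 → ℝ} (hu : IsFrame u 4) {T : Finset (Fin 10)}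
    (hT : T.card = 3) (hcol : col (u 2) ∈ T) (hN : N col u K T = 1) :
    ∃ m, m ∉ T ∧ IsFace col η (insert m T) := by
  have hKr : (0 : ℝ) < K := by exact_mod_cast hK
  have hsw := swp_isFrame hu
  have hu22 : ∑ k, u 2 k ^ 2 = 1 := by
    have := hu 2 2 (by omega) (by omega)
    simpa [sq] using this
  -- the count on the second plane vanishes
  have hN0 : ev (psi col T) (fc (swp u) 4 K 2) = 0 := by
    apply ev_zero
    intro τ hτ
    unfold psi
    rw [if_neg]
    intro hlab
    have hmem : col (u 2) ∈ (τ.map col).toFinset := by rw [hlab]; exact hcol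
    simp only [List.mem_toFinset, List.mem_map] at hmem
    obtain ⟨p, hp, hpc⟩ := hmem
    have hpu : ∑ k, p k ^ 2 = 1 := fc_unit hsw hK (k := 2) (by omega) hτ hp
    have horth : ∑ i, u 2 i * p i = 0 := by
      apply fc_orth hK (u := swp u) (k := 2) (N := 4) (by omega) hτ hp
      intro m hm
      have h2 := hu 2 (if m = 2 then 3 else m) (by omega) (by split_ifs <;> omega)
      have e : swp u m = u (if m = 2 then 3 else m) := by
        unfold swp
        split_ifs with h1 h3
        · rfl
        · omega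
        · rfl
      rw [e, h2]
      rw [if_neg]
      split_ifs <;> omega
    have hm := hmargin p (u 2) hpu hu22 hpc
    have e : ∑ i, p i * u 2 i = 0 := by
      rw [← horth]; exact Finset.sum_congr rfl fun i _ => by ring
    rw [e] at hm
    simp at hm
    linarith
  have hL : ev (delta (psi col T)) (lune u K K) = 1 := by
    rw [lune_St hK hK.ne' _ (psi_even heven T), hN0, add_zero]
    exact hN
  -- some `4`-tuple has nonzero coboundary
  have hex : ∃ τ ∈ lune u K K, delta (psi col T) τ ≠ 0 := by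
    by_contra hcon
    simp only [not_exists, not_and, not_not] at hcon
    rw [ev_zero hcon] at hL
    exact zero_ne_one hL
  obtain ⟨τ, hτ, hne⟩ := hex
  have hlen := lune_length hK hτ
  obtain ⟨m, hm, hlab⟩ := delta_psi hT hlen hne
  refine ⟨m, hm, ?_⟩
  rw [← hlab]
  apply isFace_of_tuple
  · intro h; rw [h] at hlen; simp at hlen
  · intro p hp; exact lune_unit hu hK hK hτ hp
  · intro p hp q hq
    have h1 := lune_close hu hK hK hτ hp hq
    have e : (4 : ℝ) * (4 / (K : ℝ) + 2 / K) ^ 2 = (12 / (K : ℝ)) ^ 2 := by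
      field_simp; ring
    rw [e] at h1
    exact h1.trans (pow_le_pow_left₀ (by positivity) hKη 2)

end Setting

end

end Crest.Agent.S0069Lib.Chains
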