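import Mathlib

/-!
# S0069: reduction of the Borsuk statement in dimension 9 to a covering statement on `S³`.

`v : ℝ⁴ → ℝ⁹` is (the coordinates of) the traceless Veronese map `x ↦ x xᵀ - |x|²/4 I`,
with `‖v x - v y‖² = 2 - 2 ⟪x, y⟫²` for unit vectors.

`NoTenCover` is the purely topological statement: no ten closed subsets of the unit sphere of `ℝ⁴`
without orthogonal pairs cover the sphere.  `result_of_noTenCover` derives the statement S0069.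
-/

set_option autoImplicit false

noncomputable section

namespace Crest.Agent.S0069Lib

open Real

abbrev E4 := EuclideanSpace ℝ (Fin 4)
abbrev E9 := EuclideanSpace ℝ (Fin 9)

/-- Square roots used in the orthonormal coordinates. -/
def r2 : ℝ := √2
def r12 : ℝ := √(1/2)
def r16 : ℝ := √(1/6)
def r112 : ℝ := √(1/12)

/-- Coordinates of the traceless Veronese map. -/
def vCoord (x : Fin 4 → ℝ) : Fin 9 → ℝ :=
  ![r2 * (x 0 * x 1), r2 * (x 0 * x 2), r2 * (x 0 * x 3),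
    r2 * (x 1 * x 2), r2 * (x 1 * x 3), r2 * (x 2 * x 3),
    r12 * (x 0 ^ 2 - x 1 ^ 2),
    r16 * (x 0 ^ 2 + x 1 ^ 2 - 2 * x 2 ^ 2),
    r112 * (x 0 ^ 2 + x 1 ^ 2 + x 2 ^ 2 - 3 * x 3 ^ 2)]

/-- The traceless Veronese map on `ℝ⁴`. -/
def v (x : E4) : E9 := WithLp.toLp 2 (vCoord (fun i => x i))

lemma v_continuous : Continuous v := by
  unfold v
  refine (PiLp.continuous_toLp 2 _).comp ?_
  refine continuous_pi fun k => ?_
  have hx : ∀ i : Fin 4, Continuous fun x : E4 => x i := fun i =>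
    (PiLp.continuous_apply 2 _ i)
  fin_cases k <;> simp [vCoord] <;> fun_prop

lemma inner_eq (x y : E4) : inner ℝ x y = x 0 * y 0 + x 1 * y 1 + x 2 * y 2 + x 3 * y 3 := by
  simp [PiLp.inner_apply, Fin.sum_univ_four]
  ring

lemma norm_sq_eq (x : E4) : ‖x‖ ^ 2 = x 0 ^ 2 + x 1 ^ 2 + x 2 ^ 2 + x 3 ^ 2 := by
  rw [EuclideanSpace.norm_eq, Real.sq_sqrt (by positivity)]
  simp [Fin.sum_univ_four]

/-- The key identity for unit vectors. -/
lemma dist_v_sq (x y : E4) (hx : ‖x‖ = 1) (hy : ‖y‖ = 1) :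
    dist (v x) (v y) ^ 2 = 2 - 2 * (inner ℝ x y) ^ 2 := by
  have hx' := norm_sq_eq x
  have hy' := norm_sq_eq y
  rw [hx] at hx'
  rw [hy] at hy'
  have h2 : r2 ^ 2 = 2 := Real.sq_sqrt (by norm_num)
  have a1 : r12 ^ 2 = 1/2 := Real.sq_sqrt (by norm_num)
  have a2 : r16 ^ 2 = 1/6 := Real.sq_sqrt (by norm_num)
  have a3 : r112 ^ 2 = 1/12 := Real.sq_sqrt (by norm_num)
  rw [EuclideanSpace.dist_eq, Real.sq_sqrt (by positivity), inner_eq]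
  simp only [Fin.sum_univ_succ, v, vCoord, Real.dist_eq, sq_abs]
  simp
  set x0 := x 0
  set x1 := x 1
  set x2 := x 2
  set x3 := x 3
  set y0 := y 0
  set y1 := y 1
  set y2 := y 2
  set y3 := y 3
  set s := r2
  set α := r12
  set β := r16
  set γ := r112
  have e : (s * (x0 * x1) - s * (y0 * y1)) ^ 2 + ((s * (x0 * x2) - s * (y0 * y2)) ^ 2 +
        ((s * (x0 * x3) - s * (y0 * y3)) ^ 2 + ((s * (x1 * x2) - s * (y1 * y2)) ^ 2 +
        ((s * (x1 * x3) - s * (y1 * y3)) ^ 2 + ((s * (x2 * x3) - s * (y2 * y3)) ^ 2 +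
        ((α * (x0 ^ 2 - x1 ^ 2) - α * (y0 ^ 2 - y1 ^ 2)) ^ 2 +
        ((β * (x0 ^ 2 + x1 ^ 2 - 2 * x2 ^ 2) - β * (y0 ^ 2 + y1 ^ 2 - 2 * y2 ^ 2)) ^ 2 +
        (γ * (x0 ^ 2 + x1 ^ 2 + x2 ^ 2 - 3 * x3 ^ 2) -
          γ * (y0 ^ 2 + y1 ^ 2 + y2 ^ 2 - 3 * y3 ^ 2)) ^ 2)))))))
      = 2 - 2 * (x0 * y0 + x1 * y1 + x2 * y2 + x3 * y3) ^ 2 := by
    have key : s ^ 2 * ((x0 * x1 - y0 * y1) ^ 2 + (x0 * x2 - y0 * y2) ^ 2 + (x0 * x3 - y0 * y3) ^ 2
        + (x1 * x2 - y1 * y2) ^ 2 + (x1 * x3 - y1 * y3) ^ 2 + (x2 * x3 - y2 * y3) ^ 2)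
        + α ^ 2 * ((x0 ^ 2 - x1 ^ 2) - (y0 ^ 2 - y1 ^ 2)) ^ 2
        + β ^ 2 * ((x0 ^ 2 + x1 ^ 2 - 2 * x2 ^ 2) - (y0 ^ 2 + y1 ^ 2 - 2 * y2 ^ 2)) ^ 2
        + γ ^ 2 * ((x0 ^ 2 + x1 ^ 2 + x2 ^ 2 - 3 * x3 ^ 2) -
            (y0 ^ 2 + y1 ^ 2 + y2 ^ 2 - 3 * y3 ^ 2)) ^ 2
        = 2 - 2 * (x0 * y0 + x1 * y1 + x2 * y2 + x3 * y3) ^ 2 := by
      rw [h2, a1, a2, a3]
      have : (x0 ^ 2 + x1 ^ 2 + x2 ^ 2 + x3 ^ 2) ^ 2 = 1 := by rw [← hx']; norm_num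
      have h' : (y0 ^ 2 + y1 ^ 2 + y2 ^ 2 + y3 ^ 2) ^ 2 = 1 := by rw [← hy']; norm_num
      have h'' : (x0 ^ 2 + x1 ^ 2 + x2 ^ 2 + x3 ^ 2) * (y0 ^ 2 + y1 ^ 2 + y2 ^ 2 + y3 ^ 2) = 1 := by
        rw [← hx', ← hy']; norm_num
      linear_combination (3 / 4 : ℝ) * this + (3 / 4 : ℝ) * h' + (1 / 2 : ℝ) * h''
    rw [← key]
    ring
  linarith [e]

/-- The covering statement on `S³`: ten closed sets covering the unit sphere of `ℝ⁴`, one of them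
contains an orthogonal pair. -/
def NoTenCover : Prop :=
  ∀ A : Fin 10 → Set E4, (∀ i, IsClosed (A i)) →
    (∀ x : E4, ‖x‖ = 1 → ∃ i, x ∈ A i) →
    ∃ i, ∃ x ∈ A i, ∃ y ∈ A i, ‖x‖ = 1 ∧ ‖y‖ = 1 ∧ inner ℝ x y = 0

/-- The Veronese image of the sphere. -/
def S : Set E9 := v '' {x : E4 | ‖x‖ = 1}

lemma e (i : Fin 4) : ‖(EuclideanSpace.single i (1:ℝ) : E4)‖ = 1 := by simp

lemma S_compact : IsCompact S := by
  apply IsCompact.image _ v_continuous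
  have : {x : E4 | ‖x‖ = 1} = Metric.sphere (0 : E4) 1 := by ext; simp
  rw [this]
  exact isCompact_sphere _ _

lemma dist_pair : dist (v (EuclideanSpace.single 0 (1:ℝ))) (v (EuclideanSpace.single 1 (1:ℝ))) = √2 := by
  have h := dist_v_sq (EuclideanSpace.single 0 (1:ℝ)) (EuclideanSpace.single 1 (1:ℝ)) (e 0) (e 1)
  have h0 : inner ℝ (EuclideanSpace.single (0 : Fin 4) (1:ℝ) : E4) (EuclideanSpace.single 1 (1:ℝ)) = 0 := by
    rw [inner_eq]; simp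
  rw [h0] at h
  have : dist (v (EuclideanSpace.single 0 (1:ℝ))) (v (EuclideanSpace.single 1 (1:ℝ))) ^ 2 = 2 := by
    rw [h]; norm_num
  rw [← this, Real.sqrt_sq dist_nonneg]

lemma diam_S_le : Metric.diam S ≤ √2 := by
  apply Metric.diam_le_of_forall_dist_le (by positivity)
  rintro _ ⟨x, hx, rfl⟩ _ ⟨y, hy, rfl⟩
  have h := dist_v_sq x y hx hy
  have : dist (v x) (v y) ^ 2 ≤ 2 := by rw [h]; nlinarith [sq_nonneg (inner ℝ x y)]
  calc dist (v x) (v y) = √(dist (v x) (v y) ^ 2) := (Real.sqrt_sq dist_nonneg).symm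
    _ ≤ √2 := Real.sqrt_le_sqrt this

/-- **Reduction**: the covering statement implies the statement S0069. -/
theorem result_of_noTenCover (T : NoTenCover) :
    ∃ S : Set (EuclideanSpace ℝ (Fin 9)), Bornology.IsBounded S ∧ S.Nontrivial ∧
      ∀ c : EuclideanSpace ℝ (Fin 9) → Fin 10, ∃ i : Fin 10,
        Metric.diam S ≤ Metric.diam (S ∩ c ⁻¹' {i}) := by
  refine ⟨S, S_compact.isBounded, ?_, ?_⟩
  · refine ⟨v (EuclideanSpace.single 0 (1:ℝ)), ⟨_, e 0, rfl⟩, v (EuclideanSpace.single 1 (1:ℝ)), ⟨_, e 1, rfl⟩, ?_⟩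
    intro h
    have := dist_pair
    rw [h, dist_self] at this
    have h2 : (0:ℝ) < √2 := by positivity
    linarith
  · intro c
    let A : Fin 10 → Set E4 := fun i => closure ({x : E4 | ‖x‖ = 1} ∩ v ⁻¹' (c ⁻¹' {i}))
    obtain ⟨i, x, hx, y, hy, hx1, hy1, hxy⟩ := T A (fun i => isClosed_closure) (fun x hx =>
      ⟨c (v x), subset_closure ⟨hx, rfl⟩⟩)
    refine ⟨i, diam_S_le.trans ?_⟩
    have hb : Bornology.IsBounded (S ∩ c ⁻¹' {i}) := S_compact.isBounded.subset Set.inter_subset_left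
    have hmem : ∀ z ∈ A i, v z ∈ closure (S ∩ c ⁻¹' {i}) := by
      intro z hz
      have : v '' (closure ({x : E4 | ‖x‖ = 1} ∩ v ⁻¹' (c ⁻¹' {i}))) ⊆
          closure (v '' ({x : E4 | ‖x‖ = 1} ∩ v ⁻¹' (c ⁻¹' {i}))) := image_closure_subset_closure_image v_continuous
      refine closure_mono ?_ (this ⟨z, hz, rfl⟩)
      rintro _ ⟨w, ⟨hw1, hw2⟩, rfl⟩
      exact ⟨⟨w, hw1, rfl⟩, hw2⟩
    have hd : dist (v x) (v y) ≤ Metric.diam (S ∩ c ⁻¹' {i}) := by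
      rw [← Metric.diam_closure]
      exact Metric.dist_le_diam_of_mem hb.closure (hmem x hx) (hmem y hy)
    have h := dist_v_sq x y hx1 hy1
    rw [hxy] at h
    have h' : dist (v x) (v y) ^ 2 = 2 := by rw [h]; norm_num
    have : √2 = dist (v x) (v y) := by rw [← h', Real.sqrt_sq dist_nonneg]
    rw [this]
    exact hd

end Crest.Agent.S0069Lib
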